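import Vale.Agent.P004C.Ln.Ei2c
import Vale.Agent.P004C.Al.Hc

/-!
# P004 C, block LN: lattice sums of weight four as sums over ideals
-/

set_option linter.unusedSectionVars false

open NumberField Ideal UpperHalfPlane
open scoped Classical ComplexConjugate

noncomputable section

namespace Vale.Agent.P004C.Ln.Eb

open P004K (Cop st Oc)
open Wa Wa.Cj

variable {K : Type} [Field K] [NumberField K] {J : K →+* ℂ} {θ : 𝓞 K} {s : 𝓞 K ≃+* 𝓞 K}
  {D c m h f : ℕ} {p q x y z ν : 𝓞 K} {I A B C n n' : Ideal (𝓞 K)} {u w k₀ : ℤ}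

/-- invertible modulo `A` -/
def Iu (x : 𝓞 K) (A : Ideal (𝓞 K)) : Prop := ∃ r, r * x - 1 ∈ A

theorem Iu.of_cop (h : IsCoprime x y) (k : y ∈ A) : Iu x A :=
  let ⟨a, b, e⟩ := h
  ⟨a, by rw [show a * x - 1 = -b * y by linear_combination e]; exact mul_mem_left _ _ k⟩

theorem Iu.of_mul (h : Iu z A) (k : x * y - z ∈ A) : Iu x A :=
  let ⟨r, e⟩ := h
  ⟨r * y, by
    rw [show r * y * x - 1 = r * (x * y - z) + (r * z - 1) by ring]
    exact add_mem (mul_mem_left _ _ k) e⟩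

theorem Iu.cancel (h : Iu x A) (l : A ≤ C) (k : z * x ∈ C) : z ∈ C := by
  obtain ⟨r, e⟩ := h
  rw [show z = r * (z * x) - z * (r * x - 1) by ring]
  exact sub_mem (mul_mem_left _ _ k) (mul_mem_left _ _ (l e))

/-- the part of `n` of norm `h` -/
abbrev nh (n : Ideal (𝓞 K)) (h : ℕ) : Ideal (𝓞 K) := n ⊔ span {(h : 𝓞 K)}

theorem h_nh : (h : 𝓞 K) ∈ nh n h := mem_sup_right (mem_span_singleton_self _)

theorem cop_dvd (h : Cop m A) (k : (m : 𝓞 K) ∈ C) (d : C ∣ A * I) : C ∣ I :=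
  (isCoprime_iff_sup_eq.2 (top_unique (h.2 ▸ sup_le le_sup_right
    (((span_singleton_le_iff_mem _).2 k).trans le_sup_left)))).dvd_of_dvd_mul_left d

theorem mul_s (g : Cg J θ s) (y : 𝓞 K) : y * s y = absNorm (span {y}) := jinj J (by
  have := g.cj y
  simp only [RingOfIntegers.coe_eq_algebraMap, map_mul, map_natCast] at this ⊢
  rw [this, Complex.mul_conj', ← Complex.ofReal_pow]
  exact_mod_cast (g.ab y).symm)

/-- the standing hypotheses -/
structure Hy (J : K →+* ℂ) (D : ℕ) (θ : 𝓞 K) (s : 𝓞 K ≃+* 𝓞 K) (c m : ℕ) (n n' : Ideal (𝓞 K))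
    (ν : 𝓞 K) : Prop where
  k : Kd J D θ
  g : Cg J θ s
  S : Sp m n n'
  c0 : 0 < c
  cm : c.Coprime (m * D)
  dm : D.Coprime m
  n0 : ν ∈ n' ^ 2
  n1 : ν - 1 ∈ n

section

variable (H : Hy J D θ s c m n n' ν) (hB : Cop (c * m) B) (G : Gb s θ c m B ν p q)
include H

theorem Hy.m_mem : (m : 𝓞 K) ∈ n' * nh n h :=
  mul_mono_right le_sup_left (mul_comm n n' ▸ H.S.mul ▸ mem_span_singleton_self _)

theorem Hy.nm (d : h ∣ m) : absNorm (nh n h) = h := Cms.sup_nm H.g (sp_symm H.g H.S) d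

theorem Hy.ne : n' * nh n h ≠ ⊥ := fun e => by
  simpa [e, H.S.pos.ne'] using H.m_mem (h := h)

theorem Hy.th : IsCoprime (c * θ) m :=
  (cop_nat (Nat.Coprime.coprime_mul_right_right H.cm)).mul_left (IsCoprime.of_mul_left_left
    (y := -θ) (by rw [mul_neg, ← sq, H.k.sq, neg_neg]; exact cop_nat H.dm))

include G

theorem Hy.p_mem : p ∈ n' ^ 2 := by
  obtain ⟨y, e⟩ := G.ad
  rw [eq_add_of_sub_eq e]
  exact add_mem (mul_mem_right _ _ (pow_mem_pow (sp_m H.S).2 2))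
    (mul_mem_left _ _ (mul_mem_left _ _ H.n0))

theorem Hy.p_mem' : p ∈ n' := pow_le_self two_ne_zero (H.p_mem G)

theorem Hy.dv2 (u w : ℤ) : u * m * q + h * w * p ∈ n' * nh n h :=
  add_mem (mul_mem_right _ _ (mul_mem_left _ _ H.m_mem))
    (mul_comm p _ ▸ mul_mem_mul (H.p_mem' G) (mul_mem_right _ _ h_nh))

include hB

omit G in
theorem Hy.N_cop : IsCoprime (absNorm B : 𝓞 K) m := (cop_el.1 (un_nm H.g (cop_of hB).2).2).2

theorem Hy.p_iu : Iu p n := by
  obtain ⟨y, e⟩ := G.ad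
  refine (Iu.of_cop ((H.N_cop hB).mul_left H.th.of_mul_left_left) (sp_m H.S).1).of_mul (y := 1) ?_
  rw [show p * 1 - absNorm B * c = m * (m * y) + absNorm B * c * (ν - 1) by linear_combination e]
  exact add_mem (mul_mem_right _ _ (sp_m H.S).1) (mul_mem_left _ _ H.n1)

theorem Hy.q_iu : Iu q n' := by
  refine (Iu.of_cop (H.th.mul_left (H.N_cop hB)) (sp_m H.S).2).of_mul (y := s p) ?_
  rw [← G.cov, sub_sub_cancel]
  exact mul_mem_right _ _ (H.p_mem' G)

theorem Hy.dv1 (d : h ∣ m) (k : u * q + w * p ∈ n' * nh n h) : (m : ℤ) ∣ u ∧ (h : ℤ) ∣ w := by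
  have a := (H.g.sp_int H.S u).1 ((H.q_iu hB G).cancel le_rfl ((n'.add_mem_iff_left
    (mul_mem_left _ _ (H.p_mem' G))).1 (mul_le_left k)))
  refine ⟨a, int_sup H.g (sp_symm H.g H.S) d ((H.p_iu hB G).cancel le_sup_left
    (((nh n h).add_mem_iff_right (mem_sup_left (mul_mem_right _ _ ?_))).1 (mul_le_right k)))⟩
  exact (H.g.sp_int (sp_symm H.g H.S) u).2 a

variable (e : span {u * m * q + h * w * p} = B.map s * (n' * nh n h * I))
include e

theorem Hy.cop_iff : I ⊔ n' = ⊤ ↔ IsCoprime u (m : ℤ) := by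
  refine ⟨fun k => ?_, fun k => ?_⟩
  · have d : u.gcd m ∣ m := Int.natCast_dvd_natCast.1 (Int.gcd_dvd_right u m)
    have a : u * m * q + h * w * p ∈ n' * nh n h * nh n' (u.gcd m) := by
      refine add_mem (mul_mem_right _ _ (mul_comm (m : 𝓞 K) u ▸ mul_mem_mul H.m_mem
        (mem_sup_right (mem_span_singleton.2 ?_)))) ?_
      · simpa using map_dvd (Int.castRingHom (𝓞 K)) (Int.gcd_dvd_left u m)
      · rw [mul_right_comm n', mul_comm _ p]
        exact mul_mem_mul (mul_mono_right le_sup_left (sq n' ▸ H.p_mem G)) (mul_mem_right _ _ h_nh)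
    rw [← dvd_span_singleton, e, mul_left_comm, mul_dvd_mul_iff_left H.ne] at a
    have b := le_of_dvd (cop_dvd (cop_map (cop_of hB).2) (mem_sup_left (sp_m H.S).2) a)
    exact Int.isCoprime_iff_gcd_eq_one.2 (Nat.dvd_one.1 (Int.natCast_dvd_natCast.1
      (int_sup H.g H.S d (j := 1) ((k.ge.trans (sup_le b le_sup_left)) trivial))))
  · have a : u * m * q + h * w * p ∈ n' * (I ⊔ n') := by
      rw [← span_singleton_le_iff_mem, e]
      exact mul_le_right.trans (mul_mono mul_le_left le_sup_left)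
    have b := ((n' * (I ⊔ n')).add_mem_iff_left
      (mul_mem_left _ _ (mul_mono_right le_sup_right (sq n' ▸ H.p_mem G)))).1 a
    rw [mul_right_comm, ← dvd_span_singleton, ← span_singleton_mul_span_singleton, ← H.S.mul,
      ← mul_assoc, mul_comm _ n', mul_dvd_mul_iff_left (sp_ne H.S).2] at b
    obtain ⟨x, hx, y, hy, r⟩ := Submodule.mem_sup.1 ((eq_top_iff_one _).1 H.S.cop)
    have l : u * q ∈ I ⊔ n' := by
      rw [← mul_one (u * q : 𝓞 K), ← r, mul_add]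
      exact add_mem (le_of_dvd b (mul_mem_mul (mem_span_singleton_self _) hx))
        (mem_sup_right (mul_mem_left _ _ hy))
    refine (eq_top_iff_one _).2 ((Iu.of_cop (x := (u : 𝓞 K)) ?_ (sp_m H.S).2).cancel le_sup_right
      (by simpa using (H.q_iu hB G).cancel le_sup_right l))
    simpa using k.map (Int.castRingHom (𝓞 K))

theorem Hy.nm_eq (d : f * h ∣ m) (t : θ - k₀ ∈ n') : (f : ℤ) ∣ absNorm I - c * k₀ * (u * w) := by
  have e1 := mul_s H.g (u * m * q + h * w * p)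
  rw [e, map_mul absNorm, map_mul absNorm, map_mul absNorm, Cj.absNorm_map, H.g.sp_nm H.S,
    H.nm ((dvd_mul_left h f).trans d)] at e1
  obtain ⟨z, hz⟩ : (m : 𝓞 K) ^ 2 ∣ p * s p := by
    have := mem_map_of_mem s (H.p_mem G)
    rw [Ideal.map_pow, (H.g.sp H.S).2] at this
    rw [← mem_span_singleton, ← span_singleton_pow, ← H.S.mul, mul_pow, mul_comm p]
    exact mul_mem_mul this (H.p_mem G)
  have d1 := (dvd_mul_right f h).trans d
  obtain ⟨r, hr⟩ := Nat.cast_dvd_cast (α := 𝓞 K) d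
  have m0 : (m : 𝓞 K) ≠ 0 := by simpa using H.S.pos.ne'
  have h0 : (h : 𝓞 K) ≠ 0 := fun k => m0 (by simp [hr, k])
  simp only [map_add, map_mul, map_intCast, map_natCast] at e1
  push_cast at e1 hr
  refine ((cop_int H.g (k := f) (l := absNorm B) (by
    simpa using ((H.N_cop hB).of_isCoprime_of_dvd_right (Nat.cast_dvd_cast d1)).symm))).dvd_of_dvd_mul_left
      (int_sup H.g H.S d1 ?_)
  rw [show ((absNorm B * (absNorm I - c * k₀ * (u * w)) : ℤ) : 𝓞 K) = u ^ 2 * r * (q * s q) * f +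
    (u * w * c * absNorm B * (θ - k₀) + (2 * u * w * s q * p + h * w ^ 2 * z * m)) from
      mul_left_cancel₀ (mul_ne_zero m0 h0) (by
        push_cast
        linear_combination -e1 + u ^ 2 * m * (q * s q) * hr + m * h * u * w * G.cov +
          h ^ 2 * w ^ 2 * hz)]
  exact add_mem (mul_mem_left _ _ h_nh) (mem_sup_left (add_mem (mul_mem_left _ _ t)
    (add_mem (mul_mem_left _ _ (H.p_mem' G)) (mul_mem_left _ _ (sp_m H.S).2))))

end

variable {b : Ideal (𝓞 K) → ℂ} {ψ : ℤ → ℂ} {τ : ℍ}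

theorem b_span (b4 : HC J 4 ⊤ b) (h : y ≠ 0) : b (span {y}) = (J y)⁻¹ ^ 4 := by
  simpa using b4.prn y h trivial

theorem b_ne (b4 : HC J 4 ⊤ b) (h : I ≠ ⊥) : b I ≠ 0 := by simpa [b4.zero] using h

theorem Hy.im (H : Hy J D θ s c m n n' ν) : IsEmpty (K →+* ℝ) := ⟨fun r => by
  have := congrArg (fun x : 𝓞 K => r x) H.k.sq
  have d : (0 : ℝ) < D := by have := H.k.md; exact_mod_cast (by omega : 0 < D)
  simp only [map_pow, map_neg, map_natCast] at this
  nlinarith [sq_nonneg (r (algebraMap _ K θ))]⟩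

theorem Hy.b_sum (H : Hy J D θ s c m n n' ν) (b4 : HC J 4 ⊤ b) : Summable fun I => ‖b I‖ :=
  b4.sum H.k.two H.im (by norm_num)

/-- the series over the multiples of `C` -/
def fc (C n' : Ideal (𝓞 K)) (ψ : ℤ → ℂ) (b : Ideal (𝓞 K) → ℂ) : Ideal (𝓞 K) → ℂ :=
  Function.extend (C * ·) (fun I => b C * Dp n' (fun I => ψ (absNorm I) * b I) I) 0

theorem fc_mul (h : C ≠ ⊥) (I : Ideal (𝓞 K)) :
    fc C n' ψ b (C * I) = b C * Dp n' (fun I => ψ (absNorm I) * b I) I :=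
  (mul_right_injective₀ h).extend_apply _ _ _

theorem fc_not (h : ¬ C ∣ I) : fc C n' ψ b I = 0 :=
  Function.extend_apply' _ _ _ fun ⟨a, e⟩ => h ⟨a, e.symm⟩

theorem fc_le (b4 : HC J 4 ⊤ b) (h : C ≠ ⊥) (l : ∀ d, ‖ψ d‖ ≤ 1) (I : Ideal (𝓞 K)) :
    ‖fc C n' ψ b I‖ ≤ ‖b I‖ := by
  by_cases d : C ∣ I
  · obtain ⟨I, rfl⟩ := d
    rw [fc_mul h, b4.mul, norm_mul, norm_mul, Dp]
    refine mul_le_mul_of_nonneg_left ?_ (norm_nonneg _)
    split_ifs
    · rw [norm_mul]; exact mul_le_of_le_one_left (norm_nonneg _) (l _)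
    · simp
  · simp [fc_not d]

/-- **one lattice** -/
theorem Hy.one (H : Hy J D θ s c m n n' ν) (hB : Cop (c * m) B) (G : Gb s θ c m B ν p q)
    (p0 : p ≠ 0) (e : J q = J p * τ) (b4 : HC J 4 ⊤ b) (r : Cr f ψ) (l : ∀ d, ‖ψ d‖ ≤ 1)
    (d : f * h ∣ m) (t : θ - k₀ ∈ n') :
    HasSum (fun x : ℤ × ℤ => ψ (c * k₀) * (b B * (absNorm B / J p) ^ 4) *
      ((if IsCoprime x.1 (m : ℤ) then ψ x.1 else 0) * (if (h : ℤ) ∣ x.2 then ψ (x.2 / h) else 0) /
        (x.1 * m * τ + x.2) ^ 4)) (2 * ∑' I, if Rl c B I then fc (n' * nh n h) n' ψ b I else 0) := by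
  have hc := (cop_of hB).1
  have d1 := (dvd_mul_left h f).trans d
  have h0 : (h : ℤ) ≠ 0 := by exact_mod_cast (Nat.pos_of_dvd_of_pos d1 H.S.pos).ne'
  have m0 : (m : ℤ) ≠ 0 := by exact_mod_cast H.S.pos.ne'
  have p1 : J p ≠ 0 := by simpa using p0
  have j : ∀ u w : ℤ, J (u * m * q + w * p : 𝓞 K) = J p * (u * m * τ + w) := fun u w => by
    simp only [RingOfIntegers.coe_eq_algebraMap, map_add, map_mul, map_intCast, map_natCast] at e ⊢
    rw [e]; ring
  have cd : ∀ {y I}, span {y} = B.map s * I → y ∈ n' * nh n h → n' * nh n h ∣ I := fun k y =>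
    cop_dvd (cop_map (cop_of hB).2) H.m_mem (k ▸ dvd_span_singleton.2 y)
  have cd' : ∀ {y I}, span {y} = B.map s * I → n' * nh n h ∣ I → y ∈ n' * nh n h := fun k y =>
    dvd_span_singleton.1 (k ▸ y.mul_left _)
  refine lat2 H.g H.k.upm hc ((H.b_sum b4).of_nonneg_of_le (fun _ => norm_nonneg _)
    (fc_le b4 H.ne l)) (norm_le_zero_iff.1 ((fc_le b4 H.ne l ⊥).trans (by simp [b4.bot])))
    (Y := fun x => x.1 * m * q + x.2 * p) (fun x y k => ?_)
    (fun x => (G.mem _).2 ⟨x.1 * m, x.2, by simp⟩) (fun ⟨u, w⟩ I k => ?_) fun y I o k n => ?_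
  · have := congrArg (fun z : 𝓞 K => J z) k
    simp only [j] at this
    obtain ⟨a, b⟩ := Pe.lin_inj (τ := τ) (a := x.1 * m) (b := x.2) (a' := y.1 * m) (b' := y.2)
      (by simpa using mul_left_cancel₀ p1 this)
    exact Prod.ext (mul_right_cancel₀ m0 a) b
  · dsimp only at k ⊢
    by_cases hw : (h : ℤ) ∣ w
    swap
    · rw [if_neg hw, fc_not fun d => hw (H.dv1 hB G d1 (u := u * m) (by simpa using cd' k d)).2]
      simp
    obtain ⟨w, rfl⟩ := hw
    rw [if_pos (dvd_mul_right _ _), Int.mul_ediv_cancel_left _ h0,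
      ← mul_div_cancel_left₀ (u * m * τ + (h * w : ℤ) : ℂ) p1, ← j, Int.cast_mul, Int.cast_natCast]
    rw [Int.cast_mul, Int.cast_natCast] at k
    obtain ⟨I, rfl⟩ := cd k (H.dv2 G u w)
    rw [fc_mul H.ne, Dp]
    simp only [H.cop_iff hB G k, r.per _ _ (H.nm_eq hB G k d t), r.mul]
    split_ifs
    swap
    · simp
    by_cases y0 : u * m * q + h * w * p = 0
    · rw [y0, span_singleton_zero, eq_comm, mul_eq_bot, mul_eq_bot] at k
      rw [y0, (k.resolve_left (cop_map hc).1).resolve_left H.ne, b4.bot]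
      simp
    have e1 := congrArg b k
    have e2 := congrArg b (H.g.nm B)
    rw [b_span b4 y0, b4.mul, b4.mul] at e1
    rw [b_span b4 (cop_el.1 (un_nm H.g hc).2).1, b4.mul] at e2
    have N0 := nm_ne hc
    have y1 : J (u * m * q + h * w * p : 𝓞 K) ≠ 0 :=
      (_root_.map_ne_zero J).2 (RingOfIntegers.coe_ne_zero_iff.2 y0)
    simp only [map_natCast] at e2
    generalize J (u * m * q + h * w * p : 𝓞 K) = Y at *
    field_simp at e1 e2 ⊢
    linear_combination ψ c * ψ k₀ * ψ u * ψ w * b B * absNorm B ^ 4 * e1 +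
      ψ c * ψ k₀ * ψ u * ψ w * b (n' * nh n h) * b I * Y ^ 4 * e2
  · obtain ⟨u, w, rfl⟩ := (G.mem y).1 ⟨mul_le_left (k ▸ mem_span_singleton_self y :), o⟩
    obtain ⟨u, rfl⟩ := (H.dv1 hB G d1 (cd' k (not_not.1 (mt fc_not n)))).1
    exact ⟨(u, w), by simp [mul_comm]⟩

end Vale.Agent.P004C.Ln.Eb
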