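import Vale.Agent.P004C.Ln.Ei2a
import Vale.Agent.P004C.Ln.Ei2d

/-!
# P004 C, block LN: the period of the Eisenstein series (row EI2)
-/

set_option linter.unusedSectionVars false

open NumberField Ideal UpperHalfPlane
open scoped Classical Real ComplexConjugate

noncomputable section

namespace Vale.Agent.P004C.Ln

open P004K (Cop st Oc)
open Wa Wa.Cj Ea

namespace Eb

variable {K : Type} [Field K] [NumberField K] {J : K →+* ℂ} {θ : 𝓞 K} {s : 𝓞 K ≃+* 𝓞 K}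
  {D c m h f : ℕ} {ν : 𝓞 K} {I F n n' : Ideal (𝓞 K)} {ξ a b : Ideal (𝓞 K) → ℂ} {ψ : ℤ → ℂ}
  {V : AbsoluteValue ℂ ℝ}

theorem ac_sum (H : HC J 4 F a) (l : ∀ I, ‖a I‖ ≤ (absNorm I : ℝ) ^ (-2 : ℝ)) :
    AC a (∑' I, a I) := by
  refine ⟨1 / 2, by norm_num, fun z => ∑' I, a I * (absNorm I : ℂ) ^ (-z), fun _ => 1,
    Complex.differentiableOn_tsum_of_summable_norm (Al.sum_norm K (s := 3 / 2) (by norm_num))
      (fun I => ?_) (isOpen_lt continuous_const Complex.continuous_re) fun I z hz => ?_,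
    differentiableOn_const _, one_ne_zero, by simp, fun _ _ => (one_mul _).symm⟩
  all_goals
    by_cases I0 : I = ⊥
    · simp [I0, H.bot]
    have p : 0 < absNorm I := Nat.pos_of_ne_zero (mt absNorm_eq_zero_iff.1 I0)
  · exact ((differentiable_id.neg.const_cpow (.inl (by exact_mod_cast p.ne'))).const_mul
      _).differentiableOn
  · rw [norm_mul, Complex.norm_natCast_cpow_of_pos p]
    refine (mul_le_mul_of_nonneg_right (l I) (by positivity)).trans ?_
    rw [← Real.rpow_add (by exact_mod_cast p)]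
    refine Real.rpow_le_rpow_of_exponent_le (by exact_mod_cast p) ?_
    have : -(1 / 2 : ℝ) < z.re := hz
    rw [Complex.neg_re]
    linarith

theorem v_J (g : Cg J θ s) (v : IsNonarchimedean V) (x : 𝓞 K) : V (J x) ≤ 1 := by
  obtain ⟨k, hk⟩ := g.fix (x + s x) (by rw [map_add, g.ss, add_comm])
  have e : J x * J x = k * J x + -(absNorm (span {x}) : ℂ) := by
    simpa using congrArg (fun y : 𝓞 K => J y) (show x * x = k * x + -(absNorm (span {x}) : 𝓞 K) by
      linear_combination x * hk - mul_s g x)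
  have a : V k ≤ 1 := by
    rcases k.eq_nat_or_neg with ⟨j, rfl | rfl⟩ <;> simpa using v_nat v j
  have := v (k * J x) (-(absNorm (span {x}) : ℂ))
  rw [← e, map_mul, map_mul, V.map_neg] at this
  rcases le_max_iff.1 this with l | l
  · nlinarith [V.nonneg (J x)]
  · nlinarith [v_nat v (absNorm (span {x})), V.nonneg (J x)]

theorem v_b (g : Cg J θ s) (v : IsNonarchimedean V) (b4 : HC J 4 ⊤ b) {x : 𝓞 K} (hx : x ∈ I)
    (e : V (J x) = 1) : V (b I) = 1 := by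
  obtain ⟨j, j0, y, y0, -, k⟩ := ex_gen (f := ⊤) (I := I) top_ne_bot
    (fun k => by simp [mem_bot.1 (k ▸ hx)] at e) (sup_top_eq I)
  obtain ⟨z, hz⟩ := mem_span_singleton.1 (k ▸ pow_mem_pow hx j)
  have e1 := congrArg (fun y : 𝓞 K => V (J y)) hz
  have e2 := congrArg V (b_span b4 y0)
  simp only [RingOfIntegers.coe_eq_algebraMap, map_pow, map_mul] at e e1 e2
  rw [e, one_pow] at e1
  rw [k, b4.cm.pow, map_pow, map_inv₀, (v_J g v y).antisymm
    (e1.le.trans (mul_le_of_le_one_right (V.nonneg _) (v_J g v z))), inv_one, one_pow] at e2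
  exact (pow_eq_one_iff_of_nonneg (V.nonneg _) j0.ne').1 e2

theorem v_xi (R : Rg c ξ) (h : Cop c I) : V (ξ I) = 1 := by
  obtain ⟨j, j0, y, y0, y1, k⟩ := ex_gen R.rc.ne h.1 h.2
  exact v_root j0.ne' (by rw [← (⟨R.rc.one, R.rc.mul⟩ : Al.Cm ξ).pow, ← k, R.rc.prn y y0 y1])

theorem psi_ne (g : Cg J θ s) (r : Cr f ψ) (I0 : I ≠ ⊥) :
    ψ (absNorm I) ≠ 0 ↔ I ⊔ span {(f : 𝓞 K)} = ⊤ := by
  rw [ne_eq, r.zero, not_not]
  refine ⟨fun ⟨u, w, e⟩ => (eq_top_iff_one _).2 ?_, fun k =>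
    cop_int g (by simpa using (cop_el.1 (un_nm g ⟨I0, k⟩).2).2)⟩
  have := congrArg (Int.cast : ℤ → 𝓞 K) e
  push_cast at this
  exact this ▸ add_mem (mem_sup_left (mul_mem_left _ _ (absNorm_mem I)))
    (mul_mem_left _ _ h_nh)

theorem cop_F : I ⊔ n' * span {((f * c : ℕ) : 𝓞 K)} = ⊤ ↔
    I ⊔ n' = ⊤ ∧ I ⊔ span {(f : 𝓞 K)} = ⊤ ∧ I ⊔ span {(c : 𝓞 K)} = ⊤ := by
  simp only [← isCoprime_iff_sup_eq, Nat.cast_mul, ← span_singleton_mul_span_singleton,
    IsCoprime.mul_right_iff]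

theorem hc_a (g : Cg J θ s) (r : Cr f ψ) (R : Rg c ξ) (b4 : HC J 4 ⊤ b) :
    HC J 4 (n' * span {((f * c : ℕ) : 𝓞 K)})
      (Dp (n' * span {((f * c : ℕ) : 𝓞 K)}) fun I => ψ (absNorm I) * (ξ I * b I)) where
  one := by rw [Dp, if_pos (by simp), R.rc.one, b4.one]; simp [r.one]
  mul I I' := by
    simp only [Dp, ← isCoprime_iff_sup_eq, IsCoprime.mul_left_iff, map_mul, Nat.cast_mul, r.mul,
      R.rc.mul, b4.mul, ite_and]
    split_ifs <;> ring
  zero I := by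
    by_cases I0 : I = ⊥
    · simp [Dp, I0, b4.bot]
    rw [Dp, ite_eq_right_iff, or_iff_right I0]
    exact ⟨fun k e => mul_ne_zero ((psi_ne g r I0).2 (cop_F.1 e).2.1) (mul_ne_zero
      ((xi_ne R).2 ⟨I0, (cop_F.1 e).2.2⟩) (b_ne b4 I0)) (k e), fun k e => absurd e k⟩
  prn x x0 hx := by
    obtain ⟨y, e⟩ := mem_span_singleton.1 (mul_le_right hx)
    have e2 := congrArg s e
    rw [map_sub, map_mul, map_natCast, map_one] at e2
    push_cast at e e2
    rw [Dp, if_pos ((eq_top_iff_one _).2 (by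
        simpa using sub_mem (mem_sup_left (mem_span_singleton_self x)) (mem_sup_right hx))),
      R.rc.prn x x0 (mem_span_singleton.2 ⟨f * y, by linear_combination e⟩), b4.prn x x0 trivial,
      r.per _ 1 (g.int_dvd ⟨c * (y * s x + s y), by
        push_cast; linear_combination s x * e + e2 - mul_s g x⟩), r.one, one_mul, one_mul]

variable (H : Hy J D θ s c m n n' ν)
include H

theorem Hy.nh_mul {x y : ℕ} (d : x * y ∣ m) : nh n (x * y) = nh n y * nh n x := by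
  obtain ⟨C, e⟩ : nh n (x * y) ∣ nh n y * nh n x := dvd_iff_le.2 (by
    rw [Ideal.sup_mul, Ideal.mul_sup (span _), span_singleton_mul_span_singleton, ← Nat.cast_mul,
      mul_comm y]
    exact sup_le (mul_le_left.trans le_sup_left) (sup_le_sup_right mul_le_right _))
  have := congrArg absNorm e
  rw [map_mul, map_mul, H.nm d, H.nm ((dvd_mul_left y x).trans d),
    H.nm ((dvd_mul_right x y).trans d), mul_comm, eq_comm,
    mul_eq_left₀ (Nat.pos_of_dvd_of_pos d H.S.pos).ne', absNorm_eq_one_iff] at this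
  rw [e, this, mul_top]

theorem Hy.cop_nh {x y : ℕ} (d : x.Coprime y) : Cop y (nh n x) :=
  ⟨fun k => (sp_ne H.S).1 (eq_bot_iff.2 (le_sup_left.trans k.le)), by
    obtain ⟨u, w, e⟩ := cop_nat (K := K) d
    exact (eq_top_iff_one _).2
      (e ▸ add_mem (mem_sup_left (mul_mem_left _ _ h_nh)) (mul_mem_left _ _ h_nh))⟩

theorem Hy.cop_F {q : ℕ} (hq : q.Prime) (d : q ∣ m) (k : ¬ q ∣ f) :
    nh n q ⊔ n' * span {((f * c : ℕ) : 𝓞 K)} = ⊤ :=
  Eb.cop_F.2 ⟨top_unique (H.S.cop.ge.trans (sup_le_sup_right le_sup_left _)),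
    (H.cop_nh (hq.coprime_iff_not_dvd.2 k)).2,
    (H.cop_nh ((Nat.Coprime.coprime_mul_right_right H.cm).coprime_dvd_right d).symm).2⟩

theorem Hy.ef (a : Ideal (𝓞 K) → ℂ) : Ef V m (n' * span {((f * c : ℕ) : 𝓞 K)}) a =
    ∏ q ∈ m.primeFactors.filter (¬ · ∣ f), V (1 - (q * a (nh n q))⁻¹) := by
  have M : ∀ q : ℕ, q.Prime → q ∣ m → (nh n q).IsMaximal := fun q hq d =>
    (isPrime_of_irreducible_absNorm (by rw [H.nm d]; exact hq)).isMaximal
      (H.cop_nh q.coprime_one_right).1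
  rw [Ef, show {w : Ideal (𝓞 K) | w.IsMaximal ∧ (m : 𝓞 K) ∈ w ∧
      w ⊔ n' * span {((f * c : ℕ) : 𝓞 K)} = ⊤} =
      nh n '' (m.primeFactors.filter (¬ · ∣ f) : Finset ℕ) from ?_, finprod_mem_image,
    finprod_mem_coe_finset]
  · exact Finset.prod_congr rfl fun q hq => by
      rw [H.nm (Nat.dvd_of_mem_primeFactors (Finset.mem_filter.1 hq).1)]
  · intro q hq r hr e
    rw [← H.nm (Nat.dvd_of_mem_primeFactors (Finset.mem_filter.1 hq).1), e,
      H.nm (Nat.dvd_of_mem_primeFactors (Finset.mem_filter.1 hr).1)]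
  · ext w
    refine ⟨fun ⟨x, y, z⟩ => ?_, fun ⟨q, hq, e⟩ => ?_⟩
    · obtain ⟨z1, z2, -⟩ := Eb.cop_F.1 z
      obtain ⟨q, hq, d, k⟩ := ex_prime x.isPrime H.S.pos y
      refine ⟨q, Finset.mem_filter.2 ⟨Nat.mem_primeFactors.2 ⟨hq, d, H.S.pos.ne'⟩, fun ⟨j, e⟩ =>
        x.ne_top (top_unique (z2.ge.trans (sup_le le_rfl ((span_singleton_le_iff_mem _).2 ?_))))⟩,
        (M q hq d).eq_of_le x.ne_top (sup_le ((x.isPrime.mul_le.1 (H.S.mul.le.trans
          ((span_singleton_le_iff_mem _).2 y))).resolve_right fun l =>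
            x.ne_top (top_unique (z1.ge.trans (sup_le le_rfl l))))
          ((span_singleton_le_iff_mem _).2 k))⟩
      rw [e, Nat.cast_mul]
      exact mul_mem_right _ _ k
    · obtain ⟨h1, h2⟩ := Finset.mem_filter.1 hq
      obtain ⟨h3, h4, -⟩ := Nat.mem_primeFactors.1 h1
      exact e ▸ ⟨M q h3 h4, mem_sup_left (sp_m H.S).1, H.cop_F h3 h4 h2⟩

/-- the sum over the classes -/
theorem Hy.cls (r : Cr f ψ) (l : ∀ d, ‖ψ d‖ ≤ 1) (R : Rg c ξ) (b4 : HC J 4 ⊤ b) {β : Type}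
    [Fintype β] {B : β → Ideal (𝓞 K)} (hB : Ro c m B) {C : Ideal (𝓞 K)} (C0 : C ≠ ⊥) :
    ∑ i, ξ (B i) * (2 * ∑' I, if Rl c (B i) I then fc C n' ψ b I else 0) = 2 * (ξ C * b C) *
      ∑' I, Dp (n' * span {((f * c : ℕ) : 𝓞 K)}) (fun I => ψ (absNorm I) * (ξ I * b I)) I := by
  have e := hasSum_sum (s := Finset.univ) fun i _ => ((Summable.of_norm_bounded (H.b_sum b4)
    (f := fun I => if Rl c (B i) I then fc C n' ψ b I else 0) fun I => by
      split_ifs
      exacts [fc_le b4 C0 l I, by simp]).hasSum.mul_left 2).mul_left (ξ (B i))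
  have e2 : ∀ I, ∑ i, ξ (B i) * (2 * if Rl c (B i) I then fc C n' ψ b I else 0) =
      2 * (ξ I * fc C n' ψ b I) := fun I => by
    by_cases I0 : I = ⊥
    · simp [I0, norm_le_zero_iff.1 ((fc_le b4 C0 l ⊥).trans (by simp [b4.bot]))]
    rw [← sum_rl H.g R H.c0 hB I0, Finset.sum_mul, Finset.mul_sum]
    exact Finset.sum_congr rfl fun i _ => by split_ifs <;> ring
  simp only [e2] at e
  rw [← e.tsum_eq, ← tsum_mul_left, ← (mul_right_injective₀ C0).tsum_eq fun I k =>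
    by_contra fun n => k (by simp [fc_not fun ⟨j, e⟩ => n ⟨j, e.symm⟩])]
  refine tsum_congr fun I => ?_
  simp only [fc_mul C0, R.rc.mul, Dp, Eb.cop_F]
  by_cases I0 : I = ⊥
  · simp [I0, b4.bot]
  by_cases h1 : I ⊔ span {(f : 𝓞 K)} = ⊤
  · by_cases h2 : I ⊔ span {(c : 𝓞 K)} = ⊤
    · simp only [h1, h2, and_true]
      split_ifs <;> ring
    · simp [not_not.1 ((xi_ne R).not.2 fun k => h2 k.2)]
  · simp [not_not.1 ((psi_ne H.g r I0).not.2 h1)]

end Eb

open Eb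

theorem ei2 : EI2 := by
  intro V v K _ _ J D θ k f m c n n' ψ ξ b ν fo fm m2 r p _ S csq cm dm ⟨s₀, s1, s2⟩ R b4 n0 n1 F a
    hF ha
  obtain ⟨s, g⟩ := ex_cg k
  have H : Hy J D θ s c m n n' ν := ⟨k, g, S, Nat.pos_of_ne_zero csq.ne_zero, cm, dm, n0,
    pow_le_self two_ne_zero n1⟩
  have f0 := fo.pos
  have l : ∀ d, ‖ψ d‖ ≤ 1 := fun d => by
    by_cases h : ψ d = 0
    · simp [h]
    · obtain ⟨j, x, y⟩ := cr_root f0 r h
      exact (Complex.norm_eq_one_of_pow_eq_one y x).le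
  have A : HC J 4 F a := ha ▸ hF ▸ hc_a g r R b4
  refine ⟨A, ac_sum A fun I => (A.le k.two H.im I).trans_eq (by norm_num), fun β _ B hB => ?_⟩
  obtain ⟨k₀, t⟩ := S.cn' θ
  choose P Q τ G P0 e L using fun i => ex_lf k g S H.c0 cm H.n1 (hB.cop i)
  obtain ⟨h, mh⟩ := id fm
  have cm1 := Nat.Coprime.coprime_mul_right_right cm
  have hm : h ∣ m := mh ▸ dvd_mul_left h f
  obtain ⟨T, T1, T2⟩ := ind f0 r p S.pos (Pr := fun G z => ∃ T : β → ℂ, (∀ i, HasSum
      (fun x : ℤ × ℤ => ψ (c * k₀) * (b (B i) * (absNorm (B i) / J (P i)) ^ 4) *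
        ((if IsCoprime x.1 (m : ℤ) then ψ x.1 else 0) * G x.2 / (x.1 * m * τ i + x.2) ^ 4)) (T i)) ∧
      ∑ i, ξ (B i) * T i = z)
    (fun G G' z z' κ κ' ⟨T, x, y⟩ ⟨T', x', y'⟩ => ⟨fun i => κ * T i + κ' * T' i,
      fun i => (((x i).mul_left κ).add ((x' i).mul_left κ')).congr_fun fun _ => by ring, by
        rw [← y, ← y', Finset.mul_sum, Finset.mul_sum, ← Finset.sum_add_distrib]
        exact Finset.sum_congr rfl fun _ _ => by ring⟩)
    (A := fun h => 2 * (ξ (n' * nh n h) * b (n' * nh n h)) * ∑' I, a I)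
    (α := fun q => ξ (nh n q) * b (nh n q))
    (fun h d => ⟨_, fun i => H.one (hB.cop i) (G i) (P0 i) (e i) b4 r l d t,
      ha ▸ hF ▸ H.cls r l R b4 hB H.ne⟩)
    (fun h q d => by
      simp only [H.nh_mul ((dvd_mul_left _ f).trans d), R.rc.mul, b4.mul]; ring)
    (m.primeFactors.filter (¬ · ∣ f)) (fun q hq => by
      obtain ⟨h1, h2⟩ := Finset.mem_filter.1 hq
      obtain ⟨h3, h4, -⟩ := Nat.mem_primeFactors.1 h1
      have := H.cop_nh (cm1.coprime_dvd_right h4).symm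
      exact ⟨h3, mt (r.zero q).1 (not_not.2 (Nat.isCoprime_iff_coprime.2
        (h3.coprime_iff_not_dvd.2 h2))), mul_ne_zero ((xi_ne R).2 this) (b_ne b4 this.1)⟩) h
    (Finset.prod_primes_dvd h (fun q hq => (Nat.prime_of_mem_primeFactors
      (Finset.mem_filter.1 hq).1).prime) fun q hq => by
      obtain ⟨h1, h2⟩ := Finset.mem_filter.1 hq
      obtain ⟨h3, h4, -⟩ := Nat.mem_primeFactors.1 h1
      exact (h3.dvd_mul.1 (mh ▸ h4)).resolve_left h2) mh.symm.dvd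
  have e1 : ∀ w : ℤ, ∑ d ∈ Finset.range m, conj (if IsCoprime (d : ℤ) (m : ℤ) then ψ d else 0) *
      ee (-(d * w / m)) = gs ψ (m.primeFactors.filter (¬ · ∣ f)) (f * h) w := fun w => by
    rw [← mh]
    refine Finset.sum_congr rfl fun d _ => congrArg (· * _) ?_
    simp only [Nat.isCoprime_iff_coprime]
    by_cases x : d.Coprime m
    · rw [if_pos x, if_pos fun q hq y => (Nat.prime_of_mem_primeFactors
        (Finset.mem_filter.1 hq).1).ne_one (Nat.eq_one_of_dvd_coprimes x y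
          (Nat.dvd_of_mem_primeFactors (Finset.mem_filter.1 hq).1))]
    · rw [if_neg x, map_zero, eq_comm, ite_eq_right_iff]
      intro y
      obtain ⟨q, h1, h2, h3⟩ := Nat.Prime.not_coprime_iff_dvd.1 x
      rw [(r.zero d).2 fun z => h1.ne_one (Nat.eq_one_of_dvd_coprimes
        (Nat.isCoprime_iff_coprime.1 z) h2 (by_contra fun u => y q (Finset.mem_filter.2
          ⟨Nat.mem_primeFactors.2 ⟨h1, h3, S.pos.ne'⟩, u⟩) h2)), map_zero]
  have e2 : ψ (c * k₀) * ((2 * π) ^ 4 * pc J 4 (m ^ 2) c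
      (eis m fun d => if IsCoprime d (m : ℤ) then ψ d else 0) (fun I => ξ I * b I) ν B) =
      m ^ 3 * 3 * ∑ i, ξ (B i) * T i := by
    rw [pc, Finset.mul_sum, Finset.mul_sum, Finset.mul_sum]
    refine Finset.sum_congr rfl fun i _ => ?_
    have : (π : ℂ) ≠ 0 := by exact_mod_cast Real.pi_ne_zero
    rw [L, ← (T1 i).tsum_eq, tsum_mul_left, eis]
    simp only [e1]
    generalize (∑' _ : ℤ × ℤ, _ : ℂ) = z
    field_simp
  have v1 : V (ψ (c * k₀)) = 1 := v_cr f0 r (mt (r.zero _).1 (not_not.2 (by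
    obtain ⟨u, hu⟩ := (Iu.of_cop H.th (sp_m S).2).of_mul (x := c * k₀) (y := 1) (by
      rw [mul_one, ← mul_sub, ← neg_sub]; exact mul_mem_left _ _ (neg_mem t))
    obtain ⟨j, hj⟩ := S.cn' u
    obtain ⟨w, hw⟩ := (Int.natCast_dvd_natCast.2 fm).trans ((g.sp_int S (j * (c * k₀) - 1)).1 (by
      have := sub_mem hu (mul_mem_right (c * k₀ : 𝓞 K) _ hj)
      push_cast
      rwa [show u * (c * k₀) - 1 - (u - j) * (c * k₀) = j * (c * k₀) - 1 by ring] at this))
    exact ⟨j, -w, by linear_combination hw⟩)))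
  have h0 : (h : ℂ) ≠ 0 := by exact_mod_cast (Nat.pos_of_dvd_of_pos hm S.pos).ne'
  have v2 : V (b (nh n h)) = (V h)⁻¹ ^ 4 := by
    have := congrArg (fun I => V (b I)) (g.nm (nh n h))
    simp only [H.nm hm] at this
    rw [b4.mul, map_mul, v_b g v.1 b4 (map_mono le_sup_left ((g.sp S).1.ge s1)) s2, mul_one,
      b_span b4 (by exact_mod_cast h0)] at this
    simpa using this
  have v3 : V (ξ (n' * nh n h)) = 1 := v_xi R (cop_mul.2 ⟨⟨(sp_ne S).2, top_unique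
    ((cop_el.2 ⟨by exact_mod_cast S.pos.ne', cop_nat cm1.symm⟩).2.ge.trans (sup_le_sup_right
      ((span_singleton_le_iff_mem _).2 (sp_m S).2) _))⟩, H.cop_nh (cm1.coprime_dvd_right hm).symm⟩)
  have v4 : V 3 = 1 := by simpa using v_odd v (n := 3) (by decide)
  have e3 := congrArg V e2
  rw [T2] at e3
  simp only [map_mul V, map_pow V, map_prod V, v1, v_gs v fo r p, v.2, b4.mul, v2, v3, v4,
    v_b g v.1 b4 s1 s2, one_mul, mul_one] at e3
  rw [map_mul, map_pow, map_mul, v.2, e3, hF, H.ef, Finset.prod_congr rfl fun q hq =>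
    show V (1 - (q * a (nh n q))⁻¹) = V (1 - (q * (ψ q * (ξ (nh n q) * b (nh n q))))⁻¹) by
      obtain ⟨h1, h2⟩ := Finset.mem_filter.1 hq
      obtain ⟨h3, h4, -⟩ := Nat.mem_primeFactors.1 h1
      rw [ha, hF, Dp, if_pos (H.cop_F h3 h4 h2), H.nm h4]]
  have v5 : V m = V h := by rw [mh, Nat.cast_mul, map_mul, v_odd v fo, one_mul]
  have := (V.pos h0).ne'
  rw [v5]
  field_simp

end Vale.Agent.P004C.Ln
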