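import Vale.Agent.P004C.As.Hcn
import Vale.Agent.P004C.As.Val
import Vale.Agent.P004C.As.Ray
import Vale.Agent.P004C.As.Sm
import Vale.Agent.P004C.Al.Cmb2

/-!
# P004 C, block LN: congruences of Hecke characters on the ideals prime to `v`
-/

open NumberField Module Ideal
open scoped Classical

set_option linter.all false

noncomputable section

namespace Vale.Agent.P004C.Ln.Fi

open Al.Gx (pv_two)
open As (Cp)

variable {K : Type} [Field K] [NumberField K] {ι : ℂ →+* ℂ_[2]} {J : K →+* ℂ} {Ω : ℝ}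
  {M : Type} [Field M] [NumberField M] [Algebra K M] {I I' F w : Ideal (𝓞 M)} {k k₁ t : ℕ}
  {a a₁ : Ideal (𝓞 M) → ℂ} {δ : ℝ}

theorem pv_mul (h : Pv ι J I) (k : Pv ι J I') : Pv ι J (I * I') := by
  obtain ⟨s, a, b⟩ := h
  obtain ⟨s', a', b'⟩ := k
  exact ⟨s * s', by simp [a, a'], by rw [map_mul]; exact mul_mem_mul b b'⟩

theorem pv_mono (e : I ≤ I') (h : Pv ι J I) : Pv ι J I' := h.imp fun _ k => ⟨k.1, e k.2⟩

theorem pv_ne (h : Pv ι J I) : I ≠ ⊥ := by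
  rintro rfl
  obtain ⟨s, a, b⟩ := h
  have := congrArg (fun x : 𝓞 M => (x : M)) (mem_bot.1 b)
  exact Al.Gx.ne_of a this

theorem pv_max (hw : w.IsMaximal) (h : (2 : 𝓞 M) ∉ w) : Pv ι J w :=
  pv_two (by
    by_contra k
    exact h ((span_singleton_le_iff_mem _).1 (le_sup_right.trans
      (hw.eq_of_le k le_sup_left).ge)))

theorem cop_norm (h : I ⊔ span {(t : 𝓞 M)} = ⊤) : (absNorm I).Coprime t := by
  refine Nat.coprime_of_dvd fun p hp h1 h2 => ?_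
  obtain ⟨P, hP, e, d⟩ := exists_isMaximal_dvd_of_dvd_absNorm' hp I h1
  refine hP.ne_top (top_unique (h.ge.trans (sup_le (dvd_iff_le.1 d) ?_)))
  have : (t : ℤ) ∈ P.under ℤ := e ▸ mem_span_singleton.2 (by exact_mod_cast h2)
  rw [span_singleton_le_iff_mem]
  simpa using mem_comap.1 this

theorem odd_norm (hw : w.IsMaximal) (h : (2 : 𝓞 M) ∉ w) : ‖(absNorm w : ℂ_[2]) - 1‖ ≤ 1 / 2 := by
  have c : (absNorm w).Coprime 2 := cop_norm (by
    by_contra k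
    exact h (by simpa using (span_singleton_le_iff_mem _).1 (le_sup_right.trans
      (hw.eq_of_le k le_sup_left).ge)))
  have o := As.n_odd (Nat.coprime_two_right.1 c)
  rcases Cm.int_cases (absNorm w) with k | k
  · rw [Int.cast_natCast, o] at k
    norm_num at k
  · simpa using k

theorem unit (B : Base ι J Ω) (hF : F ≠ ⊥) (h : HC J k F a) (c : Cp F I) (p : Pv ι J I) :
    ‖ι (a I)‖ = 1 := (As.hcn As.val K ι J Ω B M k F a hF h).2.2.1 I c p

theorem prn_near (B : Base ι J Ω) (h : HC J k F a) {x : 𝓞 M} (x0 : x ≠ 0) (hx : x - 1 ∈ F)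
    (p : Pv ι J (span {x})) : ‖ι (a (span {x})) - 1‖ ≤ 1 / 2 := by
  have n := (As.Va.pv_iff x).1 p
  have u := Cm.un_le B (α := RingOfIntegers.norm K x) (by rwa [RingOfIntegers.coe_norm])
  rw [RingOfIntegers.coe_norm] at u
  rw [h.prn x x0 hx, map_pow, map_inv₀]
  set y := ι (J (Algebra.norm K (x : M)))
  have y0 : y ≠ 0 := fun e => by simp [e] at n
  have := As.n_pow_sub (x := y⁻¹) (y := 1) (by simp [n]) (by simp) k
  rw [one_pow] at this
  refine this.trans ?_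
  rw [show y⁻¹ - 1 = -y⁻¹ * (y - 1) by field_simp; ring, norm_mul, norm_neg, norm_inv, n, inv_one,
    one_mul]
  exact u

theorem sub_le {x y z : ℂ_[2]} {C : ℝ} (h : ‖x - y‖ ≤ C) (k : ‖y - z‖ ≤ C) : ‖x - z‖ ≤ C := by
  simpa using Cm.add_le h k

theorem sub_le' {x y : ℂ_[2]} {C : ℝ} (h : ‖x - y‖ ≤ C) : ‖y - x‖ ≤ C := by
  rwa [norm_sub_rev]

/-- every ideal prime to `F` and `v` has a substitute prime to `t` -/
theorem subst (B : Base ι J Ω) (hF : F ≠ ⊥) (ht : 0 < t) (c : Cp F I) (p : Pv ι J I) :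
    ∃ I', (absNorm I').Coprime t ∧ I' ⊔ F = ⊤ ∧ ∀ k a, HC J k F a →
      ‖ι (a I) - ι (a I')‖ ≤ 1 / 2 := by
  have A0 : span {((t * 2 : ℕ) : 𝓞 M)} ≠ ⊥ := by
    rw [Ne, span_singleton_eq_bot, Nat.cast_eq_zero]
    omega
  have le : ∀ u v : ℕ, u * v = t * 2 → ∀ {L : Ideal (𝓞 M)},
      L ⊔ span {((t * 2 : ℕ) : 𝓞 M)} = ⊤ → L ⊔ span {(u : 𝓞 M)} = ⊤ := fun u v e L h =>
    top_unique (h.ge.trans (sup_le_sup_left (span_singleton_le_span_singleton.2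
      (Nat.cast_dvd_cast ⟨v, e.symm⟩)) _))
  obtain ⟨C, c1, c2, x, x0, hx, ex⟩ := As.Ra.inv_ex hF A0 c
  obtain ⟨I', d1, d2, y, y0, hy, ey⟩ := As.Ra.inv_ex hF A0 c1
  have p1 : Pv ι J C := pv_two (by simpa using le 2 t (mul_comm _ _) c2)
  have p2 : Pv ι J I' := pv_two (by simpa using le 2 t (mul_comm _ _) d2)
  refine ⟨I', cop_norm (le t 2 rfl d2), d1.2, fun k a h => ?_⟩
  have n1 := prn_near B h x0 hx (ex ▸ pv_mul p p1)
  have n2 := prn_near B h y0 hy (ey ▸ pv_mul p1 p2)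
  rw [ex, h.mul, map_mul] at n1
  rw [ey, h.mul, map_mul] at n2
  have := sub_le n1 (sub_le' n2)
  rwa [mul_comm, ← mul_sub, norm_mul, unit B hF h c1 p1, one_mul] at this

/-- the congruence on all ideals prime to `v` -/
theorem cong (B : Base ι J Ω) (hF : F ≠ ⊥) (ht : 0 < t) (h₁ : HC J k₁ F a₁) (h : HC J k F a)
    (hc : ∀ I, (absNorm I).Coprime t → I ⊔ F = ⊤ → ‖ι (a₁ I - a I)‖ ≤ δ) (hδ : 1 / 2 ≤ δ)
    (p : Pv ι J I) : ‖ι (a₁ I - a I)‖ ≤ δ := by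
  by_cases c : I ⊔ F = ⊤
  · obtain ⟨I', e1, e2, e3⟩ := subst B hF ht ⟨pv_ne p, c⟩ p
    have := hc I' e1 e2
    rw [map_sub] at this ⊢
    exact sub_le ((e3 _ _ h₁).trans hδ) (sub_le this (sub_le' ((e3 _ _ h).trans hδ)))
  · rw [(h₁.zero I).2 (.inr c), (h.zero I).2 (.inr c), sub_zero, map_zero, norm_zero]
    linarith

/-- one Euler factor -/
theorem fac {x y n : ℂ_[2]} (hx : ‖x‖ = 1) (h : ‖x - y‖ ≤ δ) (hn : ‖n - 1‖ ≤ 1 / 2)
    (hδ : 1 / 2 ≤ δ) (l : δ < ‖1 - y‖) : ‖1 - (n * x)⁻¹‖ = ‖1 - y‖ := by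
  have n1 : ‖n‖ = 1 := by
    have := Cm.add_eq (x := 1) (y := n - 1) (by rw [norm_one]; linarith)
    simpa using this
  have n0 : n ≠ 0 := fun e => by simp [e] at n1
  have x0 : x ≠ 0 := fun e => by simp [e] at hx
  have k : ‖y - n * x‖ ≤ δ := by
    refine sub_le (sub_le' h) ?_
    rw [show x - n * x = -(n - 1) * x by ring, norm_mul, norm_neg, hx, mul_one]
    exact hn.trans hδ
  rw [show 1 - (n * x)⁻¹ = -(n * x)⁻¹ * (1 - y + (y - n * x)) by field_simp; ring, norm_mul,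
    norm_neg, norm_inv, norm_mul, n1, hx, Cm.add_eq (k.trans_lt l)]
  simp

end Vale.Agent.P004C.Ln.Fi
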