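import Vale.Agent.P004C.Ln.St
import Vale.Agent.P004C.Ln.Fin0

/-!
# P004 C, block LN: change of the weight
-/

open NumberField Module
open scoped Classical

set_option linter.all false

noncomputable section

namespace Vale.Agent.P004C.Ln

/-- **from weight `k` to weight `k₁`, with the factors at the primes of `m`** (`δ < 1`) -/
def FIN1 : Prop := ∀ (K : Type) [Field K] [NumberField K] (ι : ℂ →+* ℂ_[2]) (J : K →+* ℂ) (Ω : ℝ)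
  (V : AbsoluteValue ℂ ℝ), Base ι J Ω → (∀ z, V z = ‖ι z‖) →
  ∀ (M : Type) [Field M] [NumberField M] [Algebra K M] (n k₁ k m t l : ℕ) (d δ ρ : ℝ)
  (F tS s : Ideal (𝓞 M)) (a₁ a : Ideal (𝓞 M) → ℂ) (z : ℂ), Cs ι J n k₁ k d F (Dp F a) → 3 ≤ k →
  0 < m → 2 ∣ m → 0 < t → Sm s l → F ⊔ Ideal.span {(l : 𝓞 M)} = ⊤ →
  (∃ w : Ideal (𝓞 M), w.IsMaximal ∧ F ≤ w ∧ 2 ∉ w ∧ TF w) → HC J k₁ F a₁ → HC J k F (Dp F a) →
  (∀ I I', a (I * I') = a I * a I') → AC a₁ z →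
  (∀ I, (Ideal.absNorm I).Coprime t → I ⊔ F = ⊤ → V (a₁ I - a I) ≤ δ) → 1 / 2 ≤ δ → δ < 1 →
  δ < ρ → V (1 - l * a s) = 1 → (∀ w : Ideal (𝓞 M), w.IsMaximal → F ≤ w → a w = 0 ∨ tS ≤ w) →
  (∀ w : Ideal (𝓞 M), w.IsMaximal → w ⊔ F = ⊤ →
    ((m : 𝓞 M) ∈ w ↔ Av ι J w ∨ tS ≤ w) ∧ (tS ≤ w → 2 ∉ w ∧ δ < V (1 - a w))) →
  ρ ≤ sc Ω d n k * V (∑' I, Dp tS a I) →
  sc Ω d n k₁ * Ef V m F a₁ * V z = sc Ω d n k * V (∑' I, Dp tS a I)

namespace Fi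

open Ideal

variable {K : Type} [Field K] [NumberField K] {ι : ℂ →+* ℂ_[2]} {J : K →+* ℂ} {Ω : ℝ}
  {M : Type} [Field M] [NumberField M] [Algebra K M] {I I' F tS w : Ideal (𝓞 M)} {k k₁ t m : ℕ}
  {a a₁ : Ideal (𝓞 M) → ℂ} {δ : ℝ}

omit [NumberField M] in
theorem le_of (hw : w.IsMaximal) (h : w ⊔ F ≠ ⊤) : F ≤ w :=
  le_sup_right.trans (hw.eq_of_le h le_sup_left).ge

omit [NumberField M] in
theorem tf_mono (e : F ≤ w) (h : TF w) : TF F := fun u k => h u (e k)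

theorem fin_m (hm : 0 < m) (p : Ideal (𝓞 M) → Prop) (h : ∀ w, p w → (m : 𝓞 M) ∈ w) :
    {w | p w}.Finite :=
  (Al.Eu.fin_dvd (I₀ := span {(m : 𝓞 M)}) (by
    rw [Ne, span_singleton_eq_bot, Nat.cast_eq_zero]
    omega)).subset fun w hw => dvd_iff_le.2 ((span_singleton_le_iff_mem _).2 (h w hw))

/-- the two depletions -/
theorem dp_eq (ha : ∀ I I', a (I * I') = a I * a I')
    (h : ∀ w : Ideal (𝓞 M), w.IsMaximal → F ≤ w → a w = 0 ∨ tS ≤ w) {T : Finset (Ideal (𝓞 M))}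
    (hT : ∀ w, w ∈ T ↔ w.IsMaximal ∧ tS ≤ w ∧ w ⊔ F = ⊤) (I : Ideal (𝓞 M)) :
    Dp tS a I = if ∀ P ∈ T, ¬P ∣ I then Dp F a I else 0 := by
  unfold Dp
  by_cases c : I ⊔ tS = ⊤
  · have k : ∀ P : Ideal (𝓞 M), P.IsMaximal → tS ≤ P → ¬I ≤ P := fun P h1 h2 h3 =>
      h1.ne_top (top_unique (c.ge.trans (sup_le h3 h2)))
    rw [if_pos c, if_pos fun P hP d => k P ((hT P).1 hP).1 ((hT P).1 hP).2.1 (dvd_iff_le.1 d)]
    split_ifs with e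
    · rfl
    obtain ⟨P, h1, h2⟩ := exists_le_maximal _ e
    obtain ⟨L, hL⟩ := dvd_iff_le.2 (le_sup_left.trans h2)
    rw [hL, ha, (h P h1 (le_sup_right.trans h2)).resolve_right fun e' =>
      k P h1 e' (le_sup_left.trans h2), zero_mul]
  · obtain ⟨P, h1, h2⟩ := exists_le_maximal _ c
    rw [if_neg c]
    by_cases e : P ⊔ F = ⊤
    · rw [if_neg fun k => k P ((hT P).2 ⟨h1, le_sup_right.trans h2, e⟩)
        (dvd_iff_le.2 (le_sup_left.trans h2))]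
    · rw [if_neg (c := I ⊔ F = ⊤) fun k => h1.ne_top (top_unique (k.ge.trans
        (sup_le (le_sup_left.trans h2) (le_of h1 e)))), ite_self]

end Fi

open Fi Ideal in
theorem fin1 (hU : CONGU) (hR : CONGR) : FIN1 := by
  intro K _ _ ι J Ω V B hV M _ _ _ n k₁ k m t l d δ ρ F tS s a₁ a z hC hk hm _ ht hs hl
    ⟨w₀, w1, w2, w3, w4⟩ h₁ h₂ ha hz hc d1 d2 d3 hl1 hF hw hρ
  have F0 : F ≠ ⊥ := by
    rcases hC with ⟨-, -, p, -⟩ | ⟨-, -, -, -, P, F', e, p, -, n4, -⟩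
    · exact pv_ne p
    · rw [e]
      exact mul_ne_zero (pv_ne p) fun k => by simp [k] at n4
  have f1 := fin_m hm (fun w => w.IsMaximal ∧ tS ≤ w ∧ w ⊔ F = ⊤) fun w k =>
    (hw w k.1 k.2.2).1.2 (.inr k.2.1)
  set T := f1.toFinset
  have hT : ∀ w, w ∈ T ↔ w.IsMaximal ∧ tS ≤ w ∧ w ⊔ F = ⊤ := fun w => f1.mem_toFinset
  have dF : ∀ I, I ⊔ F = ⊤ → Dp F a I = a I := fun I e => if_pos e
  have cg : ∀ I, Pv ι J I → ‖ι (a₁ I - Dp F a I)‖ ≤ δ := fun I p =>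
    cong B F0 ht h₁ h₂ (fun I e e' => by rw [dF I e', ← hV]; exact hc I e e') d1 p
  have pT : ∀ w ∈ T, Pv ι J w := fun w k =>
    pv_max ((hT w).1 k).1 ((hw w ((hT w).1 k).1 ((hT w).1 k).2.2).2 ((hT w).1 k).2.1).1
  have cT : ∀ w ∈ T, As.Cp F w := fun w k => ⟨pv_ne (pT w k), ((hT w).1 k).2.2⟩
  set E : ℝ := ∏ w ∈ T, ‖ι (1 - Dp F a w)‖
  have e1 : V (∑' I, Dp tS a I) = ‖ι (∑' I, Dp F a I)‖ * E := by
    rw [hV, tsum_congr (dp_eq ha hF hT), ← Cm.sieve h₂.cm (h₂.sum B.two B.im hk).of_norm T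
      fun P hP => Al.Eu.prime_iff.2 ((hT P).1 hP).1, map_mul, norm_mul, map_prod, norm_prod]
  have e2 : ∏ w ∈ T, V (1 - (absNorm w * a₁ w)⁻¹) = E := Finset.prod_congr rfl fun w k => by
    obtain ⟨u1, u2, u3⟩ := (hT w).1 k
    obtain ⟨u4, u5⟩ := (hw w u1 u3).2 u2
    have := cg w (pT w k)
    rw [hV, ← dF w u3] at u5
    simp only [hV, map_sub, map_one, map_inv₀, map_mul, map_natCast] at this u5 ⊢
    exact fac (unit B F0 h₁ (cT w k) (pT w k)) this (odd_norm u1 u4) d1 u5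
  have E0 : 0 ≤ E := Finset.prod_nonneg fun _ _ => norm_nonneg _
  have E1 : E ≤ 1 := Finset.prod_le_one (fun _ _ => norm_nonneg _) fun w k => by
    rw [map_sub, map_one, sub_eq_add_neg]
    exact Cm.add_le norm_one.le (by rw [norm_neg, unit B F0 h₂ (cT w k) (pT w k)])
  have big : δ < sc Ω d n k * ‖ι (∑' I, Dp F a I)‖ := by
    rw [e1, ← mul_assoc] at hρ
    have h0 : 0 < sc Ω d n k * ‖ι (∑' I, Dp F a I)‖ * E := by linarith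
    have := (pos_of_mul_pos_left h0 E0).le
    nlinarith
  have sF : s ⊔ F = ⊤ := top_unique (hl.ge.trans (sup_le le_sup_right (le_sup_left.trans'
    ((span_singleton_le_iff_mem _).2 (hs.2.2.1 ▸ absNorm_mem s)))))
  have l1 : ‖ι (1 - l * Dp F a s)‖ = 1 := by rw [dF s sF, ← hV, hl1]
  have a2 : ∀ P : Ideal (𝓞 M), Av ι J P → (2 : 𝓞 M) ∈ P := fun P k => by
    by_contra c
    exact k.2 (pv_max k.1 c)
  rw [e1, ← mul_assoc, hV z]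
  rcases hC with ⟨n2, c1, p, b, vb, rfl⟩ | ⟨rfl, rfl, rfl, r2, P, F', e, p, hP, n4, hx⟩
  · have aF : ∀ P : Ideal (𝓞 M), Av ι J P → P ⊔ F = ⊤ := fun P k => by
      by_contra c
      exact k.2 (pv_mono (le_of k.1 c) p)
    have f2 := fin_m hm (Av ι J) fun w k => (hw w k.1 (aF w k)).1.2 (.inl k)
    have s1 : {w : Ideal (𝓞 M) | w.IsMaximal ∧ (m : 𝓞 M) ∈ w ∧ w ⊔ F = ⊤} =
        {P | Av ι J P} ∪ T := by
      ext w
      simp only [Set.mem_setOf_eq, Set.mem_union, Finset.mem_coe, hT]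
      exact ⟨fun k => ((hw w k.1 k.2.2).1.1 k.2.1).imp id fun u => ⟨k.1, u, k.2.2⟩, fun k =>
        k.elim (fun u => ⟨u.1, (hw w u.1 (aF w u)).1.2 (.inl u), aF w u⟩)
          fun u => ⟨u.1, (hw w u.1 u.2.2).1.2 (.inr u.2.1), u.2.2⟩⟩
    rw [← hU K ι J Ω B M n b n2 vb s l hs k₁ k F a₁ _ z δ c1 hk p hl (tf_mono w2 w4)
      ⟨w₀, w1, w2, w3⟩ h₁ h₂ cg d2 l1 hz big, Ef, s1, finprod_mem_union
        (Set.disjoint_left.2 fun w u u' => u.2 (pT w u')) f2 T.finite_toSet,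
      finprod_mem_coe_finset, e2]
    simp only [hV]
    ring
  · have w5 : F' ≤ w₀ := (w1.isPrime.mul_le.1 (e ▸ w2)).resolve_right fun u =>
      w3 (u (a2 P ((hP P).2 rfl)))
    have s1 : {w : Ideal (𝓞 M) | w.IsMaximal ∧ (m : 𝓞 M) ∈ w ∧ w ⊔ F = ⊤} = T := by
      ext w
      simp only [Set.mem_setOf_eq, Finset.mem_coe, hT]
      refine ⟨fun k => ⟨k.1, ((hw w k.1 k.2.2).1.1 k.2.1).resolve_left fun u => k.1.ne_top ?_,
        k.2.2⟩, fun u => ⟨u.1, (hw w u.1 u.2.2).1.2 (.inr u.2.1), u.2.2⟩⟩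
      rw [← k.2.2, eq_comm, sup_eq_left, e, (hP w).1 u]
      exact mul_le_right
    rw [← hR K ι J Ω B M r2 P hP n4 s l hs k F' a₁ _ z δ hk p (top_unique (hl.ge.trans
      (sup_le_sup_right (e.le.trans mul_le_left) _))) (tf_mono w5 w4) ⟨w₀, w1, w5, w3⟩ (e ▸ h₁) (e ▸ h₂)
      hx cg d2 l1 hz big, Ef, s1, finprod_mem_coe_finset, e2]
    ring

end Vale.Agent.P004C.Ln
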