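import Vale.Agent.P004C.Ln.St
import Vale.Agent.P004C.Wa.Co
import Vale.Agent.P004C.Wa.Cj

/-!
# P004 C, block LN, row PV3: characters of the biquadratic field, primes above `n`
-/

set_option autoImplicit false
set_option linter.all false

open NumberField Module Ideal
open scoped Classical ComplexConjugate

noncomputable section

namespace Vale.Agent.P004C.Ln.Pv

open Wa (Kd Sp Sg RC Pm)

section

variable {k M : Type} [Field k] [NumberField k] [Field M] [NumberField M] [Algebra k M]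

theorem coe_nm (x : 𝓞 M) :
    ((Algebra.intNorm (𝓞 k) (𝓞 M) x : 𝓞 k) : k) = Algebra.norm k (x : M) :=
  Algebra.algebraMap_intNorm (K := k) (L := M) x

theorem nm0 {x : 𝓞 M} (h : x ≠ 0) : Algebra.intNorm (𝓞 k) (𝓞 M) x ≠ 0 := fun e => h (by
  have := relNorm_singleton (𝓞 k) x
  rw [e, span_singleton_zero, relNorm_eq_bot_iff] at this
  exact span_singleton_eq_bot.1 this)

/-- the conjugation of a quadratic extension, on the integers -/
theorem q2 (h : finrank k M = 2) : ∃ s : 𝓞 M →+* 𝓞 M,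
    (∀ y : 𝓞 k, s (algebraMap _ _ y) = algebraMap _ _ y) ∧
    (∀ x, algebraMap _ _ (Algebra.intNorm (𝓞 k) (𝓞 M) x) = x * s x) ∧
    ∀ x, s x = x → ∃ y : k, algebraMap k M y = x := by
  obtain ⟨σ, a, -, b⟩ := Wa.Co.aut2 k M h
  refine ⟨RingOfIntegers.mapRingEquiv σ.toRingEquiv, fun y => RingOfIntegers.ext ?_,
    fun x => RingOfIntegers.ext ?_, fun x hx => a x (congrArg (fun z : 𝓞 M => (z : M)) hx)⟩
  · exact σ.commutes (y : k)
  · exact (congrArg (algebraMap k M) (coe_nm x)).trans (b x)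

theorem nm1 (h : finrank k M = 2) {g : Ideal (𝓞 k)} {x : 𝓞 M}
    (hx : x - 1 ∈ g.map (algebraMap (𝓞 k) (𝓞 M))) : Algebra.intNorm (𝓞 k) (𝓞 M) x - 1 ∈ g := by
  obtain ⟨s, a, b, -⟩ := q2 h
  have e : g.map (algebraMap (𝓞 k) (𝓞 M)) ≤ (g.map (algebraMap (𝓞 k) (𝓞 M))).comap s :=
    map_le_iff_le_comap.2 fun y hy => by
      rw [mem_comap, mem_comap, a]
      exact mem_map_of_mem _ hy
  have u := mem_comap.1 (e hx)
  rw [← comap_map_eq_self_of_faithfullyFlat (B := 𝓞 M) g, mem_comap, map_sub, b, map_one,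
    show x * s x - 1 = x * s (x - 1) + (x - 1) by rw [map_sub, map_one]; ring]
  exact add_mem (mul_mem_left _ _ u) hx

theorem cop_rel (h : finrank k M = 2) {g : Ideal (𝓞 k)} {I : Ideal (𝓞 M)} :
    relNorm (𝓞 k) I ⊔ g = ⊤ ↔ I ⊔ g.map (algebraMap (𝓞 k) (𝓞 M)) = ⊤ := by
  refine ⟨fun e => eq_top_iff.2 ?_, fun e => ?_⟩
  · rw [← map_top (algebraMap (𝓞 k) (𝓞 M)), ← e, Ideal.map_sup]
    exact sup_le_sup_right (map_le_iff_le_comap.2 (relNorm_le_comap _ I)) _
  · obtain ⟨x, hx, y, hy, u⟩ := Submodule.mem_sup.1 ((eq_top_iff_one _).1 e)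
    have := nm1 h (x := x) (g := g) (by rw [← u]; simpa using hy)
    rw [eq_top_iff_one, show (1 : 𝓞 k) = Algebra.intNorm (𝓞 k) (𝓞 M) x -
      (Algebra.intNorm (𝓞 k) (𝓞 M) x - 1) by ring]
    exact sub_mem (mem_sup_left (intNorm_mem_spanNorm _ hx)) (mem_sup_right this)

end

theorem cop_mul {R : Type} [CommRing R] {I f g : Ideal R} :
    I ⊔ f * g = ⊤ ↔ I ⊔ f = ⊤ ∧ I ⊔ g = ⊤ := by
  simp only [← isCoprime_iff_sup_eq]
  exact IsCoprime.mul_right_iff

variable {K : Type} [Field K] [NumberField K] {J : K →+* ℂ} {D : ℕ} {θ : 𝓞 K}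
  {L : Type} [Field L] [NumberField L] {M : Type} [Field M] [NumberField M] [Algebra K M]

/-- another modulus with the same primes -/
theorem hc_congr {k : ℕ} {F F' : Ideal (𝓞 M)} {a : Ideal (𝓞 M) → ℂ} (h : HC J k F a) (l : F' ≤ F)
    (e : ∀ I, I ⊔ F = ⊤ → I ⊔ F' = ⊤) : HC J k F' a where
  one := h.one
  mul := h.mul
  zero I := (h.zero I).trans (or_congr_right (not_congr
    ⟨e I, fun u => eq_top_iff.2 (u ▸ sup_le_sup_left l I)⟩))
  prn x a b := h.prn x a (l b)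

variable [Algebra L M]

theorem rk2 (h : Kd J D θ) (h2 : finrank ℚ L = 2) (hM : finrank K M = 2) : finrank L M = 2 := by
  have a := finrank_mul_finrank ℚ K M
  have b := finrank_mul_finrank ℚ L M
  rw [h.two, hM] at a
  rw [h2, ← a] at b
  omega

/-- norms from the biquadratic field are totally positive -/
theorem pos (h : Kd J D θ) (h2 : finrank L M = 2)
    (hd : ∀ x : L, ∀ y : K, algebraMap L M x = algebraMap K M y → ∃ q : ℚ, x = q)
    (σ : L →+* ℝ) {x : M} (hx : x ≠ 0) : 0 < σ (Algebra.norm L x) := by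
  obtain ⟨s, a, u, b⟩ := Wa.Co.aut2 L M h2
  have ss : ∀ z, s (s z) = z := fun z => by
    rcases u (s * s) with e | e
    · exact congrArg (fun t : M ≃ₐ[L] M => t z) e
    · rw [mul_eq_left.1 e]
      rfl
  set t : M := algebraMap K M θ with ht
  have st : s t = -t := Wa.Co.neg_of h ((s : M →+* M).comp ((algebraMap K M).comp (algebraMap _ K)))
    ((algebraMap K M).comp (algebraMap _ K)) fun e => by
      obtain ⟨y, hy⟩ := a t e
      obtain ⟨q, rfl⟩ := hd y θ hy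
      exact ⟨q, (algebraMap K M).injective (by rw [← ht, ← hy]; simp)⟩
  have t2 : t ^ 2 = -D := by
    rw [ht, ← map_pow, ← map_pow (algebraMap (𝓞 K) K), h.sq]
    simp
  have t0 : t ≠ 0 := by
    simpa [ht] using Wa.Cj.th_ne h
  obtain ⟨α, hα⟩ := a (x + s x) (by rw [map_add, ss, add_comm])
  obtain ⟨β, hβ⟩ := a ((x - s x) / t) (by rw [map_div₀, map_sub, ss, st]; ring)
  have e : 4 * Algebra.norm L x = α ^ 2 + D * β ^ 2 := (algebraMap L M).injective (by
    rw [map_mul, b, map_add, map_mul, map_pow, map_pow, hα, hβ, map_natCast, map_ofNat,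
      show (D : M) = -t ^ 2 by rw [t2, neg_neg]]
    field_simp
    ring)
  have e' := congrArg σ e
  rw [map_mul, map_add, map_mul, map_pow, map_pow, map_natCast, map_ofNat] at e'
  have : FiniteDimensional L M := finite_of_finrank_eq_succ h2
  refine lt_of_le_of_ne (by nlinarith [sq_nonneg (σ α), mul_nonneg D.cast_nonneg (sq_nonneg (σ β))])
    ((map_ne_zero σ).2 (Algebra.norm_ne_zero_iff.2 hx)).symm

/-- **the character of the biquadratic field** -/
theorem hcm (h : Kd J D θ) (h2 : finrank ℚ L = 2) (hM : finrank K M = 2)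
    (hd : ∀ x : L, ∀ y : K, algebraMap L M x = algebraMap K M y → ∃ q : ℚ, x = q)
    {sg : L → ℂ} {g : Ideal (𝓞 L)} {φ : Ideal (𝓞 L) → ℂ} {t : Ideal (𝓞 K)}
    {a : Ideal (𝓞 K) → ℂ} (hs : Sg sg) (r : RC sg g φ) (ha : HC J 1 t a) :
    HC J 1 (g.map (algebraMap (𝓞 L) (𝓞 M)) * t.map (algebraMap (𝓞 K) (𝓞 M)))
      fun I => φ (relNorm (𝓞 L) I) * a (relNorm (𝓞 K) I) where
  one := by rw [(relNorm (𝓞 L)).map_one, (relNorm (𝓞 K)).map_one, r.one, ha.one, mul_one]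
  mul I I' := by
    rw [(relNorm (𝓞 L)).map_mul, (relNorm (𝓞 K)).map_mul, r.mul, ha.mul]
    ring
  zero I := by
    have u := cop_rel (rk2 h h2 hM) (g := g) (I := I)
    have v := cop_rel hM (g := t) (I := I)
    rw [mul_eq_zero, r.zero, ha.zero, relNorm_eq_bot_iff, relNorm_eq_bot_iff, Ne, Ne, Ne, u, v,
      cop_mul, not_and_or, or_or_or_comm, or_self]
  prn x x0 x1 := by
    have hL := rk2 h h2 hM
    have z : ∀ y : K, Algebra.norm K y = y := fun y => by simp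
    rw [relNorm_singleton, relNorm_singleton, r.prn _ (nm0 x0) (nm1 hL (mul_le_left x1)),
      ha.prn _ (nm0 x0) (nm1 hM (mul_le_right x1)), coe_nm, coe_nm, z (Algebra.norm K (x : M))]
    rcases hs with ⟨-, e⟩ | ⟨σ, e⟩
    · rw [e, one_mul]
    · rw [e, sign_pos (pos h hL hd σ (by simpa using x0))]
      simp

/-- **one prime above `P` and above `n`** -/
theorem unq' (h : Kd J D θ) (h2 : finrank ℚ L = 2) (hM : finrank K M = 2)
    (hd : ∀ x : L, ∀ y : K, algebraMap L M x = algebraMap K M y → ∃ q : ℚ, x = q)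
    {m : ℕ} {n n' : Ideal (𝓞 K)} (S : Sp m n n') {P : Ideal (𝓞 L)} (hP : P.IsMaximal)
    {Q Q' : Ideal (𝓞 M)} (q : Q.IsMaximal) (q' : Q'.IsMaximal)
    (a : n.map (algebraMap (𝓞 K) (𝓞 M)) ≤ Q) (a' : n.map (algebraMap (𝓞 K) (𝓞 M)) ≤ Q')
    (b : P.map (algebraMap (𝓞 L) (𝓞 M)) ≤ Q) (b' : P.map (algebraMap (𝓞 L) (𝓞 M)) ≤ Q') :
    Q' = Q := by
  obtain ⟨s, -, u, v⟩ := q2 (rk2 h h2 hM)
  obtain ⟨c, C⟩ := Wa.Cj.ex_cg h
  have e : P = Q'.comap (algebraMap (𝓞 L) (𝓞 M)) :=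
    hP.eq_of_le (comap_ne_top _ q'.ne_top) (map_le_iff_le_comap.1 b')
  have : (Q' : Set (𝓞 M)) ⊆ Q ∪ Q.comap s := fun x hx => q.isPrime.mem_or_mem (by
    rw [← u]
    refine b (mem_map_of_mem _ ?_)
    rw [e, mem_comap, u]
    exact mul_mem_right _ _ hx)
  refine q'.eq_of_le q.ne_top ((subset_union.1 this).resolve_right fun w => q.ne_top ?_)
  have st : s (algebraMap _ _ θ) = -algebraMap _ _ θ :=
    Wa.Co.neg_of h (s.comp (algebraMap (𝓞 K) (𝓞 M))) (algebraMap (𝓞 K) (𝓞 M)) fun e => by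
      obtain ⟨y, hy⟩ := v _ e
      obtain ⟨q, rfl⟩ := hd y θ hy
      exact ⟨q, (algebraMap K M).injective (hy.symm.trans (by simp))⟩
  have sc : ∀ x : 𝓞 K, s (algebraMap _ _ x) = algebraMap _ _ (c x) := fun x => by
    obtain ⟨i, hi⟩ := C.sub x
    obtain ⟨j, hj⟩ := C.fix (x + c x) (by rw [map_add, C.ss, add_comm])
    have e1 : 2 * x = j + i * θ := by linear_combination hi + hj
    have e2 : 2 * c x = j - i * θ := by linear_combination hj - hi
    have e3 := congrArg (fun z => s (algebraMap (𝓞 K) (𝓞 M) z)) e1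
    have e4 := congrArg (algebraMap (𝓞 K) (𝓞 M)) e2
    simp only [map_mul, map_add, map_sub, map_intCast, map_ofNat, st] at e3 e4
    exact mul_left_cancel₀ two_ne_zero (by linear_combination e3 - e4)
  obtain ⟨x, hx, y, hy, z⟩ := Submodule.mem_sup.1 ((eq_top_iff_one _).1 S.cop)
  rw [eq_top_iff_one, ← map_one (algebraMap (𝓞 K) (𝓞 M)), ← z, map_add]
  refine add_mem (a (mem_map_of_mem _ hx)) ?_
  rw [← C.ss y, ← sc]
  exact w (a' (mem_map_of_mem _ ((C.sp_mem S).1.2 hy)))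

theorem unq (h : Kd J D θ) (h2 : finrank ℚ L = 2) (hM : finrank K M = 2)
    (hd : ∀ x : L, ∀ y : K, algebraMap L M x = algebraMap K M y → ∃ q : ℚ, x = q)
    {m : ℕ} {n n' : Ideal (𝓞 K)} (S : Sp m n n') {P : Ideal (𝓞 L)} (hP : P.IsMaximal)
    {Q Q' : Ideal (𝓞 M)} (q : Q.IsMaximal) (q' : Q'.IsMaximal)
    (a : n.map (algebraMap (𝓞 K) (𝓞 M)) ≤ Q) (a' : n.map (algebraMap (𝓞 K) (𝓞 M)) ≤ Q')
    (b : relNorm (𝓞 L) Q = P) (b' : P.map (algebraMap (𝓞 L) (𝓞 M)) ≤ Q') : Q' = Q :=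
  unq' h h2 hM hd S hP q q' a a' (map_le_iff_le_comap.2 (b ▸ relNorm_le_comap _ Q)) b'

end Vale.Agent.P004C.Ln.Pv
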