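import Vale.Agent.P004C.Ln.Ana3a
import Vale.Agent.P004C.Ln.Pv3a
import Vale.Agent.P004C.Ln.Fin

/-!
# P004 C, block LN: the analytic side for the image `S₃` (row ANA3)
-/

open NumberField Module Ideal
open scoped Classical ComplexConjugate Real

noncomputable section

namespace Vale.Agent.P004C.Ln

open Vale.Agent.P022 (Qb GQ GK below)
open P004K (Cn Cop)
open P004F (Crv Fld)
open Wa (Kd Sp RC Chr MW co tg dp THG)
open Ac

namespace A3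

variable {L : Type} [Field L] [NumberField L] {f w : Ideal (𝓞 L)} {ψ ε : Ideal (𝓞 L) → ℂ}
  {sg : L → ℂ} {l₀ r : ℕ}

theorem map_mem {k M : Type} [Field k] [Field M] [Algebra k M] {g : Ideal (𝓞 k)} {a : ℕ}
    (h : (a : 𝓞 k) ∈ g) : (a : 𝓞 M) ∈ g.map (algebraMap (𝓞 k) (𝓞 M)) :=
  map_natCast (algebraMap (𝓞 k) (𝓞 M)) a ▸ mem_map_of_mem _ h

theorem rc_nz {k M : Type} [Field k] [NumberField k] [Field M] [NumberField M] [Algebra k M]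
    {s : k → ℂ} {g : Ideal (𝓞 k)} {φ : Ideal (𝓞 k) → ℂ} (h : RC s g φ) {a : ℕ} (a1 : a ≠ 1)
    (m : (a : 𝓞 k) ∈ g) {I : Ideal (𝓞 M)} (c : (absNorm I).Coprime a) :
    φ (relNorm (𝓞 k) I) ≠ 0 := fun z => ((h.zero _).1 z).elim
  (fun y => a1 (by simpa [relNorm_eq_bot_iff.1 y] using c))
  fun y => y (sup_top (absNorm_mem _) m (by rwa [absNorm_relNorm]))

theorem rc_z {k M : Type} [Field k] [NumberField k] [Field M] [NumberField M] [Algebra k M]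
    (h2 : finrank k M = 2) {s : k → ℂ} {g : Ideal (𝓞 k)} {φ : Ideal (𝓞 k) → ℂ} (h : RC s g φ)
    {W : Ideal (𝓞 M)} (c : W ≠ ⊤) (le : g.map (algebraMap (𝓞 k) (𝓞 M)) ≤ W) :
    φ (relNorm (𝓞 k) W) = 0 :=
  (h.zero _).2 (Or.inr fun z => c ((sup_eq_left.2 le).symm.trans ((Pv.cop_rel h2).1 z)))

/-- the change of the weight -/
theorem wt (hex : HEX) (iot : IOT) (lvx : LVX) (pv3 : PV3) (fin : FIN1) (xi : XI) (cs3 : CS3)
    (tfx : TFX) (prm : PRM) (D : Dh f ψ) (T : Tw f sg l₀ r w ε) {e : Crv} (hl : l₀ ∈ e.S) {ι V}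
    (pl : Pl ι V (e.P 2)) {m₀ m : ℕ} {χ' : ℤ → ℂ} {ρ₀ : ℝ}
    (O : Fo e V (f * w) (ph ψ ε) (r + 1) m₀ m χ' ρ₀) {b : Fld e} {Ω : ℝ} (B : Base ι (Jc b.j) Ω)
    {M : Type} [Field M] [NumberField M] [Algebra b.K M] [Algebra L M] (hM : finrank b.K M = 2)
    (hd : ∀ x : L, ∀ y : b.K, algebraMap L M x = algebraMap b.K M y → ∃ q : ℚ, x = q)
    (hs : ∀ t, 0 < t → ∃ (s : Ideal (𝓞 M)) (l : ℕ), Sm s l ∧ l.Coprime t ∧
      ψ (relNorm (𝓞 L) s) ≠ 1) {n n' ν} (lv : Lv b m n n' ν)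
    {β : Ideal (𝓞 b.K) → ℂ} {δ : ℝ} (hβ : Hb (Jc b.j) 1 n (fun d => conj (χ' d)) β)
    (β1 : ∀ I, Cop m I → V (β I - 1) ≤ δ) (δ1 : δ < 1) (δ2 : 1 / 2 ≤ δ) (δ3 : ρ₀ ≤ δ)
    {n₀ c χ ζ ξ} (ly : Lay b n₀ c χ ζ ξ) {u u' : Ideal (𝓞 b.K)} (sp : Sp c u u') {h k : ℕ} {lam}
    (la : La (Jc b.j) h k lam) (hk : 3 ≤ 2 * h * k) {a : Ideal (𝓞 M) → ℂ}
    (ha : ∀ I, a I = ψ (relNorm (𝓞 L) I) * (ξ (relNorm (𝓞 b.K) I) * lam (relNorm (𝓞 b.K) I)))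
    {ρ : ℝ} (δρ : δ < ρ) (hρ : ρ ≤ sc Ω (V ((discr L).natAbs * absNorm f : ℕ)) 2 (2 * h * k) *
      V (∑' I, Dp ((tS b).map (algebraMap (𝓞 b.K) (𝓞 M))) a I))
    (hw : ∀ W : Ideal (𝓞 M), W.IsMaximal → ((e.S.prod / 2 : ℕ) : 𝓞 M) ∈ W → δ < V (1 - a W))
    {κ : Type} [Fintype κ] {A : κ → Ideal (𝓞 b.K)} (ro : Ro c m A) :
    Ω ^ 2 * ρ ≤
      V (2 * π * pc (Jc b.j) 1 (m ^ 2) c (tg (dp m (ph ψ ε))) (fun I => ξ I * β I) ν A) ^ 2 := by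
  obtain ⟨kd, -⟩ := lvx e b
  obtain ⟨hV, io⟩ := (iot _ (e.ov 2 e.two)).2 ι V pl
  have hx := (io b.K b.j b.δ' b.θ kd).2.1
  obtain ⟨x2, rg⟩ := (xi.1 e b n₀ c χ ζ ly.ad ly.sq ly.rt).2.1 ξ ly.xi
  replace rg := rg ly.ram
  have sm : e.S.prod ∣ m := (dvd_mul_left _ _).trans O.nm
  have m2 : 2 ∣ m := (List.dvd_prod e.two).trans sm
  have m0 := O.pos
  have c0 : c ≠ 0 := ly.sq.ne_zero
  have co : Odd c := Nat.not_even_iff_odd.1 fun z =>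
    (ly.out 2 Nat.prime_two (even_iff_two_dvd.1 z)).1 e.two
  have cm : c.Coprime (m * b.δ') := Nat.coprime_of_dvd fun p hp k1 k2 =>
    ((Nat.Prime.dvd_mul hp).1 k2).elim (fun z => (ly.out p hp k1).1 (O.ms p hp z))
      (ly.out p hp k1).2
  obtain ⟨p1, -, -, p4, p5⟩ := prm e b ι V pl m n n' ν lv sm O.ms
  obtain ⟨r1, r2, r3, r4⟩ := T.chr hex D
  have lm := Pv.rk2 kd D.two hM
  obtain ⟨F, hF⟩ : ∃ F, F = (f * w).map (algebraMap (𝓞 L) (𝓞 M)) *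
    n'.map (algebraMap (𝓞 b.K) (𝓞 M)) * span {(c : 𝓞 M)} := ⟨_, rfl⟩
  obtain ⟨a₁, z, h1, ac, e1, pe⟩ := pv3 V hV b.K (Jc b.j) b.δ' b.θ kd L D.two M hM hd sg _ _ T.sgn r1
    r2 r3 r4 m₀ m c n n' u u' χ' ξ β ν O.mem O.two O.pd O.dm lv.sp sp ly.sq cm lv.cop p1 O.chr O.mw
    O.pr rg hβ lv.nu lv.nu1 F hF
  obtain ⟨h2, am, cs⟩ := cs3 b.K ι (Jc b.j) Ω V B pl.eq L f ψ D M hM hd w n' c h k ξ lam T.two p1 co
    rg la F a hF ha
  have mc : m * c ≠ 1 := fun y => by have := Nat.eq_one_of_mul_eq_one_right y; omega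
  have lm0 : l₀ ∣ m := (List.dvd_prod hl).trans sm
  have mf : (m : 𝓞 L) ∈ f * w := mem_dvd O.mem ((dvd_mul_left _ _).trans O.dm)
  have mf' : ((m * c : ℕ) : 𝓞 L) ∈ f := mem_dvd (mul_le_left mf) (dvd_mul_right _ _)
  have cc : ((m * c : ℕ) : 𝓞 b.K) ∈ span {(c : 𝓞 b.K)} :=
    mem_dvd (mem_span_singleton_self _) (dvd_mul_left _ _)
  have ln : ∀ I : Ideal (𝓞 M), (absNorm I).Coprime (m * c) →
      V (lam (relNorm (𝓞 b.K) I) - 1) ≤ 1 / 2 := fun I y =>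
    la_near hV (fun x => ⟨(hx x).1, (hx x).2.2⟩) la (by
      rw [absNorm_relNorm]
      exact Nat.coprime_two_right.1 (y.coprime_dvd_right (m2.mul_right _)))
  obtain ⟨s, l, sl, l1, l2⟩ := hs (m * c) (by positivity)
  have lo : Odd l := sl.1.odd_of_ne_two sl.2.1
  obtain ⟨w₀, w1, w2⟩ := exists_le_maximal (w.map (algebraMap (𝓞 L) (𝓞 M))) fun y => T.ne (by
    rw [← comap_map_eq_self_of_faithfullyFlat (B := 𝓞 M) w, y, comap_top])
  have w3 : (l₀ : 𝓞 M) ∈ w₀ := w2 (map_mem T.mem)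
  have fw : F ≤ w.map (algebraMap (𝓞 L) (𝓞 M)) :=
    hF ▸ mul_le_left.trans (mul_le_left.trans (map_mono mul_le_right))
  have fn : F ≤ n'.map (algebraMap (𝓞 b.K) (𝓞 M)) := hF ▸ mul_le_left.trans mul_le_right
  have r4 : finrank ℚ M ≤ 4 := by rw [← finrank_mul_finrank ℚ b.K M, kd.two, hM]
  have key := fin b.K ι (Jc b.j) Ω V B pl.eq M 2 1 (2 * h * k) m (m * c) l _ δ ρ F _ s a₁ a z cs hk
    m0 m2 (by positivity) sl (sup_top (a := m * m * c) ?_ (mem_span_singleton_self _) ?_)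
    ⟨w₀, w1, fw.trans w2, not_two w1.ne_top w3 T.odd, tfx M r4 w₀ l₀ w1 T.pr
      (T.cop.coprime_dvd_right (dvd_mul_right _ _)) w3⟩ h1 h2 am ac (fun I y _ => ?_) δ2 δ1 δρ ?_
    (fun W y t => ?_) (fun W y t => ?_) hρ
  · rw [← key, sc] at hρ
    rw [pe κ A ro, map_mul absNorm, T.nm, ← mul_assoc _ _ l₀, Nat.cast_mul _ l₀, V.map_mul,
      v_odd hV T.odd, mul_one]
    refine (mul_le_mul_of_nonneg_left hρ (sq_nonneg Ω)).trans_eq ?_
    have := B.pos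
    simp only [pow_one, Real.div_sqrt, Nat.sub_self, Nat.factorial_zero, Nat.cast_one, norm_one]
    field_simp
  · rw [hF, Nat.cast_mul, Nat.cast_mul]
    exact mul_mem_mul (mul_mem_mul (map_mem mf) (map_mem (Wa.Cj.sp_m lv.sp).2))
      (mem_span_singleton_self _)
  · exact ((l1.coprime_dvd_right (dvd_mul_right m c)).mul_right l1).symm.coprime_dvd_left
      (by rw [mul_assoc])
  · have ym := y.coprime_dvd_right (dvd_mul_right m c)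
    have q1 : conj (ε (relNorm (𝓞 L) I)) ^ 2 ^ (r + 1) = 1 := by
      rw [← map_pow, T.pow (by rw [absNorm_relNorm]; exact ym.coprime_dvd_right lm0), map_one]
    have q2 : χ' (absNorm I) ^ 2 ^ (r + 1) = 1 := (O.tp _).resolve_left fun t =>
      (O.chr.zero _).1 t (Nat.isCoprime_iff_coprime.2 ym)
    have q3 := Bx.mul_le hV δ1 (Bx.mul_le hV δ1 ((O.rt _ q1).trans δ3)
      (β1 _ (p4 (relNorm (𝓞 b.K) I) (by rwa [absNorm_relNorm])))) ((O.rt _ q2).trans δ3)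
    rw [e1 I y, ha, ph, map_mul, Complex.conj_conj]
    refine le_of_eq_of_le (congrArg V ?_) (v_mul (v_root' three_ne_zero (D.cub (relNorm (𝓞 L) I)))
      (v_mul (v_root' (by positivity) (x2 (relNorm (𝓞 b.K) I))) (v_sub hV q3 ((ln I y).trans δ2))))
    ring
  · have sc : (absNorm s).Coprime (m * c) := sl.2.2.1 ▸ l1
    have q1 := (D.cub _).resolve_left (rc_nz D.rc mc mf' sc)
    have q2 := (x2 _).resolve_left (rc_nz rg.rc mc cc sc)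
    have q3 := v_mul_lt hV ((v_odd' hV lo).trans_lt (by norm_num)) (v_mul_lt hV (v_tp hV _ q2)
      ((ln s sc).trans_lt (by norm_num)))
    have q4 := v_cube hV q1 l2
    rw [ha]
    generalize ψ (relNorm (𝓞 L) s) = x at *
    generalize ξ (relNorm (𝓞 b.K) s) * lam (relNorm (𝓞 b.K) s) = y at *
    have q5 : (1 - x : ℂ) ≠ 0 := fun z => by simp [z] at q4
    rw [show 1 - (l : ℂ) * (x * y) = (1 - x) * (1 + -(x * (1 - x)⁻¹ * (l * y - 1))) by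
      field_simp; ring, V.map_mul, q4, one_mul]
    refine v_one hV ?_
    rw [add_sub_cancel_left, V.map_neg, V.map_mul, V.map_mul, map_inv₀, q4,
      v_root three_ne_zero q1]
    simpa using q3
  · rw [hF, Ideal.map_mul, y.isPrime.mul_le, y.isPrime.mul_le, y.isPrime.mul_le] at t
    rcases t with ((t | t) | t) | t
    · exact Or.inl (by rw [ha, rc_z lm D.rc y.ne_top t, zero_mul])
    · exact Or.inr ((p5 M W y).2.1 l₀ hl T.pr (by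
        rintro rfl; exact Nat.not_odd_iff_even.2 even_two T.odd) (t (map_mem T.mem)))
    · exact Or.inr ((p5 M W y).1 t)
    · exact Or.inl (by
        rw [ha, rc_z hM rg.rc y.ne_top (by rwa [map_span, Set.image_singleton, map_natCast]),
          zero_mul, mul_zero])
  · obtain ⟨q1, q2⟩ := (p5 M W y).2.2 fun q => y.ne_top ((sup_eq_left.2 (fn.trans q)).symm.trans t)
    exact ⟨q1, fun q => ⟨(q2 q).1, hw W y (q2 q).2⟩⟩

end A3

open A3 in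
/-- **row ANA3** -/
theorem ana3 (hex : HEX) (eps : EPS) (thg : THG) (cfc : CFC) (bex : BEX) (iot : IOT) (lvx : LVX)
    (sml : SML) (pv3 : PV3) (fin : FIN1) (xi : XI) (cs3 : CS3) (tfx : TFX) (prm : PRM) : ANA3 := by
  intro L _ _ f ψ D
  obtain ⟨sg, l₀, r, w, ε, t1, t2, t3, t4, t5, t6, t7⟩ := eps L D.two
    (30 * ((discr L).natAbs * absNorm f)) (by
      have := Int.natAbs_pos.2 (discr_ne_zero L)
      have := Nat.pos_of_ne_zero (mt absNorm_eq_zero_iff.1 D.rc.ne)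
      positivity)
  have T : Tw f sg l₀ r w ε := ⟨t1, t2, t3, t4, t5, t6, t7⟩
  refine ⟨l₀, t2, fun e hl fs cg ι V pl => ?_⟩
  have hV := ((iot _ (e.ov 2 e.two)).2 ι V pl).1
  obtain ⟨m₀, m, χ', ρ₀, O⟩ := form hex thg cfc D T hl fs cg hV
  have cr : Cr m χ' := ⟨O.chr.one, O.chr.mul, O.chr.per, O.chr.zero⟩
  obtain ⟨T₀, hT⟩ := sml e ι V pl m 1 (r + 1) χ' _ _ ρ₀ O.pos O.nm O.ms cr O.tp
    (Or.inl ⟨rfl, O.mw⟩) O.qe O.lt O.cg
  refine ⟨T₀, fun b hb Ω B M _ _ _ _ hM hd hs => ?_⟩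
  obtain ⟨kd, -, -, -, -, lx⟩ := lvx e b
  obtain ⟨n, n', ν, lv⟩ := lx m O.pos O.nm O.ms
  obtain ⟨-, p2, p3, -⟩ := prm e b ι V pl m n n' ν lv ((dvd_mul_left _ _).trans O.nm) O.ms
  obtain ⟨β, δ₁, d1, hβ, β1⟩ := bex V hV b.K (Jc b.j) b.δ' b.θ kd 1 m (r + 1) n
    (fun d => conj (χ' d)) O.pos p2 (cr_conj cr) (by simp [O.chr.odd]) fun d =>
      (O.tp d).imp (fun k => by simp [k]) fun k => by rw [← map_pow, k, map_one]
  have β2 : ∀ I, Cop m I → V (β I - 1) ≤ δ₁ := fun I y => β1 I (fun z =>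
    ((hβ.hc.zero I).1 z).elim (p3 I y).1 fun t => t (p3 I y).2.1) (p3 I y).2.2
  obtain ⟨δ, d2, d3, d4, hδ⟩ := hT b hb Ω B n n' ν lv β δ₁ d1 β2
  refine ⟨max δ ρ₀, max_lt d2 O.lt, fun n₀ c χ ζ ξ ly ⟨u, u', sp⟩ h k lam la hk a ha ρ l δρ hρ hw
    hl' => by_contra fun an => ?_⟩
  obtain ⟨κ, _, A, ro, le⟩ := hδ n₀ c χ ζ ξ l ly an
  have k1 := wt hex iot lvx pv3 fin xi cs3 tfx prm D T hl pl O B hM hd hs lv hβ
    (fun I y => (β2 I y).trans (d4.trans (le_max_left _ _))) (max_lt d2 O.lt)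
    (d3.trans (le_max_left _ _)) (le_max_right _ _) ly sp la hk ha δρ hρ hw ro
  simp only [pow_one] at le
  have k2 := k1.trans (pow_le_pow_left₀ (V.nonneg _) le 2)
  rw [mul_pow] at k2
  refine absurd (le_of_mul_le_mul_left k2 (pow_pos B.pos 2)) (not_le.2 ?_)
  rcases le_total δ (V (ζ - 1) ^ (l + 1)) with t | t
  · rw [max_eq_right t, ← pow_mul, show (l + 1) * 2 = 2 * l + 2 by ring]
    exact hl'
  · rw [max_eq_left t]
    have := (le_max_left _ _).trans_lt δρ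
    nlinarith

end Vale.Agent.P004C.Ln
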