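import Vale.Agent.P004C.Ln.Anac1
import Vale.Agent.P004C.Ln.Fin

/-!
# P004 C, block LN: the analytic side for the image `C₃` (row ANAC)
-/

open NumberField Module Ideal
open scoped Classical ComplexConjugate Real

noncomputable section

namespace Vale.Agent.P004C.Ln

open Vale.Agent.P022 (Qb GQ GK below)
open P004K (Cn Cop)
open P004F (Crv Fld)
open Wa (Kd Sp RC)

namespace Ac

theorem s_iff (e : Crv) {p : ℕ} (hp : p.Prime) : p ∣ e.S.prod ↔ p ∈ e.S := by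
  refine ⟨fun h => ?_, List.dvd_prod⟩
  obtain ⟨a, h1, h2⟩ := hp.prime.dvd_prod_iff.1 h
  rwa [(Nat.prime_dvd_prime_iff_eq hp (e.ov a h1).1).1 h2]

/-- the change of the weight for one character -/
theorem wt (iot : IOT) (lvx : LVX) (ei2 : EI2) (fin : FIN1) (dvl : DVL) (xi : XI) {f : ℕ}
    {ψ : ℤ → ℂ} (hf : 1 < f) (o : Odd f) (cr : Cr f ψ) (cp : Cp f ψ)
    (h3 : ∀ d, ψ d = 0 ∨ ψ d ^ 3 = 1) {e : Crv} {ι V} (pl : Pl ι V (e.P 2)) {b : Fld e} {Ω : ℝ}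
    (B : Base ι (Jc b.j) Ω) {m : ℕ} (m0 : 0 < m) (fm : f ∣ m) (sm : e.S.prod ∣ m)
    (ms : ∀ p : ℕ, p.Prime → p ∣ m → p ∈ e.S) {n n' ν} (lv : Lv b m n n' ν)
    {β : Ideal (𝓞 b.K) → ℂ} {δ : ℝ} (hβ : HC (Jc b.j) 4 ⊤ β)
    (β1 : ∀ I, Odd (absNorm I) → V (β I - 1) ≤ δ) (δ1 : δ < 1) (δ2 : 1 / 2 ≤ δ)
    {n₀ c χ ζ ξ} (ly : Lay b n₀ c χ ζ ξ) {h k : ℕ} {lam} (la : La (Jc b.j) h k lam)
    (hk : 3 ≤ 2 * h * k) {a : Ideal (𝓞 b.K) → ℂ} (ha : ∀ I, a I = ψ (absNorm I) * (ξ I * lam I))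
    {ρ : ℝ} (δρ : δ < ρ) (hρ : ρ ≤ sc Ω 1 1 (2 * h * k) * V (∑' I, Dp (tS b) a I))
    (hw : ∀ w : Ideal (𝓞 b.K), w.IsMaximal → ((e.S.prod / 2 : ℕ) : 𝓞 b.K) ∈ w → δ < V (1 - a w))
    {κ : Type} [Fintype κ] {A : κ → Ideal (𝓞 b.K)} (ro : Ro c m A) :
    Ω ^ 4 * (sc Ω 1 1 (2 * h * k) * V (∑' I, Dp (tS b) a I)) =
      V ((2 * π) ^ 4 * pc (Jc b.j) 4 (m ^ 2) c (eis m (cut m ψ)) (fun I => ξ I * β I) ν A) := by
  obtain ⟨kd, o2, e2, -⟩ := lvx e b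
  obtain ⟨hV, io⟩ := (iot _ (e.ov 2 e.two)).2 ι V pl
  have hx := (io b.K b.j b.δ' b.θ kd).2.1
  obtain rfl : a = fun I => ψ (absNorm I) * (ξ I * lam I) := funext ha
  obtain ⟨x2, rg⟩ := (xi.1 e b n₀ c χ ζ ly.ad ly.sq ly.rt).2.1 ξ ly.xi
  replace rg := rg ly.ram
  have m2 : 2 ∣ m := (List.dvd_prod e.two).trans sm
  have c0 : c ≠ 0 := ly.sq.ne_zero
  have co : Odd c := Nat.not_even_iff_odd.1 fun z =>
    (ly.out 2 Nat.prime_two (even_iff_two_dvd.1 z)).1 e.two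
  have cm : c.Coprime (m * b.δ') := Nat.coprime_of_dvd fun p hp k1 k2 =>
    ((Nat.Prime.dvd_mul hp).1 k2).elim (fun z => (ly.out p hp k1).1 (ms p hp z)) (ly.out p hp k1).2
  have v1 : ∀ x : 𝓞 b.K, x ∉ below b.j (e.P 2) → V (Jc b.j x) = 1 := fun x z =>
    le_antisymm (hx x).1 (not_lt.1 fun y => z ((hx x).2.1.1 y))
  obtain ⟨s₀, s1, s2⟩ := lv.v'
  obtain ⟨h4, ac, pe⟩ := ei2 V hV b.K (Jc b.j) b.δ' b.θ kd f m c n n' ψ ξ β ν o fm m2 cr cp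
    (neg_one cr h3) lv.sp ly.sq cm lv.cop ⟨s₀, s1, v1 _ s2⟩ rg hβ lv.nu lv.nu1 _ _ rfl rfl
  set F := n' * span {((f * c : ℕ) : 𝓞 b.K)} with hF
  have lc := la_hc B la
  have ln : ∀ I, Odd (absNorm I) → V (lam I - 1) ≤ 1 / 2 := fun I =>
    la_near hV (fun x => ⟨(hx x).1, (hx x).2.2⟩) la
  obtain ⟨s, l, sl, l1, l2, l3, l4⟩ := ex_sm kd hf cr cp (lv.cop.coprime_dvd_right fm) (m * (f * c))
  have lo : Odd l := sl.1.odd_of_ne_two sl.2.1
  have lm : (m * (f * c)).Coprime l := (Nat.coprime_of_lt_prime (by positivity) l1 sl.1).symm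
  obtain ⟨w₀, w1, w2⟩ := exists_le_maximal (span {(f : 𝓞 b.K)}) fun z => by
    have := Wa.Co.nm_span kd.two f
    rw [z, absNorm_top] at this
    nlinarith
  have w3 : (f : 𝓞 b.K) ∈ w₀ := (span_singleton_le_iff_mem _).1 w2
  have w4 : F ≤ w₀ := mul_le_right.trans ((span_singleton_le_iff_mem _).2
    (mem_dvd w3 (dvd_mul_right _ _)))
  have w5 := not_two w1.ne_top w3 o
  have un : ∀ u : (𝓞 b.K)ˣ, (u : 𝓞 b.K) - 1 ∈ w₀ → u = 1 := fun u z => (B.upm u).resolve_right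
    fun y => w5 (by have := w₀.neg_mem z; rw [y] at this; simpa [one_add_one_eq_two] using this)
  have t2 : (2 : 𝓞 b.K) ∈ below b.j (e.P 2) := (hx 2).2.1.1 (by
    rw [show Jc b.j ((2 : 𝓞 b.K) : b.K) = 2 from map_ofNat _ 2, hV.2]; norm_num)
  have av : ∀ w : Ideal (𝓞 b.K), w.IsMaximal → (Av ι (Jc b.j) w ↔ w = below b.j (e.P 2)) :=
    fun w hw => by
      rw [Av, pv_iff]
      refine ⟨fun z => hw.eq_of_le (fun y => ?_) fun x y => by_contra fun t =>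
        z.2 ⟨x, y, (pl.eq _).symm.trans (v1 x t)⟩, fun z => ⟨hw, ?_⟩⟩
      · simpa using (hx 1).2.1.2 (y ▸ trivial)
      · rintro ⟨x, y, t⟩
        exact ((hx x).2.1.2 (z ▸ y)).ne ((pl.eq _).trans t)
  have ts : ∀ (w : Ideal (𝓞 b.K)) (p : ℕ), p.Prime → p ∈ e.S → p ≠ 2 → (p : 𝓞 b.K) ∈ w →
      tS b ≤ w := fun w p hp z y t => mul_le_right.trans ((span_singleton_le_iff_mem _).2 (mem_dvd t
    (((Nat.coprime_primes hp Nat.prime_two).2 y).dvd_of_dvd_mul_left ((List.dvd_prod z).trans e2.symm.dvd))))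
  have key := fin b.K ι (Jc b.j) Ω V B pl.eq b.K 1 4 (2 * h * k) m 2 l 1 δ ρ F (tS b) s _
    (fun I => ψ (absNorm I) * (ξ I * lam I)) _ (Or.inl ⟨one_le_two, Or.inr ⟨by norm_num,
      fun u z => by rw [un u (w4 z)]; simp⟩, pv_iff.2 ⟨s₀ * (f * c : ℕ),
        mul_mem_mul s1 (mem_span_singleton_self _), ?_⟩, (dvl b.K ι _ Ω B).1⟩) hk m0 m2 two_pos sl
    (sup_top (a := m * (f * c)) ?_ (mem_span_singleton_self _) lm)
    ⟨w₀, w1, w4, w5, fun u z _ => un u z⟩ h4 (hc_swap h4 hβ lc) (fun I I' => ?_) ac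
    (fun I z y => ?_) δ2 δ1 δρ ?_ (fun w z y => ?_) (fun w z y => ?_) hρ
  · have n6 : ‖((4 - 1).factorial : ℂ_[2])‖ = 1 / 2 := by
      rw [← map_natCast ι, ← pl.eq, show Nat.factorial (4 - 1) = 3 * 2 from rfl, Nat.cast_mul,
        Nat.cast_two, V.map_mul, v_odd hV (by decide), hV.2, one_mul]
    rw [← key, sc, n6]
    refine Eq.trans ?_ (pe κ A ro).symm
    have := B.pos
    simp only [pow_one, one_pow, Real.sqrt_one, div_one, mul_one]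
    field_simp
  · rw [← pl.eq, coe_mul', map_mul, V.map_mul, v1 _ s2, one_mul]
    simpa using v_odd hV (o.mul co)
  · rw [Nat.cast_mul]
    refine mul_mem_mul (mul_le_right (I := n) ?_) (mem_span_singleton_self _)
    rw [lv.sp.mul]
    exact mem_span_singleton_self _
  · rw [map_mul, Nat.cast_mul, cr.mul, rg.rc.mul, lc.mul]; ring
  · have z' := Nat.coprime_two_right.1 z
    rw [Dp, if_pos y, show ψ (absNorm I) * (ξ I * β I) - ψ (absNorm I) * (ξ I * lam I) =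
      ψ (absNorm I) * (ξ I * ((β I - 1) - (lam I - 1))) by ring]
    exact v_mul (v_root' three_ne_zero (h3 _)) (v_mul (v_root' (by positivity) (x2 I))
      (v_sub hV (β1 I z') ((ln I z').trans δ2)))
  · have q1 : ψ l ^ 3 = 1 := (h3 l).resolve_left l3
    have q2 : ξ s ^ 2 ^ n₀ = 1 := (x2 s).resolve_left fun z => ((rg.rc.zero s).1 z).elim
      (fun y => sl.1.ne_zero (by rw [← sl.2.2.1, y]; simp)) fun y => y (sup_top l2
        (mem_span_singleton_self _) (lm.symm.coprime_dvd_right (Dvd.intro_left (m * f) (by ring))))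
    have q3 := v_mul_lt hV ((v_odd' hV lo).trans_lt (by norm_num)) (v_mul_lt hV (v_tp hV _ q2)
      ((ln s (sl.2.2.1 ▸ lo)).trans_lt (by norm_num)))
    have q4 := v_cube hV q1 l4
    have q5 : (1 - ψ l : ℂ) ≠ 0 := fun z => by simp [z] at q4
    rw [sl.2.2.1, show 1 - (l : ℂ) * (ψ l * (ξ s * lam s)) = (1 - ψ l) *
      (1 + -(ψ l * (1 - ψ l)⁻¹ * (l * (ξ s * lam s) - 1))) by field_simp; ring, V.map_mul, q4,
      one_mul]
    refine v_one hV ?_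
    rw [add_sub_cancel_left, V.map_neg, V.map_mul, V.map_mul, map_inv₀, q4,
      v_root three_ne_zero q1]
    simpa using q3
  · rcases z.isPrime.mul_le.1 y with t | t
    · exact Or.inr (lv.ts w z.isPrime t)
    rw [span_singleton_le_iff_mem, Nat.cast_mul] at t
    rcases z.isPrime.mem_or_mem t with t | t
    · obtain ⟨p, p1, p2, p3⟩ := ex_p z.isPrime (by omega) t
      exact Or.inr (ts w p p1 (ms p p1 (p2.trans fm))
        (by rintro rfl; exact Nat.not_even_iff_odd.2 o (even_iff_two_dvd.2 p2)) p3)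
    · left
      rw [(rg.rc.zero w).2 (Or.inr ?_), zero_mul, mul_zero]
      rw [sup_eq_left.2 ((span_singleton_le_iff_mem _).2 t)]
      exact z.ne_top
  · have r : tS b ≤ w → ((e.S.prod / 2 : ℕ) : 𝓞 b.K) ∈ w := fun t =>
      (z.isPrime.mul_le.1 t).elim (fun q => absurd (sup_eq_left.2
        ((mul_le_left.trans lv.q2).trans q) ▸ y) z.ne_top) (span_singleton_le_iff_mem _).1
    refine ⟨⟨fun t => ?_, fun t => ?_⟩, fun t => ⟨not_two z.ne_top (r t) o2, hw w z (r t)⟩⟩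
    · obtain ⟨p, p1, p2, p3⟩ := ex_p z.isPrime m0.ne' t
      by_cases p4 : p = 2
      · subst p4
        exact (lv.two w z.isPrime (by exact_mod_cast p3)).imp (av w z).2
          fun q => mul_le_left.trans q.ge
      · exact Or.inr (ts w p p1 (ms p p1 p2) p4 p3)
    · rcases t with t | t
      · exact mem_dvd (a := 2) (by rw [(av w z).1 t]; exact_mod_cast t2) m2
      · exact mem_dvd (r t) ((Dvd.intro_left 2 e2).trans sm)

/-- one factor -/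
theorem half (iot : IOT) (lvx : LVX) (sml : SML) (bex : BEX) (cfc : CFC) (ei1 : EI1) (ei2 : EI2)
    (fin : FIN1) (dvl : DVL) (xi : XI) {f : ℕ} {ψ : ℤ → ℂ} (hf : 1 < f) (o : Odd f) (cr : Cr f ψ)
    (cp : Cp f ψ) (h3 : ∀ d, ψ d = 0 ∨ ψ d ^ 3 = 1) {e : Crv}
    (fs : ∀ p : ℕ, p.Prime → p ∣ f → p ∈ e.S)
    (cg : ∀ p : ℕ, p.Prime → p ∉ e.S → ∃ k : ℤ, ψ p + conj (ψ p) = e.a p + 2 * k) {ι V}
    (pl : Pl ι V (e.P 2)) : ∃ T : ℕ, ∀ b : Fld e, T ≤ b.δ' → ∀ Ω, Base ι (Jc b.j) Ω →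
    ∃ δ : ℝ, δ < 1 ∧ 0 ≤ δ ∧ ∀ n c χ ζ ξ, Lay b n c χ ζ ξ → ∀ (h k : ℕ) lam,
    La (Jc b.j) h k lam → 3 ≤ 2 * h * k → ∀ a : Ideal (𝓞 b.K) → ℂ,
    (∀ I, a I = ψ (absNorm I) * (ξ I * lam I)) → ∀ (ρ : ℝ) (l : ℕ), δ < ρ →
    ρ ≤ sc Ω 1 1 (2 * h * k) * V (∑' I, Dp (tS b) a I) →
    (∀ w : Ideal (𝓞 b.K), w.IsMaximal → ((e.S.prod / 2 : ℕ) : 𝓞 b.K) ∈ w → δ < V (1 - a w)) →
    ¬ b.An e.S c χ l →
    sc Ω 1 1 (2 * h * k) * V (∑' I, Dp (tS b) a I) ≤ max δ (V (ζ - 1) ^ (l + 1)) := by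
  obtain ⟨hV, io⟩ := (iot _ (e.ov 2 e.two)).2 ι V pl
  have R0 : 0 < e.S.prod := List.prod_pos fun p hp => (e.ov p hp).1.pos
  have N0 := e.rn.pos
  obtain ⟨m, hm⟩ : ∃ m, m = e.N * e.S.prod * f := ⟨_, rfl⟩
  have m0 : 0 < m := by rw [hm]; positivity
  have fm : f ∣ m := hm ▸ dvd_mul_left _ _
  have nm : e.N * e.S.prod ∣ m := hm ▸ dvd_mul_right _ _
  have sm : e.S.prod ∣ m := (dvd_mul_left _ _).trans nm
  have r2 : 2 ∣ e.S.prod := List.dvd_prod e.two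
  have ns : ∀ p : ℕ, p.Prime → p ∣ e.N → p ∈ e.S := fun p hp z =>
    by_contra fun y => (e.bad p hp y).1 (z.mul_right _)
  have ms : ∀ p : ℕ, p.Prime → p ∣ m → p ∈ e.S := fun p hp z => by
    rw [hm, hp.dvd_mul, hp.dvd_mul] at z
    exact z.elim (fun y => y.elim (ns p hp) (s_iff e hp).1) (fs p hp)
  obtain ⟨g1, g2⟩ := ei1 m (cut m ψ) (hf.trans_le (Nat.le_of_dvd m0 fm)) (cr_cut cr fm)
    (by rw [cut, if_pos isCoprime_one_left.neg_left, neg_one cr h3])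
  have ε1 : ∀ d, cut m (fun _ => 1) d = 0 ∨ cut m (fun _ => 1) d = 1 := fun d => by
    unfold cut; split_ifs <;> simp
  obtain ⟨T, hT⟩ := sml e ι V pl m 4 0 (cut m fun _ => 1) (eis m (cut m ψ)) (co4 (cut m ψ)) (1 / 2)
    m0 nm ms (cr_cut cr_one (one_dvd _)) (by simpa using ε1) (Or.inr ⟨rfl, g1, ε1⟩) g2 (by norm_num)
    (co4_cg cfc hV cr fm h3 e.rn.one e.rn.te r2 sm fun p hp z =>
      have y := mt (s_iff e hp).2 z
      ⟨fun t => y (ns p hp t), fun t => y (ms p hp t), cg p hp y⟩)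
  refine ⟨T, fun b hb Ω B => ?_⟩
  obtain ⟨kd, -, -, -, -, lx⟩ := lvx e b
  obtain ⟨n, n', ν, lv⟩ := lx m m0 nm ms
  obtain ⟨β, δ₁, d1, hβ, β1⟩ := bex V hV b.K (Jc b.j) b.δ' b.θ kd 4 1 0 ⊤ (fun _ => 1) one_pos
    ⟨by simp, fun a => ⟨0, trivial⟩⟩ cr_one (by norm_num) (by simp)
  have hx := (io b.K b.j b.δ' b.θ kd).2.1
  have β0 : ∀ I, I ≠ ⊥ → β I ≠ 0 := fun I z y => z (by simpa using (hβ.hc.zero I).1 y)
  obtain ⟨δ, d2, d3, d4, hδ⟩ := hT b hb Ω B n n' ν lv β δ₁ d1 fun I z => β1 I (β0 I z.1) (by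
    obtain ⟨s, s1, t, t1, st⟩ := Submodule.mem_sup.1 ((eq_top_iff_one _).1 z.2)
    obtain ⟨y, rfl⟩ := mem_span_singleton'.1 t1
    refine ⟨s, s1, v_one hV ?_⟩
    rw [eq_sub_of_add_eq st]
    have := v_mul (hx y).1 (v_even hV (r2.trans sm))
    refine lt_of_le_of_lt (le_of_eq ?_) (this.trans_lt (by norm_num))
    rw [← V.map_neg]
    simp)
  refine ⟨δ, d2, by linarith, fun n₀ c χ ζ ξ ly h k lam la hk a ha ρ l δρ hρ hw an => ?_⟩
  obtain ⟨κ, _, A, ro, le⟩ := hδ n₀ c χ ζ ξ l ly an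
  rw [← wt iot lvx ei2 fin dvl xi hf o cr cp h3 pl B m0 fm sm ms lv hβ.hc (fun I z =>
    (β1 I (β0 I fun y => by simp [y] at z) ⟨_, absNorm_mem I, by simpa using v_odd hV z⟩).trans d4)
    d2 d3 ly la hk ha δρ hρ hw ro] at le
  exact le_of_mul_le_mul_left le (pow_pos B.pos 4)

end Ac

open Ac in
/-- **row ANAC** -/
theorem anac (iot : IOT) (lvx : LVX) (sml : SML) (bex : BEX) (cfc : CFC) (ei1 : EI1) (ei2 : EI2)
    (fin : FIN1) (dvl : DVL) (xi : XI) : ANAC := by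
  intro f ψ hf o cr cp h3 e fs cg ι V pl
  have hV := ((iot _ (e.ov 2 e.two)).2 ι V pl).1
  obtain ⟨T, hT⟩ := half iot lvx sml bex cfc ei1 ei2 fin dvl xi hf o cr cp h3 fs cg pl
  obtain ⟨T', hT'⟩ := half iot lvx sml bex cfc ei1 ei2 fin dvl xi hf o (cr_conj cr) (cp_conj cp)
    (cub_conj h3) fs (fun p hp z => by simpa [add_comm] using cg p hp z) pl
  refine ⟨max T T', fun b hb Ω B => ?_⟩
  obtain ⟨δ, d1, d2, H⟩ := hT b ((le_max_left _ _).trans hb) Ω B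
  obtain ⟨δ', d1', d2', H'⟩ := hT' b ((le_max_right _ _).trans hb) Ω B
  refine ⟨max δ δ', max_lt d1 d1', fun n c χ ζ ξ ly h k lam la hk a a' ha ha' ρ l δρ ρ1 hρ hw hl =>
    by_contra fun an => ?_⟩
  have k1 := fun z => (H n c χ ζ ξ ly h k lam la hk a ha ρ l ((le_max_left _ _).trans_lt δρ) z
    (fun w y t => (le_max_left _ _).trans_lt (hw w y t).1) an).trans
    (max_le_max (le_max_left δ δ') le_rfl)
  have k2 := fun z => (H' n c χ ζ ξ ly h k lam la hk a' ha' ρ l ((le_max_right _ _).trans_lt δρ) z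
    (fun w y t => (le_max_right _ _).trans_lt (hw w y t).2) an).trans
    (max_le_max (le_max_right δ δ') le_rfl)
  have s0 : 0 ≤ sc Ω 1 1 (2 * h * k) := by have := B.pos; unfold sc; positivity
  have x0 := mul_nonneg s0 (V.nonneg (∑' I, Dp (tS b) a I))
  have y0 := mul_nonneg s0 (V.nonneg (∑' I, Dp (tS b) a' I))
  have z1 : V (ζ - 1) ^ (l + 1) ≤ 1 := pow_le_one₀ (V.nonneg _) (v_tp hV _ ly.rt).le
  have z2 : V (ζ - 1) ^ (2 * l + 2) = V (ζ - 1) ^ (l + 1) * V (ζ - 1) ^ (l + 1) := by ring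
  generalize sc Ω 1 1 (2 * h * k) * V (∑' I, Dp (tS b) a I) = X at *
  generalize sc Ω 1 1 (2 * h * k) * V (∑' I, Dp (tS b) a' I) = Y at *
  have e0 : 0 ≤ max δ δ' := d2.trans (le_max_left _ _)
  have e1 : max δ δ' < 1 := max_lt d1 d1'
  generalize max δ δ' = D at *
  generalize V (ζ - 1) ^ (l + 1) = Z at *
  have u1 : max D Z ≤ 1 := max_le e1.le z1
  have u2 : max D Z * max D Z < ρ := by
    rcases le_total D Z with t | t
    · rw [max_eq_right t, ← z2]; exact hl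
    · rw [max_eq_left t]; nlinarith
  have u3 : ρ ≤ X ∧ ρ ≤ Y := by
    rcases le_or_gt ρ X with t | t
    · exact ⟨t, by nlinarith [(k1 t).trans u1]⟩
    · rcases le_or_gt ρ Y with t' | t'
      · exact ⟨by nlinarith [(k2 t').trans u1], t'⟩
      · nlinarith
  exact absurd (hρ.trans (mul_le_mul (k1 u3.1) (k2 u3.2) y0 (x0.trans (k1 u3.1)))) (not_le.2 u2)

end Vale.Agent.P004C.Ln
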