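import Vale.Agent.P004C.Ln.St
import Vale.Agent.P004C.Wa.Cj

/-!
# P004 C, block LN, row BEX: Hecke characters which are congruent to one
-/

open NumberField Module Ideal
open scoped Classical nonZeroDivisors

noncomputable section

namespace Vale.Agent.P004C.Ln

open P004K (Cn)
open Wa (Kd)

namespace Bx

/-- extension of characters with values in a group with roots -/
theorem ext {A G : Type} [CommMonoid A] [CommGroup G] (T : Subgroup ℂˣ)
    (hT : ∀ n : ℕ, n ≠ 0 → ∀ x ∈ T, ∃ y ∈ T, y ^ n = x) (S : Submonoid A) (i : A → G) (f : A → ℂ)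
    (hi : ∀ a ∈ S, ∀ b ∈ S, i (a * b) = i a * i b) (hf : ∀ a ∈ S, ∀ b ∈ S, f (a * b) = f a * f b)
    (ht : ∀ a ∈ S, ∃ t ∈ T, (t : ℂ) = f a) (h : ∀ a ∈ S, ∀ b ∈ S, i a = i b → f a = f b) :
    ∃ g : G →* ℂˣ, (∀ x, g x ∈ T) ∧ ∀ a ∈ S, (g (i a) : ℂ) = f a := by
  let Γ : Subgroup (G × T) :=
    { carrier := {p | ∃ a ∈ S, ∃ b ∈ S, p.1 * i b = i a ∧ (p.2 : ℂˣ) * f b = f a}
      mul_mem' := fun ⟨a, ha, b, hb, e, r⟩ ⟨a', ha', b', hb', e', r'⟩ =>
        ⟨a * a', mul_mem ha ha', b * b', mul_mem hb hb', by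
          rw [hi a ha a' ha', hi b hb b' hb', ← e, ← e', Prod.fst_mul, mul_mul_mul_comm], by
          rw [hf a ha a' ha', hf b hb b' hb', ← r, ← r', Prod.snd_mul, Subgroup.coe_mul,
            Units.val_mul, mul_mul_mul_comm]⟩
      one_mem' := ⟨1, one_mem _, 1, one_mem _, by simp, by simp⟩
      inv_mem' := fun ⟨a, ha, b, hb, e, r⟩ => ⟨b, hb, a, ha, by simp [← e], by simp [← r]⟩ }
  let _ : DivisibleBy (Additive T) ℕ := divisibleByOfSMulRightSurj _ _ fun {n} hn x => by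
    obtain ⟨y, hy, e⟩ := hT n hn x.toMul x.toMul.2
    exact ⟨Additive.ofMul ⟨y, hy⟩, Additive.toMul.injective (Subtype.ext e)⟩
  let _ : DivisibleBy (Additive T) ℤ := AddGroup.divisibleByIntOfDivisibleByNat _
  have inj : Function.Injective ((MonoidHom.fst G T).comp Γ.subtype) :=
    (injective_iff_map_eq_one _).2 fun ⟨p, a, ha, b, hb, e, r⟩ z => by
      have z' : p.1 = 1 := z
      obtain ⟨t, -, k⟩ := ht b hb
      rw [z', one_mul] at e
      rw [← h b hb a ha e, ← k, mul_eq_right₀ t.ne_zero] at r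
      exact Subtype.ext (Prod.ext z' (Subtype.ext (Units.ext r)))
  obtain ⟨g, hg⟩ := (Module.Baer.of_divisible (Additive T)).extension_property_addMonoidHom
    ((MonoidHom.fst G T).comp Γ.subtype).toAdditive inj
    ((MonoidHom.snd G T).comp Γ.subtype).toAdditive
  refine ⟨T.subtype.comp (MonoidHom.toAdditive.symm g), fun x => Subtype.prop _, fun a ha => ?_⟩
  obtain ⟨t, m, k⟩ := ht a ha
  have := DFunLike.congr_fun hg (Additive.ofMul ⟨(i a, ⟨t, m⟩), a * a, mul_mem ha ha, a, ha,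
    (hi a ha a ha).symm, by rw [hf a ha a ha, ← k]⟩)
  rw [← k]
  exact congrArg (fun u : Additive T => ((u.toMul : ℂˣ) : ℂ)) this

variable {V : AbsoluteValue ℂ ℝ} {z w : ℂ} {ρ : ℝ}

theorem sub_le (h : V2 V) (z w : ℂ) : V (z - w) ≤ max (V z) (V w) := by
  simpa [sub_eq_add_neg] using h.1 z (-w)

theorem one_of (h : V2 V) (k : V (z - 1) < 1) : V z = 1 := by
  have := h.1.add_eq_right_of_lt (x := z - 1) (y := 1) (by simpa using k)
  rwa [sub_add_cancel, map_one] at this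

theorem mul_le (h : V2 V) (r : ρ < 1) (k : V (z - 1) ≤ ρ) (l : V (w - 1) ≤ ρ) :
    V (z * w - 1) ≤ ρ := by
  rw [show z * w - 1 = z * (w - 1) + (z - 1) by ring]
  refine (h.1 _ _).trans (max_le ?_ k)
  rwa [map_mul, one_of h (k.trans_lt r), one_mul]

theorem inv_eq (h : V2 V) (k : V (z - 1) < 1) : V (z⁻¹ - 1) = V (z - 1) := by
  have e := one_of h k
  have z0 : z ≠ 0 := fun u => by simp [u] at e
  rw [show z⁻¹ - 1 = -(z⁻¹ * (z - 1)) by field_simp; ring, V.map_neg, map_mul, map_inv₀, e]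
  simp

theorem pow_le (h : V2 V) (r : ρ < 1) (k : V (z - 1) ≤ ρ) (n : ℕ) : V (z ^ n - 1) ≤ ρ := by
  induction n with
  | zero => simpa using (V.nonneg _).trans k
  | succ n ih => rw [pow_succ]; exact mul_le h r ih k

theorem sq_lt (h : V2 V) (k : V (z ^ 2 - 1) < 1) : V (z - 1) < 1 := by
  by_contra! c
  have e : V (2 + (z - 1)) = V (z - 1) := h.1.add_eq_right_of_lt (by rw [h.2]; linarith)
  rw [show z ^ 2 - 1 = (2 + (z - 1)) * (z - 1) by ring, map_mul, e] at k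
  nlinarith

theorem two_lt (h : V2 V) (t : ℕ) (k : z ^ 2 ^ t = 1) : V (z - 1) < 1 := by
  have : ∀ t, V (z ^ 2 ^ t - 1) < 1 → V (z - 1) < 1 := fun t => by
    induction t with
    | zero => simp
    | succ t ih => exact fun u => ih (sq_lt h (by rwa [← pow_mul, ← pow_succ]))
  exact this t (by simp [k])

theorem odd_eq (h : V2 V) (k : V (z - 1) < 1) (n : ℕ) : V (z ^ (2 * n + 1) - 1) = V (z - 1) := by
  induction n with
  | zero => simp
  | succ n ih =>
    have e : V (z + 1) < 1 := by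
      rw [show z + 1 = (z - 1) + 2 by ring]
      exact (h.1 _ _).trans_lt (max_lt k (by rw [h.2]; norm_num))
    rcases (V.nonneg (z - 1)).eq_or_lt with u | u
    · have : z = 1 := sub_eq_zero.1 (V.eq_zero.1 u.symm)
      simp [this]
    · rw [show z ^ (2 * (n + 1) + 1) - 1 = z ^ (2 * n + 1) * ((z + 1) * (z - 1)) +
        (z ^ (2 * n + 1) - 1) by ring, h.1.add_eq_right_of_lt, ih]
      rw [ih, map_mul, map_mul, map_pow, one_of h k, one_pow]
      nlinarith

/-- roots of elements which are near to one -/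
theorem unif (h : V2 V) (N : ℕ) : N ≠ 0 → ∀ ρ < 1, ∃ δ < 1, ∀ z, V (z - 1) < 1 →
    V (z ^ N - 1) ≤ ρ → V (z - 1) ≤ δ := by
  induction N using Nat.strong_induction_on with
  | _ N ih =>
    intro n0 ρ r
    obtain ⟨n, rfl | rfl⟩ := Nat.even_or_odd' N
    · obtain ⟨δ, d, H⟩ := ih n (by omega) (by omega) √(max ρ (1 / 2))
        (Real.sqrt_lt' one_pos |>.2 (by simp [r]; norm_num))
      refine ⟨δ, d, fun z a b => H z a (Real.le_sqrt_of_sq_le ?_)⟩
      have c := (pow_le h a le_rfl n).trans a.le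
      rw [← map_pow, show (z ^ n - 1) ^ 2 = (z ^ (2 * n) - 1) - 2 * (z ^ n - 1) by ring]
      refine (sub_le h _ _).trans (max_le_max b ?_)
      rw [map_mul, h.2]
      linarith
    · exact ⟨ρ, r, fun z a b => odd_eq h a n ▸ b⟩

/-- the one units -/
def U1 (h : V2 V) : Subgroup ℂˣ where
  carrier := {z | V (z - 1) < 1}
  mul_mem' a b := (mul_le h (max_lt a b) (le_max_left _ _) (le_max_right _ _)).trans_lt (max_lt a b)
  one_mem' := by simp
  inv_mem' {x} a := by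
    show V (((x⁻¹ : ℂˣ) : ℂ) - 1) < 1
    rwa [Units.val_inv_eq_inv_val, inv_eq h a]

theorem root (n : ℕ) (hn : n ≠ 0) (x : ℂˣ) (P : ℂ → Prop) (k : ∀ y, y ^ n = (x : ℂ) → ¬ P y →
    1 ≤ V (1 - y)) (l : V (1 - x) < 1) : ∃ y : ℂˣ, P y ∧ y ^ n = x := by
  obtain ⟨y, hy⟩ := IsAlgClosed.exists_pow_nat_eq (x : ℂ) (Nat.pos_of_ne_zero hn)
  have e := (Complex.isPrimitiveRoot_exp n hn).pow_sub_pow_eq_prod_sub_mul (x := 1) (y := y)
    (Nat.pos_of_ne_zero hn)
  by_contra! c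
  refine l.not_ge ?_
  rw [one_pow, hy] at e
  rw [e, map_prod]
  refine Finset.one_le_prod fun ζ hζ => ?_
  have u : (ζ * y) ^ n = x := by
    rw [mul_pow, hy, (Polynomial.mem_nthRootsFinset (Nat.pos_of_ne_zero hn) _).1 hζ, one_mul]
  refine k _ u fun p => c (Units.mk0 _ fun z => x.ne_zero (by rw [← u, z, zero_pow hn])) p ?_
  exact Units.ext (by simpa using u)

variable {K : Type} [Field K] [NumberField K] {J : K →+* ℂ} {D : ℕ} {θ : 𝓞 K}

/-- the residue field at the place has two elements -/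
theorem res (h : V2 V) (hK : Kd J D θ) (x : 𝓞 K) :
    V (J x) ≤ 1 ∧ (V (J x) = 1 → V (J x - 1) ≤ 3 / 4) := by
  obtain ⟨s, c⟩ := Wa.Cj.ex_cg hK
  obtain ⟨t, ht⟩ := c.fix (x + s x) (by rw [map_add, c.ss, add_comm])
  obtain ⟨N, hN⟩ := c.fix (x * s x) (by rw [map_mul, c.ss, mul_comm])
  obtain ⟨k, hk⟩ := c.sub x
  have e1 : t ^ 2 + k ^ 2 * D = 4 * N := by
    have : ((t ^ 2 + k ^ 2 * D : ℤ) : 𝓞 K) = (4 * N : ℤ) := by
      push_cast
      linear_combination (-t - (x + s x)) * ht + 4 * hN + k ^ 2 * hK.sq +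
        (k * θ + (x - s x)) * hk
    exact_mod_cast this
  have e2 : J x ^ 2 = t * J x - N := by
    have : x ^ 2 = t * x - N := by linear_combination x * ht - hN
    simpa using congrArg (fun y : 𝓞 K => J y) this
  have iz : ∀ a : ℤ, V a ≤ 1 := fun a => h.1.apply_intCast_le_one
  have l1 : V (J x) ≤ 1 := by
    by_contra! u
    have := sub_le h (t * J x) N
    rw [← e2, map_pow, map_mul] at this
    have a := iz t
    have b := iz N
    rcases le_max_iff.1 this with v | v <;> nlinarith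
  have ev : ∀ a b : ℤ, V (2 * (a * J x - b)) ≤ 1 / 2 := fun a b => by
    have := (sub_le h (a * J x) b).trans (max_le (by
      rw [map_mul]; exact mul_le_one₀ (iz a) (V.nonneg _) l1) (iz b))
    rw [map_mul, h.2]
    linarith
  refine ⟨l1, fun u => ?_⟩
  have md := hK.md
  obtain ⟨a, rfl | rfl⟩ := Int.even_or_odd' t <;> obtain ⟨b, rfl | rfl⟩ := Int.even_or_odd' N
  · have := ev a b
    rw [show 2 * (a * J x - b) = J x ^ 2 by rw [e2]; push_cast; ring, map_pow, u] at this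
    linarith
  · have := ev (a - 1) b
    rw [show 2 * ((a - 1 : ℤ) * J x - b) = (J x - 1) ^ 2 by
      push_cast at e2 ⊢; linear_combination -e2, map_pow] at this
    nlinarith [V.nonneg (J x - 1)]
  · have := ev a b
    rw [show 2 * (a * J x - b) = J x * (J x - 1) by
      push_cast at e2 ⊢; linear_combination -e2, map_mul, u] at this
    linarith
  · exfalso
    obtain ⟨d, hd⟩ : ∃ d : ℤ, (D : ℤ) = 8 * d + 7 := ⟨D / 8, by omega⟩
    have := congrArg (Int.cast : ℤ → ZMod 8) e1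
    rw [hd] at this
    push_cast at this
    revert this
    generalize (a : ZMod 8) = a, (b : ZMod 8) = b, (k : ZMod 8) = k, (d : ZMod 8) = d
    revert a b k d
    decide +kernel

/-- the class of an ideal in the group of ideals -/
def gi (I : Ideal (𝓞 K)) : (FractionalIdeal (𝓞 K)⁰ K)ˣ :=
  if h : I = ⊥ then 1 else FractionalIdeal.mk0 K ⟨I, mem_nonZeroDivisors_of_ne_zero h⟩

theorem gi_coe {I : Ideal (𝓞 K)} (h : I ≠ ⊥) : (gi I : FractionalIdeal (𝓞 K)⁰ K) = I := by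
  rw [gi, dif_neg h]
  rfl

theorem gi_mul {I I' : Ideal (𝓞 K)} (h : I ≠ ⊥) (h' : I' ≠ ⊥) : gi (I * I') = gi I * gi I' :=
  Units.ext (by
    rw [Units.val_mul, gi_coe h, gi_coe h', gi_coe (mul_ne_zero h h'), FractionalIdeal.coeIdeal_mul])

theorem gi_inj {I I' : Ideal (𝓞 K)} (h : I ≠ ⊥) (h' : I' ≠ ⊥) (e : gi I = gi I') : I = I' :=
  FractionalIdeal.coeIdeal_injective (K := K) (by
    show (I : FractionalIdeal (𝓞 K)⁰ K) = I'
    rw [← gi_coe h, ← gi_coe h', e])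

theorem gi_one : gi (⊤ : Ideal (𝓞 K)) = 1 :=
  Units.ext (by rw [gi_coe top_ne_bot]; simp)

omit [NumberField K] in
theorem sp0 {x : 𝓞 K} (h : x ≠ 0) : span {x} ≠ ⊥ := span_singleton_eq_bot.not.2 h

theorem gi_sp {x y : 𝓞 K} (h : x ≠ 0) (h' : y ≠ 0) :
    gi (span {x * y}) = gi (span {x}) * gi (span {y}) := by
  rw [← span_singleton_mul_span_singleton, gi_mul (sp0 h) (sp0 h')]

omit [NumberField K] in
theorem cop_mul {I I' n : Ideal (𝓞 K)} : I * I' ⊔ n = ⊤ ↔ I ⊔ n = ⊤ ∧ I' ⊔ n = ⊤ := by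
  simp only [← isCoprime_iff_sup_eq, IsCoprime.mul_left_iff]

end Bx

open Bx

theorem bex : BEX := by
  intro V hV K _ _ J D θ hK k m t n ε m0 hn hε sg tw
  choose d hd using hn.2
  have l1 := fun x => (res hV hK x).1
  have E1 : ∀ (x : 𝓞 K) (c : ℤ), x - c ∈ n → ε (d x) = ε c := fun x c h => hε.per _ _ ((hn.1 _).1 (by
    simpa using sub_mem h (hd x)))
  have E2 : ∀ x y, ε (d (x * y)) = ε (d x) * ε (d y) := fun x y => by
    rw [← hε.mul]
    refine E1 _ _ ?_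
    rw [show x * y - (d x * d y : ℤ) = x * (y - d y) + d y * (x - d x) by push_cast; ring]
    exact add_mem (mul_mem_left _ _ (hd y)) (mul_mem_left _ _ (hd x))
  have E3 : ∀ x, x - 1 ∈ n → ε (d x) = 1 := fun x h => (E1 x 1 (by simpa using h)).trans hε.one
  have E4 : ∀ x, ε (d x) ≠ 0 ↔ span {x} ⊔ n = ⊤ := fun x => by
    rw [← isCoprime_iff_sup_eq, isCoprime_iff_exists]
    refine ⟨fun h => ?_, fun ⟨a, ha, b, hb, e⟩ h => ?_⟩
    · obtain ⟨u, w, e⟩ := not_not.1 ((hε.zero _).not.1 h)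
      refine ⟨u * x, mul_mem_left _ _ (mem_span_singleton_self x), w * (m : ℤ) - u * (x - d x),
        sub_mem (mul_mem_left _ _ ((hn.1 _).2 dvd_rfl)) (mul_mem_left _ _ (hd x)), ?_⟩
      have := congrArg (Int.cast : ℤ → 𝓞 K) e
      push_cast at this ⊢
      linear_combination this
    · obtain ⟨c, rfl⟩ := mem_span_singleton'.1 ha
      have := E3 (c * x) (by rw [← e]; simpa using hb)
      rw [E2, h, mul_zero] at this
      exact zero_ne_one this
  let φ : 𝓞 K → ℂ := fun x => (J x)⁻¹ ^ k * ε (d x)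
  have F1 : ∀ x y, φ (x * y) = φ x * φ y := fun x y => by
    simp only [φ, E2, map_mul, RingOfIntegers.coe_eq_algebraMap, mul_inv, mul_pow]
    ring
  have F2 : ∀ x y, span {x} = span {y} → φ x = φ y := fun x y e => by
    obtain ⟨u, rfl⟩ := span_singleton_eq_span_singleton.1 e
    rw [F1]
    rcases hK.upm u with rfl | rfl
    · simp [φ, E3]
    · simp [φ, E1 (-1) (-1) (by simp), sg]
  have F3 : ∀ x, x ≠ 0 → ε (d x) ≠ 0 → φ x ≠ 0 := fun x h e =>
    mul_ne_zero (pow_ne_zero _ (inv_ne_zero (by simpa using h))) e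
  have v0 : ∀ x : 𝓞 K, V (J x) = 1 → x ≠ 0 := fun x h e => by simp [e] at h
  have vm : ∀ x y : 𝓞 K, V (J (x * y : 𝓞 K)) = V (J x) * V (J y) := fun x y => by simp
  have F4 : ∀ (x : 𝓞 K) j, V (J x) = 1 → V ((J x)⁻¹ ^ j - 1) ≤ 3 / 4 := fun x j h =>
    pow_le hV (by norm_num) (by
      rw [inv_eq hV (((res hV hK x).2 h).trans_lt (by norm_num))]; exact (res hV hK x).2 h) j
  let S₁ : Submonoid (𝓞 K) :=
    { carrier := {x | ε (d x) ≠ 0 ∧ V (J x) = 1}
      mul_mem' := fun a b => ⟨by rw [E2]; exact mul_ne_zero a.1 b.1, by rw [vm, a.2, b.2, one_mul]⟩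
      one_mem' := ⟨by simp [E3], by simp⟩ }
  obtain ⟨g₁, g1, g2⟩ := ext (U1 hV) (fun N hN x hx => by
      exact root (V := V) N hN x (fun y => V (y - 1) < 1)
        (fun y _ c => by rw [V.map_sub]; exact not_lt.1 c) (by rwa [V.map_sub]))
    S₁ (fun x => gi (span {x})) φ (fun a ha b hb => gi_sp (v0 a ha.2) (v0 b hb.2))
    (fun a _ b _ => F1 a b) (fun a ha => ⟨Units.mk0 _ (F3 a (v0 a ha.2) ha.1), by
      have u := two_lt hV t ((tw _).resolve_left ha.1)
      have r : max (3 / 4) (V (ε (d a) - 1)) < 1 := max_lt (by norm_num) u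
      exact (mul_le hV r ((F4 a k ha.2).trans (le_max_left _ _)) (le_max_right _ _)).trans_lt r,
      rfl⟩)
    fun a ha b hb e => F2 a b (gi_inj (sp0 (v0 a ha.2)) (sp0 (v0 b hb.2)) e)
  let S₂ : Submonoid (𝓞 K × Ideal (𝓞 K)) :=
    { carrier := {p | (p.1 ≠ 0 ∧ ε (d p.1) ≠ 0) ∧ p.2 ⊔ n = ⊤ ∧ ∃ s ∈ p.2, V (J s) = 1}
      mul_mem' := fun ⟨a, b, s, c, e⟩ ⟨a', b', s', c', e'⟩ => ⟨⟨mul_ne_zero a.1 a'.1, by
        rw [Prod.fst_mul, E2]; exact mul_ne_zero a.2 a'.2⟩, cop_mul.2 ⟨b, b'⟩, s * s',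
        mul_mem_mul c c', by rw [vm, e, e', one_mul]⟩
      one_mem' := ⟨⟨one_ne_zero, by simp [E3]⟩, by simp, 1, by simp, by simp⟩ }
  have s0 : ∀ p ∈ S₂, p.2 ≠ ⊥ := fun p ⟨_, _, s, c, e⟩ z => v0 s e (by simpa [z] using c)
  have sx : ∀ p ∈ S₂, ∃ s ∈ p.2, s ∈ S₁ := fun p ⟨_, b, s, c, e⟩ => by
    obtain ⟨a, ha, u, hu, r⟩ := isCoprime_iff_exists.1 (isCoprime_iff_sup_eq.2 b)
    have a1 : a - 1 ∈ n := by rw [← r]; simpa using hu
    rcases (l1 a).eq_or_lt with z | z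
    · exact ⟨a, ha, by simp [E3 a a1], z⟩
    · have u1 : V (J u) = 1 := one_of hV (by
        rw [← map_one J, ← map_sub, ← V.map_neg, ← map_neg]
        rwa [show -((u : K) - 1) = a by rw [← map_one (algebraMap (𝓞 K) K), ← r]; simp])
      refine ⟨a + u * s, add_mem ha (mul_mem_left _ _ c), by
        simp [E3 (a + u * s) (by
          rw [add_sub_right_comm]; exact add_mem a1 (mul_mem_right _ _ hu))], ?_⟩
      have := hV.1.add_eq_right_of_lt (x := J a) (y := J (u * s : 𝓞 K)) (by rwa [vm, u1, e, one_mul])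
      rw [vm, u1, e, one_mul] at this
      simpa using this
  have dv : ∀ p ∈ S₂, ∀ q ∈ S₂, span {p.1} * p.2 = span {q.1} * q.2 → ∀ s ∈ p.2, ∃ s' ∈ q.2,
      q.1 * s' = p.1 * s := fun p _ q _ e s hs =>
    mem_span_singleton_mul.1 (e ▸ mul_mem_mul (mem_span_singleton_self _) hs)
  obtain ⟨g, -, g3⟩ := ext ⊤ (fun N hN x _ => by
      obtain ⟨y, hy⟩ := IsAlgClosed.exists_pow_nat_eq (x : ℂ) (Nat.pos_of_ne_zero hN)
      exact ⟨Units.mk0 y fun z => x.ne_zero (by rw [← hy, z, zero_pow hN]), trivial,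
        Units.ext (by simpa using hy)⟩)
    S₂ (fun p => gi (span {p.1}) * gi p.2) (fun p => φ p.1 * g₁ (gi p.2))
    (fun a ha b hb => by
      rw [Prod.fst_mul, Prod.snd_mul, gi_sp ha.1.1 hb.1.1, gi_mul (s0 a ha) (s0 b hb),
        mul_mul_mul_comm])
    (fun a ha b hb => by
      rw [Prod.fst_mul, Prod.snd_mul, F1, gi_mul (s0 a ha) (s0 b hb), map_mul, Units.val_mul,
        mul_mul_mul_comm])
    (fun a ha => ⟨Units.mk0 _ (F3 _ ha.1.1 ha.1.2) * g₁ (gi a.2), trivial, rfl⟩)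
    fun p hp q hq e => by
      have e' : span {p.1} * p.2 = span {q.1} * q.2 := gi_inj (mul_ne_zero (sp0 hp.1.1) (s0 p hp))
        (mul_ne_zero (sp0 hq.1.1) (s0 q hq)) (by
          rw [gi_mul (sp0 hp.1.1) (s0 p hp), gi_mul (sp0 hq.1.1) (s0 q hq), e])
      obtain ⟨s, a1, a2⟩ := sx p hp
      obtain ⟨r, b1, b2⟩ := sx q hq
      obtain ⟨s', -, a4⟩ := dv p hp q hq e' s a1
      obtain ⟨r', -, b4⟩ := dv q hq p hp e'.symm r b1
      have c1 := congrArg (fun y : 𝓞 K => V (J y)) a4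
      have c2 := congrArg (fun y : 𝓞 K => V (J y)) b4
      simp only [vm, a2.2, b2.2, mul_one] at c1 c2
      have q0 : 0 < V (J q.1) := V.pos (by simpa using hq.1.1)
      have m' : s' ∈ S₁ := ⟨fun z => mul_ne_zero hp.1.2 a2.1 (by rw [← E2, ← a4, E2, z, mul_zero]),
        le_antisymm (l1 _) (by
          have := mul_le_mul_of_nonneg_left (l1 r') (V.nonneg (J p.1))
          nlinarith)⟩
      have k1 := congrArg (fun y => gi (span {y})) a4
      simp only [gi_sp hq.1.1 (v0 _ m'.2), gi_sp hp.1.1 (v0 _ a2.2)] at k1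
      have k2 : gi p.2 * gi (span {s'}) = gi q.2 * gi (span {s}) :=
        mul_left_cancel (a := gi (span {p.1}) * gi (span {q.1})) (by
          rw [mul_mul_mul_comm, e, k1, mul_comm (gi (span {p.1})) (gi (span {q.1})),
            mul_mul_mul_comm (gi (span {q.1}))])
      have k3 := congrArg (fun y => (g₁ y : ℂ)) k2
      simp only [map_mul, Units.val_mul, g2 s a2, g2 s' m'] at k3
      have k4 := congrArg φ a4
      rw [F1, F1] at k4
      refine mul_right_cancel₀ (mul_ne_zero (F3 s (v0 _ a2.2) a2.1) (F3 s' (v0 _ m'.2) m'.1)) ?_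
      linear_combination φ p.1 * φ s * k3 - g₁ (gi q.2) * φ s * k4
  let b : Ideal (𝓞 K) → ℂ := fun I => if I ≠ ⊥ ∧ I ⊔ n = ⊤ then g (gi I) else 0
  have B1 : ∀ x, x ≠ 0 → b (span {x}) = φ x := fun x h => by
    by_cases c : ε (d x) = 0
    · simp [b, φ, c, ← E4]
    · have := g3 (x, ⊤) ⟨⟨h, c⟩, by simp, 1, by simp, by simp⟩
      simp only [gi_one, mul_one, map_one, Units.val_one] at this
      simp [b, h, ← E4, c, this]
  have B2 : ∀ I I', b (I * I') = b I * b I' := fun I I' => by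
    by_cases c : I ≠ ⊥ ∧ I ⊔ n = ⊤
    · by_cases c' : I' ≠ ⊥ ∧ I' ⊔ n = ⊤
      · simp only [b]
        rw [if_pos c, if_pos c', if_pos ⟨mul_ne_zero c.1 c'.1, cop_mul.2 ⟨c.2, c'.2⟩⟩,
          gi_mul c.1 c'.1, map_mul, Units.val_mul]
      · simp only [b]
        rw [if_neg c', mul_zero, if_neg fun u =>
          c' ⟨right_ne_zero_of_mul u.1, (cop_mul.1 u.2).2⟩]
    · simp only [b]
      rw [if_neg c, zero_mul, if_neg fun u => c ⟨left_ne_zero_of_mul u.1, (cop_mul.1 u.2).1⟩]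
  have B3 : b 1 = 1 := by simp [b, gi_one]
  have B4 : ∀ I, b I = 0 ↔ I = ⊥ ∨ I ⊔ n ≠ ⊤ := fun I => by
    simp only [b, ite_eq_right_iff, Units.ne_zero, imp_false, not_and_or, not_not, ne_eq]
  obtain ⟨δ, d1, d2⟩ := unif hV (Fintype.card (ClassGroup (𝓞 K)) * 2 ^ t)
    (mul_ne_zero Fintype.card_ne_zero (by positivity)) (3 / 4) (by norm_num)
  refine ⟨b, δ, d1, ⟨⟨B3, B2, B4, fun x h e => ?_⟩, fun x c h e => ?_⟩, fun I h ⟨s, hs, e⟩ => ?_⟩
  · simp [B1 x h, φ, E3 x e]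
  · simp only [B1 x h, φ, E1 x c e]
  · have c := not_or.1 ((B4 I).not.1 h)
    have u := g3 (1, I) ⟨⟨one_ne_zero, by simp [E3]⟩, not_not.1 c.2, s, hs, e⟩
    have v : b I = g₁ (gi I) := by simpa [b, c.1, not_not.1 c.2, gi_one, φ, E3] using u
    refine d2 _ (v ▸ g1 _) ?_
    have z : I ∈ (Ideal (𝓞 K))⁰ := mem_nonZeroDivisors_of_ne_zero c.1
    obtain ⟨y, hy⟩ := (ClassGroup.mk0_eq_one_iff (pow_mem z (Fintype.card (ClassGroup (𝓞 K))))).1
      (show ClassGroup.mk0 (⟨I, z⟩ ^ Fintype.card (ClassGroup (𝓞 K))) = 1 by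
        rw [map_pow, pow_card_eq_one])
    obtain ⟨r, hr⟩ := mem_span_singleton'.1
      (hy ▸ pow_mem_pow hs (Fintype.card (ClassGroup (𝓞 K))) :)
    have y1 : V (J y) = 1 := by
      have := congrArg (fun y : 𝓞 K => V (J y)) hr
      simp only [vm, RingOfIntegers.coe_eq_algebraMap, map_pow] at this
      have e' : V (J (algebraMap (𝓞 K) K s)) = 1 := e
      rw [e', one_pow] at this
      exact le_antisymm (l1 y) (by nlinarith [l1 r, V.nonneg (J y)])
    have bp : ∀ j, b (I ^ j) = b I ^ j := fun j => by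
      induction j with
      | zero => simpa using B3
      | succ j ih => rw [pow_succ, B2, ih, pow_succ]
    have y2 : b I ^ Fintype.card (ClassGroup (𝓞 K)) = φ y := by
      rw [← bp, ← B1 y (v0 y y1)]
      exact congrArg b hy
    have y3 : ε (d y) ≠ 0 := right_ne_zero_of_mul (y2 ▸ pow_ne_zero _ h)
    rw [pow_mul, y2, mul_pow, (tw _).resolve_left y3, mul_one, ← pow_mul]
    exact F4 y _ y1

end Vale.Agent.P004C.Ln
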