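import Vale.Agent.P004C.Ln.St
import Vale.Agent.P004C.Wa.Co

/-!
# P004 C, block LN: congruences of coefficients
-/

open NumberField Module
open scoped Classical

noncomputable section

namespace Vale.Agent.P004C.Ln

open Wa (co dp)
open Al (Cm)

namespace Cf

variable {V : AbsoluteValue ℂ ℝ}

theorem add_le (h : V2 V) {x y : ℂ} {r : ℝ} (a : V x ≤ r) (b : V y ≤ r) : V (x + y) ≤ r :=
  (h.1 x y).trans (max_le a b)

theorem sub_le (h : V2 V) {x y : ℂ} {r : ℝ} (a : V x ≤ r) (b : V y ≤ r) : V (x - y) ≤ r := by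
  rw [sub_eq_add_neg]
  exact add_le h a (by rwa [V.map_neg])

theorem nat_le (h : V2 V) (n : ℕ) : V n ≤ 1 := by
  induction n with
  | zero => simp
  | succ n ih =>
    rw [Nat.cast_succ]
    exact add_le h ih V.map_one.le

theorem int_le (h : V2 V) (n : ℤ) : V n ≤ 1 := by
  obtain ⟨k, rfl | rfl⟩ := n.eq_nat_or_neg
  · simpa using nat_le h k
  · simpa using nat_le h k

theorem mul_le {x y : ℂ} {r : ℝ} (a : V x ≤ r) (b : V y ≤ 1) : V (x * y) ≤ r := by
  rw [V.map_mul]
  exact (mul_le_of_le_one_right (V.nonneg _) b).trans a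

theorem two_le (h : V2 V) (k : ℤ) : V (2 * k) ≤ 1 / 2 := mul_le h.2.le (int_le h k)

theorem odd_sub (h : V2 V) {n : ℕ} (o : ¬ 2 ∣ n) : V ((n : ℂ) - 1) ≤ 1 / 2 := by
  obtain ⟨k, rfl⟩ : ∃ k, n = 2 * k + 1 := ⟨n / 2, by omega⟩
  have := two_le h k
  push_cast at this ⊢
  rwa [add_sub_cancel_right]

theorem odd_eq (h : V2 V) {n : ℕ} (o : ¬ 2 ∣ n) : V n = 1 := by
  refine le_antisymm (nat_le h n) (not_lt.1 fun l => ?_)
  have := h.1 n (-((n : ℂ) - 1))
  rw [V.map_neg, show (n : ℂ) + -(n - 1) = 1 by ring, V.map_one] at this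
  exact absurd this (not_le.2 (max_lt l ((odd_sub h o).trans_lt (by norm_num))))

/-- products of congruent numbers -/
theorem prod_le (h : V2 V) {x y x' y' : ℂ} {r : ℝ} (a : V (x - x') ≤ r) (b : V (y - y') ≤ r)
    (r1 : r ≤ 1) (c : V x' ≤ 1) (d : V y' ≤ 1) : V (x * y - x' * y') ≤ r := by
  have e : V y ≤ 1 := by simpa using add_le h (b.trans r1) d
  rw [show x * y - x' * y' = (x - x') * y + (y - y') * x' by ring]
  exact add_le h (mul_le a e) (mul_le b c)

/-- the Hecke relation -/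
theorem te {R : ℕ} {e A : ℕ → ℂ} (h : Hm R e A) {p n : ℕ} (hp : p.Prime) (d : ¬ p ∣ R)
    (hn : n ≠ 0) : A (p * n) = A p * A n - if p ∣ n then e p * A (n / p) else 0 := by
  obtain ⟨k, m, hm, rfl⟩ := Nat.exists_eq_pow_mul_and_not_dvd hn p hp.ne_one
  have c : ∀ j, A (p ^ j * m) = A (p ^ j) * A m := fun j =>
    h.mul _ _ (((Nat.Prime.coprime_iff_not_dvd hp).2 hm).pow_left j)
  rcases k with _ | k
  · rw [pow_zero, one_mul, if_neg hm, sub_zero]
    simpa using c 1
  · rw [if_pos (Dvd.dvd.mul_right (dvd_pow_self p k.succ_ne_zero) m), ← mul_assoc, ← pow_succ',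
      c, c, h.pow p k hp d, pow_succ', mul_assoc p, Nat.mul_div_cancel_left _ hp.pos, c]
    ring

theorem cg (h : V2 V) {N R : ℕ} {a : ℕ → ℤ} {e A : ℕ → ℂ} {ρ : ℝ} (a1 : a 1 = 1)
    (t : P004N.TE N a fun n => (a n : ℂ)) (r : 2 ∣ R)
    (q : ∀ p : ℕ, p.Prime → ¬ p ∣ R → ¬ p ∣ N ∧ V (A p - a p) ≤ ρ ∧ V (e p - 1) ≤ ρ)
    (l : 1 / 2 ≤ ρ) (u : ρ ≤ 1) (H : Hm R e A) (i : ℕ) : i.Coprime R → V (A i - a i) ≤ ρ := by
  induction i using Nat.strong_induction_on with
  | _ i ih =>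
  intro c
  by_cases i1 : i = 1
  · rw [i1, H.one, a1]
    simpa using le_trans (by norm_num) l
  obtain ⟨p, hp, n, rfl⟩ := Nat.exists_prime_and_dvd i1
  have d : ¬ p ∣ R := (Nat.Prime.coprime_iff_not_dvd hp).1 (Nat.Coprime.coprime_mul_right c)
  have cn : n.Coprime R := Nat.Coprime.coprime_mul_left c
  have n0 : n ≠ 0 := by
    rintro rfl
    rw [Nat.coprime_zero_left] at cn
    omega
  have ln : n < p * n := by nlinarith [hp.one_lt, Nat.pos_of_ne_zero n0]
  obtain ⟨q1, q2, q3⟩ := q p hp d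
  have k1 := prod_le h q2 (ih n ln cn) u (int_le h _) (int_le h _)
  have : (a (p * n) : ℂ) = a p * a n - if p ∣ n then (p : ℂ) * a (n / p) else 0 :=
    eq_sub_of_add_eq (t p hp q1 n)
  rw [te H hp d n0, this, sub_sub_sub_comm]
  refine sub_le h k1 ?_
  split_ifs with w
  · refine prod_le h ?_ (ih _ ((Nat.div_le_self _ _).trans_lt ln)
      (cn.coprime_dvd_left (Nat.div_dvd_of_dvd w))) u (nat_le h _) (int_le h _)
    rw [show e p - p = (e p - 1) - (p - 1) by ring]
    refine sub_le h q3 ((odd_sub h fun z => d ?_).trans l)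
    exact (Nat.prime_dvd_prime_iff_eq Nat.prime_two hp).1 z ▸ r
  · simpa using le_trans (by norm_num) l

theorem quad {L : Type} [Field L] [NumberField L] (h2 : finrank ℚ L = 2) {φ : Ideal (𝓞 L) → ℂ}
    (h : Cm φ) : Hm (discr L).natAbs (fun p =>
      (if (Ideal.span {(p : 𝓞 L)}).IsPrime then -1 else 1) * φ (Ideal.span {(p : 𝓞 L)})) (co φ) := by
  refine ⟨Wa.Co.co_one h, fun a b c => ?_, fun p k hp d => ?_⟩
  · rcases eq_or_ne a 0 with rfl | a0
    · rw [(Nat.coprime_zero_left _).1 c, Wa.Co.co_one h, mul_one, mul_one]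
    rcases eq_or_ne b 0 with rfl | b0
    · rw [(Nat.coprime_zero_right _).1 c, Wa.Co.co_one h, one_mul, one_mul]
    have m : Cm fun I : Ideal (𝓞 L) => if I = ⊥ then 0 else φ I := by
      refine ⟨by rw [if_neg (by simp), h.one], fun I J => ?_⟩
      by_cases x : I = ⊥ <;> by_cases y : J = ⊥ <;> simp [x, y, h.mul]
    have e : ∀ k, k ≠ 0 → co (fun I : Ideal (𝓞 L) => if I = ⊥ then 0 else φ I) k = co φ k :=
      fun k k0 => by
        rw [Wa.Co.co_eq, Wa.Co.co_eq]
        refine Finset.sum_congr rfl fun I hI => if_neg fun z => k0 ?_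
        rw [← Wa.Co.mem_fs.1 hI, z, Ideal.absNorm_bot]
    rw [← e _ (mul_ne_zero a0 b0), ← e _ a0, ← e _ b0]
    exact Wa.Co.co_mul m (if_pos rfl) c
  · obtain ⟨s, t, e⟩ := Wa.Co.ex_ep h2 φ hp
    obtain ⟨x, y⟩ := Wa.Co.quad h2 h hp e
    rw [y, x]
    refine congrArg (fun z : ℂ => s * co φ (p ^ (k + 1)) - z * co φ (p ^ k)) ?_
    rcases e with ⟨P, P', w, -, rfl⟩ | ⟨w, -, rfl⟩ | ⟨P, w, -, rfl⟩
    · rw [if_neg fun z => ?_, w.mul, h.mul, one_mul]
      have z' := z.isMaximal (by simpa using hp.ne_zero)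
      exact w.ne ((Wa.Co.ine_one z' w.m w.mem).trans (Wa.Co.ine_one z' w.m' w.symm.mem).symm)
    · rw [if_pos w.isPrime, neg_one_mul]
    · exact absurd (w.dvd hp) d

theorem co_dp {L : Type} [Field L] [NumberField L] (φ : Ideal (𝓞 L) → ℂ) (m i : ℕ) :
    co (dp m φ) i = if i.Coprime m then co φ i else 0 := by
  rw [Wa.Co.co_eq, Wa.Co.co_eq]
  split_ifs with c
  · exact Finset.sum_congr rfl fun I hI => if_pos (by rwa [Wa.Co.mem_fs.1 hI])
  · exact Finset.sum_eq_zero fun I hI => if_neg (by rwa [Wa.Co.mem_fs.1 hI])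

/-- a function on the positive integers -/
def af (f : ℕ → ℂ) : ArithmeticFunction ℂ := ⟨fun n => if n = 0 then 0 else f n, if_pos rfl⟩

theorem af_mul {f : ℕ → ℂ} (h1 : f 1 = 1) (h : ∀ a b, f (a * b) = f a * f b) :
    (af f).IsMultiplicative := by
  refine ⟨?_, fun {a b} _ => ?_⟩
  · change (if (1 : ℕ) = 0 then 0 else f 1) = 1
    rw [if_neg one_ne_zero, h1]
  change (if a * b = 0 then 0 else f (a * b)) =
    (if a = 0 then 0 else f a) * if b = 0 then 0 else f b
  by_cases x : a = 0 <;> by_cases y : b = 0 <;> simp [x, y, h]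

/-- convolution of two completely multiplicative functions -/
theorem conv {f g : ℕ → ℂ} (f1 : f 1 = 1) (g1 : g 1 = 1) (hf : ∀ a b, f (a * b) = f a * f b)
    (hg : ∀ a b, g (a * b) = g a * g b) (R : ℕ) : Hm R (fun p => f p * g p)
      fun i => ∑ x ∈ i.divisorsAntidiagonal, f x.1 * g x.2 := by
  have e : ∀ i : ℕ, ∑ x ∈ i.divisorsAntidiagonal, f x.1 * g x.2 = (af f * af g) i := fun i => by
    rw [ArithmeticFunction.mul_apply]
    refine Finset.sum_congr rfl fun x hx => ?_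
    change _ = (if x.1 = 0 then 0 else f x.1) * if x.2 = 0 then 0 else g x.2
    rw [if_neg (Nat.left_ne_zero_of_mem_divisorsAntidiagonal hx),
      if_neg (Nat.right_ne_zero_of_mem_divisorsAntidiagonal hx)]
  have pw : ∀ {u : ℕ → ℂ}, u 1 = 1 → (∀ a b, u (a * b) = u a * u b) → ∀ p j : ℕ,
      u (p ^ j) = u p ^ j := fun u1 hu p j => by
    induction j with
    | zero => simpa using u1
    | succ j ih => rw [pow_succ, hu, ih, pow_succ]
  refine ⟨by simp [f1, g1], fun a b c => ?_, fun p k hp _ => ?_⟩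
  · simp only [e]
    exact ((af_mul f1 hf).mul (af_mul g1 hg)).map_mul_of_coprime c
  have w : ∀ j, ∑ x ∈ (p ^ j).divisorsAntidiagonal, f x.1 * g x.2 =
      ∑ i ∈ Finset.range (j + 1), f p ^ i * g p ^ (j - i) := fun j => by
    rw [Nat.sum_divisorsAntidiagonal fun x y => f x * g y, Nat.sum_divisors_prime_pow hp]
    refine Finset.sum_congr rfl fun i hi => ?_
    rw [Nat.pow_div (Nat.lt_succ_iff.1 (Finset.mem_range.1 hi)) hp.pos, pw f1 hf, pw g1 hg]
  have s : ∀ j, ∑ x ∈ (p ^ (j + 1)).divisorsAntidiagonal, f x.1 * g x.2 =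
      f p ^ (j + 1) + g p * ∑ x ∈ (p ^ j).divisorsAntidiagonal, f x.1 * g x.2 := fun j => by
    rw [w, w, Finset.sum_range_succ, Nat.sub_self, pow_zero, mul_one, add_comm, Finset.mul_sum]
    refine congrArg _ (Finset.sum_congr rfl fun i hi => ?_)
    rw [Nat.succ_sub (Nat.lt_succ_iff.1 (Finset.mem_range.1 hi)), pow_succ]
    ring
  have s0 := s 0
  rw [zero_add, pow_one, pow_zero] at s0
  simp only [s, s0]
  simp only [Nat.divisorsAntidiagonal_one, Finset.sum_singleton, f1, g1]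
  ring

end Cf

open Cf

/-- **congruences of coefficients** -/
theorem cfc : CFC := by
  refine ⟨fun V h N R a e A ρ s a1 t r q l u H c i => ?_, fun L _ _ h2 φ f1 fm =>
    ⟨quad h2 ⟨f1, fm⟩, co_dp φ⟩, fun φ φ' f1 g1 hf hg => ?_⟩
  · obtain ⟨k, d, o, w⟩ := c i
    have w' := congrArg V w
    rw [V.map_mul, odd_eq h o, one_mul, Nat.cast_ofNat] at w'
    have b := w'.le.trans ((two_le h k).trans l)
    unfold P004F.Qx.dp at b
    split_ifs at b ⊢ with z
    · have i2 : ¬ 2 ∣ i := fun y => by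
        have := Nat.dvd_gcd y r
        rw [z] at this
        omega
      have i0 : (i : ℂ) ≠ 0 := by
        rw [Nat.cast_ne_zero]
        rintro rfl
        exact i2 (dvd_zero 2)
      rw [show s.coeff i - A i = (s.coeff i - a i / i) - ((i : ℂ) - 1) * (a i / i) - (A i - a i) by
        field_simp; ring]
      refine sub_le h (sub_le h b (mul_le ((odd_sub h i2).trans l) ?_)) (cg h a1 t r q l u H i z)
      rw [map_div₀, odd_eq h i2, div_one]
      exact int_le h _
    · simpa using b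
  · simpa only [mul_assoc] using conv (f := fun n => φ n) (g := fun n => φ' n * n ^ 3)
      (by simpa using f1) (by simpa using g1) (fun a b => by rw [Nat.cast_mul, hf])
      (fun a b => by rw [Nat.cast_mul, hg, Nat.cast_mul]; ring) 1

end Vale.Agent.P004C.Ln
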