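import Vale.Agent.P004C.Ln.St
import Vale.Agent.P004C.As.Inr
import Vale.Agent.P004C.As.Val
import Vale.Agent.P004C.As.Vaq

/-!
# P004 C, block LN: the discriminant at `v` of a biquadratic field (row DVL)
-/

set_option linter.all false

open NumberField Module Algebra
open scoped Classical

noncomputable section

namespace Vale.Agent.P004C.Ln

open Al.Gx Al.Ds As.Va

namespace Dl

variable {K : Type} [Field K] [NumberField K] {ι : ℂ →+* ℂ_[2]} {J : K →+* ℂ} {Ω : ℝ}

/-- the rationals are dense at `v` -/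
theorem den (B : Base ι J Ω) (w : K) : ∃ q : ℚ, ‖ι (J (w - q))‖ ≤ 1 := by
  obtain ⟨k, hk⟩ := pow_unbounded_of_one_lt ‖ι (J w)‖ one_lt_two
  replace hk := hk.le
  induction k generalizing w with
  | zero => exact ⟨0, by simpa using hk⟩
  | succ k ih =>
    obtain ⟨q, hq⟩ := ih (2 * w) (by
      rw [map_mul, map_mul, map_ofNat, map_ofNat, norm_mul, nm_two]
      linarith [pow_succ (2 : ℝ) k])
    obtain ⟨i, a⟩ := As.Ir.res As.val As.vaq0 B _ hq
    refine ⟨(q + (i : ℕ)) / 2, ?_⟩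
    convert a using 4
    push_cast
    ring

theorem nodd {m : ℕ} (h : Odd m) : ‖(m : ℂ_[2])‖ = 1 := by
  obtain ⟨k, rfl⟩ := h
  have a : ‖(2 * k : ℂ_[2])‖ < ‖(1 : ℂ_[2])‖ := by
    have := nm_int (Int.castRingHom ℂ_[2]) (isIntegral_algebraMap (x := (k : ℤ)))
    simp only [eq_intCast, Int.cast_id, Int.cast_natCast] at this
    rw [norm_mul, nm_two, NormOneClass.norm_one]
    linarith
  push_cast
  rw [IsUltrametricDist.norm_add_eq_max_of_norm_ne_norm a.ne, max_eq_right a.le, NormOneClass.norm_one]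

theorem neven {m : ℤ} (h : Even m) : ‖(m : ℂ_[2])‖ < 1 := by
  obtain ⟨k, rfl⟩ := h.two_dvd
  have := nm_int (Int.castRingHom ℂ_[2]) (isIntegral_algebraMap (x := k))
  simp only [eq_intCast, Int.cast_id] at this
  push_cast
  rw [norm_mul, nm_two]
  linarith

theorem den_odd {q : ℚ} (h : ‖(q : ℂ_[2])‖ ≤ 1) : Odd q.den := by
  refine Nat.not_even_iff_odd.1 fun e => ?_
  have a : ‖(q.num : ℂ_[2])‖ < 1 := by
    rw [← Rat.cast_intCast, ← Rat.mul_den_eq_num, Rat.cast_mul, norm_mul]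
    exact mul_lt_one_of_nonneg_of_lt_one_right h (norm_nonneg _)
      (by simpa using neven (Int.even_coe_nat _ |>.2 e))
  have b := nodd ((Nat.coprime_two_right).1 (q.reduced.coprime_dvd_right e.two_dvd))
  rw [Nat.cast_natAbs] at b
  rcases abs_choice q.num with k | k <;> simp [k] at b <;> exact a.ne b

variable {L : Type} [Field L] [NumberField L] {M : Type} [Field M] [NumberField M] [Algebra K M]
  [Algebra L M] {ω : Basis (Fin 2) ℚ L} {b : Basis (Fin 2) K M}

theorem rp (h : ∀ i, b i = algebraMap L M (ω i)) (y : L) (i : Fin 2) :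
    b.repr (algebraMap L M y) i = ω.repr y i := by
  have : algebraMap L M y = ∑ j, (ω.repr y j : K) • b j := by
    conv_lhs => rw [← ω.sum_repr y, map_sum]
    refine Finset.sum_congr rfl fun j _ => ?_
    rw [map_rat_smul, h, Rat.cast_smul_eq_qsmul]
  rw [this, b.repr_sum_self]

theorem lm (h : ∀ i, b i = algebraMap L M (ω i)) (y : L) :
    leftMulMatrix b (algebraMap L M y) = (algebraMap ℚ K).mapMatrix (leftMulMatrix ω y) := by
  ext i j
  simp [leftMulMatrix_eq_repr_mul, h j, ← map_mul, rp h]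

theorem tr (h : ∀ i, b i = algebraMap L M (ω i)) (y : L) :
    trace K M (algebraMap L M y) = trace ℚ L y := by
  simp [trace_eq_matrix_trace b, trace_eq_matrix_trace ω, lm h, Matrix.trace]

theorem nr (h : ∀ i, b i = algebraMap L M (ω i)) (y : L) :
    norm K (algebraMap L M y) = norm ℚ y := by
  rw [norm_eq_matrix_det b, norm_eq_matrix_det ω, lm h, ← RingHom.map_det]
  rfl

theorem ch (ω : Basis (Fin 2) ℚ L) (y : L) : y ^ 2 - trace ℚ L y * y + norm ℚ y = 0 := by
  have e : ∀ q : ℚ, (q : L) = algebraMap ℚ L q := fun _ => rfl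
  refine leftMulMatrix_injective ω ?_
  rw [e, e, map_add, map_sub, map_mul, map_pow, AlgHom.commutes, AlgHom.commutes, map_zero,
    trace_eq_matrix_trace ω, norm_eq_matrix_det ω, Matrix.trace_fin_two, Matrix.det_fin_two]
  ext i j
  fin_cases i <;> fin_cases j <;>
    simp [sq, Matrix.mul_apply, Matrix.algebraMap_matrix_apply] <;> ring

/-- elements of `L` which are integral above `v` -/
theorem odd_int (h : ∀ i, b i = algebraMap L M (ω i)) {y : L} (k : algebraMap L M y ∈ Ov ι J M) :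
    ∃ N : ℕ, Odd N ∧ IsIntegral ℤ (N * y) := by
  have _ := As.fd K M
  have a := ov_nm (ov_tr (M := K) k)
  have c := ov_nm (ov_norm (M := K) k)
  rw [tr h, map_ratCast, map_ratCast] at a
  rw [nr h, map_ratCast, map_ratCast] at c
  have e := ch ω y
  generalize trace ℚ L y = t at a e
  generalize norm ℚ y = n at c e
  refine ⟨t.den * n.den, (den_odd a).mul (den_odd c), Polynomial.X ^ 2 -
    (Polynomial.C (t.num * n.den : ℤ) * Polynomial.X - Polynomial.C (n.num * n.den * t.den ^ 2 : ℤ)),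
    Polynomial.monic_X_pow_sub (lt_of_le_of_lt (by compute_degree) Nat.one_lt_ofNat), ?_⟩
  rw [Polynomial.eval₂_sub, Polynomial.eval₂_sub, Polynomial.eval₂_X_pow, Polynomial.eval₂_mul,
    Polynomial.eval₂_X, Polynomial.eval₂_C, Polynomial.eval₂_C, eq_intCast, eq_intCast]
  have e1 : (t.num : L) = t * t.den := by exact_mod_cast (Rat.mul_den_eq_num t).symm
  have e2 : (n.num : L) = n * n.den := by exact_mod_cast (Rat.mul_den_eq_num n).symm
  push_cast
  rw [e1, e2]
  linear_combination ((t.den : L) * n.den) ^ 2 * e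

theorem bas (B : Base ι J Ω) (hL : finrank ℚ L = 2) (hM : finrank K M = 2)
    (hd : ∀ x : L, ∀ y : K, algebraMap L M x = algebraMap K M y → ∃ q : ℚ, x = q) :
    ∃ b : Basis (Fin 2) K M, Vb ι J b ∧ dv ι J b = ‖(discr L : ℂ_[2])‖ := by
  have e : Free.ChooseBasisIndex ℤ (𝓞 L) ≃ Fin 2 := Fintype.equivFinOfCardEq
    ((finrank_eq_card_basis (integralBasis L)).symm.trans hL)
  let ω := (integralBasis L).reindex e
  have li : LinearIndependent K fun i => algebraMap L M (ω i) := by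
    obtain ⟨a, c⟩ := linearIndependent_fin2.1 ω.linearIndependent
    refine linearIndependent_fin2.2 ⟨(map_ne_zero _).2 a, fun y k => ?_⟩
    obtain ⟨q, hq⟩ := hd (ω 0 / ω 1) y (by
      rw [map_div₀, ← k, Algebra.smul_def, mul_div_cancel_right₀ _ ((map_ne_zero _).2 a)])
    exact c q (by rw [Rat.smul_def, ← hq, div_mul_cancel₀ _ a])
  let b := basisOfLinearIndependentOfCardEqFinrank li (by simp [hM])
  have h : ∀ i, b i = algebraMap L M (ω i) := fun i => by simp [b]
  have m : ∀ x : M, (∀ i, ‖ι (J (b.repr x i))‖ ≤ 1) → x ∈ Ov ι J M := fun x k => by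
    rw [← b.sum_repr x]
    refine sum_mem fun i _ => ?_
    rw [Algebra.smul_def, h]
    refine mul_mem ((vi_iff _).2 (k i)) ⟨1, by simp, ?_⟩
    simpa [ω] using map_isIntegral_int (algebraMap L M)
      (RingOfIntegers.basis L (e.symm i)).isIntegral_coe
  refine ⟨b, fun x => ⟨fun k i => ?_, m x⟩, ?_⟩
  · choose q hq using fun i => den B (b.repr x i)
    have r : ∀ i, ω.repr (ω.equivFun.symm q) i = q i := fun i => congrFun (ω.equivFun.right_inv q) i
    have a := m (x - algebraMap L M (ω.equivFun.symm q)) fun i => by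
      rw [map_sub, Finsupp.sub_apply, rp h, r]
      exact hq i
    obtain ⟨N, n1, n2⟩ := odd_int h (sub_sub_cancel x _ ▸ (Ov ι J M).sub_mem k a)
    have c := integralBasis_repr_apply L ⟨_, n2⟩ (e.symm i)
    have d : (N : ℚ) * q i = ((RingOfIntegers.basis L).repr ⟨_, n2⟩ (e.symm i) : ℤ) := by
      rw [← r, ← smul_eq_mul, ← Finsupp.smul_apply, ← map_smul, Basis.repr_reindex_apply,
        Rat.smul_def, Rat.cast_natCast]
      exact c
    have f : ‖(q i : ℂ_[2])‖ ≤ 1 := by
      have := nm_int (Int.castRingHom ℂ_[2]) (isIntegral_algebraMap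
        (x := (RingOfIntegers.basis L).repr ⟨_, n2⟩ (e.symm i)))
      rwa [eq_intCast, eq_intCast, Int.cast_id, ← Rat.cast_intCast, ← d, Rat.cast_mul, norm_mul,
        Rat.cast_natCast, nodd n1, one_mul] at this
    have := (IsUltrametricDist.norm_add_le_max _ _).trans (max_le (hq i) f)
    simpa using this
  · have : Algebra.discr K b = (Algebra.discr ℚ ω : ℚ) := by
      rw [discr_def, discr_def, ← eq_ratCast (algebraMap ℚ K), RingHom.map_det]
      congr 1
      ext i j
      simp [h, ← map_mul, tr h]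
    rw [dv, this, Basis.coe_reindex, discr_reindex, ← coe_discr]
    simp

theorem inert (B : Base ι J Ω) (hL : finrank ℚ L = 2) (hM : finrank K M = 2)
    (h : (Ideal.span {(2 : 𝓞 L)}).IsPrime) :
    Ideal.absNorm (As.Qm ι J M 1) = 4 ∧ (As.Qm ι J M 1).IsMaximal := by
  have n4 : Ideal.absNorm (As.Qm ι J M 1) = 4 := by rw [(As.vaq0 K ι J Ω B M).2.2.2.1, hM]; rfl
  obtain ⟨Q, hQ, le⟩ := Ideal.exists_le_maximal (As.Qm ι J M 1) fun e => by simp [e] at n4
  have n : Ideal.absNorm (Ideal.span {(2 : 𝓞 L)}) = 4 := by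
    have := Ideal.absNorm_span_natCast (S := 𝓞 L) 2
    rw [RingOfIntegers.rank, hL] at this
    simpa using this
  have e : Ideal.span {(2 : 𝓞 L)} = Q.comap (algebraMap (𝓞 L) (𝓞 M)) :=
    (h.isMaximal (by simp)).eq_of_le (Ideal.comap_ne_top _ hQ.ne_top)
      ((Ideal.span_singleton_le_iff_mem _).2 (by
        rw [Ideal.mem_comap, map_ofNat]; exact le As.Ir.two_mq))
  obtain ⟨C, hC⟩ := Ideal.dvd_iff_le.2 le
  have k := congrArg Ideal.absNorm hC
  rw [n4, map_mul] at k
  have : Finite (𝓞 M ⧸ Q) := Nat.finite_of_card_ne_zero (left_ne_zero_of_mul (k ▸ four_ne_zero))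
  have l : 4 ≤ Ideal.absNorm Q := by
    rw [← n, e, Ideal.absNorm_apply, Ideal.absNorm_apply, Submodule.cardQuot_apply,
      Submodule.cardQuot_apply]
    exact Nat.card_le_card_of_injective _ Ideal.quotientMap_injective
  have c : Ideal.absNorm C = 1 := by
    have : Ideal.absNorm C ≠ 0 := right_ne_zero_of_mul (k ▸ four_ne_zero)
    nlinarith [Nat.pos_of_ne_zero this]
  rw [Ideal.absNorm_eq_one_iff.1 c, Ideal.mul_top] at hC
  exact ⟨n4, hC ▸ hQ⟩

end Dl

open Dl in
/-- **DVL** -/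
theorem dvl : DVL := by
  refine fun K _ _ ι J Ω B => ⟨⟨Basis.singleton _ K, fun x => ?_, ?_⟩,
    fun L _ _ hL M _ _ _ _ hM hd => ⟨bas B hL hM hd, fun h => ?_⟩⟩
  · simpa [mem_Ov] using ov_iff (ι := ι) (J := J) (w := x)
  · simp [dv, discr_def]
  obtain ⟨n4, mx⟩ := inert B hL hM h
  refine ⟨?_, fun v hv => ?_⟩
  · obtain ⟨b, h1, h2⟩ := bas B hL hM hd
    obtain ⟨b', h3, h4⟩ := As.Ir.bas As.val As.vaq0 B hM mx n4 rfl
    obtain ⟨g, -, hg⟩ := dg_ex (ι := ι) (J := J) (M := K) (N := M)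
    rw [dv_eq h1 hg, ← dv_eq h3 hg, h4] at h2
    exact Int.not_even_iff_odd.1 fun e => (neven e).ne h2.symm
  have e : v = vv ι J := by
    obtain ⟨a, c⟩ := ((As.vaq0 K ι J Ω B K).2.1 v).1 hv
    rw [As.Vq.qm_one B] at c
    exact (vv_max.eq_of_le a.ne_top fun x k => c (Ideal.mem_map_of_mem _ k)).symm
  rw [e, ← show _ = (vv ι J).map _ from As.Vq.qm_one B]
  exact ⟨fun Q => ((As.vaq0 K ι J Ω B M).2.1 Q).trans
    ⟨fun k => (mx.eq_of_le k.1.ne_top k.2).symm, fun k => ⟨k ▸ mx, k.ge⟩⟩, n4⟩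

end Vale.Agent.P004C.Ln
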