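import Vale.Agent.P004C.Ln.St
import Vale.Agent.P004C.As.Ray

/-!
# P004 C, block LN: smaller moduli, primitive characters, products (row HEX)
-/

set_option linter.unusedSectionVars false

open NumberField Ideal
open scoped Classical

noncomputable section

namespace Vale.Agent.P004C.Ln

open Wa (RC Pm)
open As.Ra (R S cn rep inv_ex lift mul_one')

namespace Hx

variable {M : Type} [Field M] [NumberField M] {f f' I I' I'' t : Ideal (𝓞 M)} {s s' : M → ℂ}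
  {ψ ψ' : Ideal (𝓞 M) → ℂ} {x y a b : 𝓞 M}

/-- moving an ideal away from `t` inside its ray class -/
theorem mov (hf : f ≠ ⊥) (h0 : I ≠ ⊥) (h : I ⊔ f = ⊤) (ht : t ≠ ⊥) :
    ∃ (I' : Ideal (𝓞 M)) (x y : 𝓞 M), I' ≠ ⊥ ∧ I' ⊔ t = ⊤ ∧ x ≠ 0 ∧ y ≠ 0 ∧ x - 1 ∈ f ∧ y - 1 ∈ f ∧
      span {x} * I = span {y} * I' := by
  obtain ⟨b, e, k⟩ := rep hf ht ((⟨I, h0, h⟩ : S f) : (cn f).Quotient)
  obtain ⟨y, z, a, c, d, g, i⟩ := (cn f).eq.1 e
  exact ⟨b, y, z, b.2.1, k, d, g, a, c, i.symm⟩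

theorem sup_mul : I * I' ⊔ f = ⊤ ↔ I ⊔ f = ⊤ ∧ I' ⊔ f = ⊤ := by
  simp only [← isCoprime_iff_sup_eq, IsCoprime.mul_left_iff]

theorem mul_sup' : I ⊔ f * f' = ⊤ ↔ I ⊔ f = ⊤ ∧ I ⊔ f' = ⊤ := by
  simp only [← isCoprime_iff_sup_eq, IsCoprime.mul_right_iff]

theorem sup_one (h : x - 1 ∈ f) : span {x} ⊔ f = ⊤ := (eq_top_iff_one _).2 (by
  simpa using sub_mem (mem_sup_left (mem_span_singleton_self x)) (mem_sup_right h))

theorem nz (h : RC s f ψ) (h0 : I ≠ ⊥) (k : I ⊔ f = ⊤) : ψ I ≠ 0 :=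
  fun z => ((h.zero I).1 z).elim h0 fun n => n k

theorem sm (m : ∀ x y, s (x * y) = s x * s y) (x y : 𝓞 M) : s (x * y : 𝓞 M) = s x * s y := by
  rw [← m]; rfl

theorem sn (n : ∀ x, x ≠ 0 → s x ≠ 0) (h : x ≠ 0) : s x ≠ 0 :=
  n _ (RingOfIntegers.coe_ne_zero_iff.2 h)

/-- the value is well defined -/
theorem wd (m : ∀ x y, s (x * y) = s x * s y) (h : RC s f ψ) (le : f ≤ f')
    (H : ∀ x : 𝓞 M, x ≠ 0 → x - 1 ∈ f' → span {x} ⊔ f = ⊤ → ψ (span {x}) = s x)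
    (n : I' ≠ ⊥) (c : I ⊔ f = ⊤) (c' : I' ⊔ f = ⊤) (a0 : a ≠ 0) (b0 : b ≠ 0) (ha : a - 1 ∈ f')
    (hb : b - 1 ∈ f') (e : span {a} * I = span {b} * I') : s a * ψ I = s b * ψ I' := by
  obtain ⟨B, B1, B2, x, x0, x1, ex⟩ := inv_ex (ne_bot_of_le_ne_bot h.ne le) h.ne
    (I := I') ⟨n, top_unique (c'.ge.trans (sup_le_sup_left le _))⟩
  have e' : span {a} * (I * B) = span {b * x} := by
    rw [← mul_assoc, e, mul_assoc, ← ex, span_singleton_mul_span_singleton]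
  obtain ⟨d, hd⟩ := mem_span_singleton'.1 (mul_le_left (e'.ge (mem_span_singleton_self _)))
  have ed : span {d} = I * B := mul_left_cancel₀ (span_singleton_eq_bot.not.2 a0) (by
    rw [e', span_singleton_mul_span_singleton, mul_comm, hd])
  have k1 := H d (left_ne_zero_of_mul (hd ▸ mul_ne_zero b0 x0)) (by
    rw [show d - 1 = b * x - 1 - d * (a - 1) by linear_combination hd]
    exact sub_mem (mul_one' hb x1) (mul_mem_left _ _ ha)) (ed ▸ sup_mul.2 ⟨c, B2⟩)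
  have k2 := H x x0 x1 (ex ▸ sup_mul.2 ⟨c', B2⟩)
  have k3 := congrArg (fun z : 𝓞 M => s z) hd
  simp only [sm m] at k3
  rw [ed, h.mul] at k1
  rw [ex, h.mul] at k2
  exact mul_right_cancel₀ (nz h B1.1 B2) (by linear_combination s a * k1 - s b * k2 + k3)

/-- a smaller modulus -/
theorem ext (m : ∀ x y, s (x * y) = s x * s y) (n : ∀ x, x ≠ 0 → s x ≠ 0) (h : RC s f ψ)
    (le : f ≤ f') (H : ∀ x : 𝓞 M, x ≠ 0 → x - 1 ∈ f' → span {x} ⊔ f = ⊤ → ψ (span {x}) = s x) :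
    ∃ ψ', RC s f' ψ' ∧ ∀ I, I ⊔ f = ⊤ → ψ' I = ψ I := by
  have f0 := ne_bot_of_le_ne_bot h.ne le
  choose A x y A0 A1 x0 y0 x1 y1 e using
    fun (I : Ideal (𝓞 M)) (k : I ≠ ⊥ ∧ I ⊔ f' = ⊤) => mov f0 k.1 k.2 h.ne
  obtain ⟨φ, z, C⟩ : ∃ φ : Ideal (𝓞 M) → ℂ, (∀ I, ¬ (I ≠ ⊥ ∧ I ⊔ f' = ⊤) → φ I = 0) ∧
      ∀ I I' (a b : 𝓞 M), I ≠ ⊥ → I ⊔ f' = ⊤ → I' ⊔ f = ⊤ → a ≠ 0 → b ≠ 0 → a - 1 ∈ f' →
        b - 1 ∈ f' → span {a} * I = span {b} * I' → s a * φ I = s b * ψ I' := by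
    refine ⟨fun I => if k : I ≠ ⊥ ∧ I ⊔ f' = ⊤ then s (y I k) * ψ (A I k) / s (x I k) else 0,
      fun I k => dif_neg k, fun I I' a b i0 i1 c a0 b0 a1 b1 q => ?_⟩
    have k := And.intro i0 i1
    have w := wd m h le H (A0 I k) c (A1 I k) (mul_ne_zero (x0 I k) b0) (mul_ne_zero a0 (y0 I k))
      (mul_one' (x1 I k) b1) (mul_one' a1 (y1 I k)) (by
        rw [← span_singleton_mul_span_singleton, ← span_singleton_mul_span_singleton, mul_assoc,
          ← q, mul_left_comm, e I k, mul_assoc])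
    simp only [dif_pos k]
    rw [← mul_div_assoc, div_eq_iff (sn n (x0 I k))]
    rw [sm m, sm m] at w
    linear_combination -w
  have s1 := sn n (one_ne_zero (α := 𝓞 M))
  have ag : ∀ I, I ⊔ f = ⊤ → φ I = ψ I := fun I c => by
    by_cases i0 : I = ⊥
    · rw [z I fun k => k.1 i0, (h.zero I).2 (.inl i0)]
    · exact mul_left_cancel₀ s1 (C I I 1 1 i0 (top_unique (c.ge.trans (sup_le_sup_left le _))) c
        one_ne_zero one_ne_zero (by simp) (by simp) rfl)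
  have C' := fun I k => C I _ _ _ (And.left k) k.2 (A1 I k) (x0 I k) (y0 I k) (x1 I k) (y1 I k) (e I k)
  refine ⟨φ, ⟨f0, (ag 1 (by simp)).trans h.one, fun I I' => ?_, fun I => ⟨fun k => ?_,
    fun k => z I fun j => k.elim j.1 fun i => i j.2⟩, fun a a0 a1 => ?_⟩, ag⟩
  · by_cases k : I ≠ ⊥ ∧ I ⊔ f' = ⊤
    · by_cases k' : I' ≠ ⊥ ∧ I' ⊔ f' = ⊤
      · have w := C (I * I') (A I k * A I' k') _ _ (mul_ne_zero k.1 k'.1) (sup_mul.2 ⟨k.2, k'.2⟩)
          (sup_mul.2 ⟨A1 I k, A1 I' k'⟩) (mul_ne_zero (x0 I k) (x0 I' k'))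
          (mul_ne_zero (y0 I k) (y0 I' k')) (mul_one' (x1 I k) (x1 I' k'))
          (mul_one' (y1 I k) (y1 I' k')) (by
            rw [← span_singleton_mul_span_singleton, ← span_singleton_mul_span_singleton,
              mul_mul_mul_comm, e, e, mul_mul_mul_comm])
        rw [sm m, sm m, h.mul, mul_mul_mul_comm (s (y I k)), ← C' I k, ← C' I' k',
          mul_mul_mul_comm] at w
        exact mul_left_cancel₀ (mul_ne_zero (sn n (x0 I k)) (sn n (x0 I' k'))) w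
      · rw [z I' k', mul_zero, z _ fun j => k' ⟨right_ne_zero_of_mul j.1, (sup_mul.1 j.2).2⟩]
    · rw [z I k, zero_mul, z _ fun j => k ⟨left_ne_zero_of_mul j.1, (sup_mul.1 j.2).1⟩]
  · by_contra j
    push Not at j
    have := C' I j
    rw [k, mul_zero] at this
    exact mul_ne_zero (sn n (y0 I j)) (nz h (A0 I j) (A1 I j)) this.symm
  · have := C (span {a}) 1 1 a (span_singleton_eq_bot.not.2 a0) (sup_one a1) (by simp) one_ne_zero
      a0 (by simp) a1 (by simp)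
    have e1 := sm m 1 1
    rw [mul_one] at e1
    rw [h.one] at this
    exact mul_left_cancel₀ s1 (mul_left_cancel₀ s1
      (by linear_combination s (1 : 𝓞 M) * this + s a * e1))

/-- the primitive character -/
theorem prim (m : ∀ x y, s (x * y) = s x * s y) (n : ∀ x, x ≠ 0 → s x ≠ 0) (h : RC s f ψ) :
    ∃ f' ψ', f ≤ f' ∧ RC s f' ψ' ∧ Pm s f' ψ' ∧ ∀ I, I ⊔ f = ⊤ → ψ' I = ψ I := by
  induction f using WellFoundedGT.induction generalizing ψ with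
  | ind f ih =>
  by_cases p : Pm s f ψ
  · exact ⟨f, ψ, le_rfl, h, p, fun _ _ => rfl⟩
  simp only [Pm, not_forall, not_exists, not_and, not_not] at p
  obtain ⟨P, g, hP, e, H⟩ := p
  have le : f ≤ g := e ▸ mul_le_right
  obtain ⟨φ, r, ag⟩ := ext m n h le fun x x0 x1 c => H x x1 (fun k => hP.ne_top (top_unique
    (c.ge.trans (sup_le ((span_singleton_le_iff_mem _).2 k) (e ▸ mul_le_left))))) x0
  obtain ⟨f', ψ', a, b, c, d⟩ := ih g (le.lt_of_ne fun k => hP.ne_top (mul_right_cancel₀ r.ne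
    (by rw [← e, k, top_mul]))) r
  exact ⟨f', ψ', le.trans a, b, c, fun I k =>
    (d I (top_unique (k.ge.trans (sup_le_sup_left le _)))).trans (ag I k)⟩

/-- congruent generators -/
theorem cng (m : ∀ x y, s (x * y) = s x * s y) (h : RC s f ψ) (x0 : x ≠ 0) (y0 : y ≠ 0)
    (c : span {x} ⊔ f = ⊤) (e : y - x ∈ f) : ψ (span {x}) * s y = ψ (span {y}) * s x := by
  obtain ⟨d, d0, d1, d2⟩ := lift h.ne c
  have k1 := h.prn _ (mul_ne_zero d0 x0) d1
  have k2 := h.prn _ (mul_ne_zero d0 y0) (by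
    rw [show d * y - 1 = d * x - 1 + d * (y - x) by ring]
    exact add_mem d1 (mul_mem_left _ _ e))
  rw [← span_singleton_mul_span_singleton, h.mul, sm m] at k1 k2
  exact mul_left_cancel₀ (nz h (span_singleton_eq_bot.not.2 d0) d2)
    (by linear_combination s y * k1 - s x * k2)

theorem rc_mul (h : RC s f ψ) (h' : RC s' f' ψ') :
    RC (fun x => s x * s' x) (f * f') fun I => ψ I * ψ' I where
  ne := mul_ne_zero h.ne h'.ne
  one := by rw [h.one, h'.one, one_mul]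
  mul I I' := by rw [h.mul, h'.mul, mul_mul_mul_comm]
  zero I := by rw [mul_eq_zero, h.zero, h'.zero, Ne, Ne, Ne, mul_sup']; tauto
  prn x x0 x1 := by rw [h.prn x x0 (mul_le_left x1), h'.prn x x0 (mul_le_right x1)]

theorem pm1 (m : ∀ x y, s (x * y) = s x * s y) (n : ∀ x, x ≠ 0 → s x ≠ 0)
    (n' : ∀ x, x ≠ 0 → s' x ≠ 0) (h : RC s f ψ) (h' : RC s' f' ψ') (c : f ⊔ f' = ⊤) (p : Pm s f ψ)
    {P g : Ideal (𝓞 M)} (hP : P.IsMaximal) (e : f * f' = P * g) (d : P ∣ f) :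
    ∃ x : 𝓞 M, x - 1 ∈ g ∧ x ∉ P ∧ x ≠ 0 ∧ ψ (span {x}) * ψ' (span {x}) ≠ s x * s' x := by
  obtain ⟨f₁, rfl⟩ := d
  obtain rfl : f₁ * f' = g := mul_left_cancel₀ (left_ne_zero_of_mul h.ne) (by rw [← e, mul_assoc])
  obtain ⟨x, x1, xP, x0, k⟩ := p P f₁ hP rfl
  obtain ⟨a, ha, b, hb, ab⟩ := Submodule.mem_sup.1 ((eq_top_iff_one _).1 c)
  have e1 : a + b * x - x ∈ P * f₁ := by
    rw [show a + b * x - x = a * (1 - x) by linear_combination x * ab]
    exact mul_mem_right _ _ ha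
  have e2 : a + b * x - 1 ∈ f₁ * f' := by
    rw [show a + b * x - 1 = (x - 1) * b by linear_combination ab]
    exact mul_mem_mul x1 hb
  have yP : a + b * x ∉ P := fun j => xP (by simpa using sub_mem j (mul_le_left e1))
  have y0 : a + b * x ≠ 0 := fun j => yP (j ▸ zero_mem P)
  refine ⟨_, e2, yP, y0, fun j => k ?_⟩
  have w := cng m h x0 y0 (mul_sup'.2 ⟨by_contra fun i => xP ((hP.eq_of_le i le_sup_right).ge
    (mem_sup_left (mem_span_singleton_self x))), sup_one x1⟩) e1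
  rw [h'.prn _ y0 (mul_le_right e2)] at j
  rw [mul_right_cancel₀ (sn n' y0) j, mul_comm (s _)] at w
  exact mul_right_cancel₀ (sn n y0) w

end Hx

open Hx

theorem hex : HEX := fun M _ _ => ⟨fun _ _ _ => mov, fun s m n f ψ h =>
  ⟨fun _ => ext m n h, prim m n h, fun I k => by
    have := mt (h.zero I).2 k
    push Not at this
    obtain ⟨r, r0, x, a, b, c⟩ := ex_gen h.ne this.1 this.2
    exact ⟨r, x, r0, a, b, c.symm⟩, fun s' f' ψ' m' n' h' c => ⟨rc_mul h h', fun p p' P g hP e => by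
    have P0 : P ≠ ⊥ := left_ne_zero_of_mul (e ▸ mul_ne_zero h.ne h'.ne)
    rcases (prime_of_isPrime P0 hP.isPrime).dvd_or_dvd (Dvd.intro _ e.symm) with d | d
    · exact pm1 m n n' h h' c p hP e d
    · simpa only [mul_comm] using pm1 m' n' n h' h (sup_comm f f' ▸ c) p' hP (mul_comm f f' ▸ e) d⟩⟩⟩

end Vale.Agent.P004C.Ln
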