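import Vale.Agent.P004C.Ln.St3
import Vale.Agent.P004C.Ln.Dvl
import Vale.Agent.P004C.Ln.Pv3a
import Vale.Agent.P004C.Ln.Hex
import Vale.Agent.P004C.Al.Cmb1

/-!
# P004 C, block LN: the character of the biquadratic field and its type at `v` (row CS3)
-/

set_option linter.all false

open NumberField Module Ideal
open scoped Classical

noncomputable section

namespace Vale.Agent.P004C.Ln

open Al.Gx As.Vq Wa

namespace C3

variable {K : Type} [Field K] [NumberField K] {ι : ℂ →+* ℂ_[2]} {J : K →+* ℂ} {Ω : ℝ}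
  {L : Type} [Field L] [NumberField L] {M : Type} [Field M] [NumberField M]

theorem odd_nm {f : Ideal (𝓞 L)} (h : f ⊔ span {2} = ⊤) : Odd (absNorm f) := by
  refine Nat.not_even_iff_odd.1 fun e => ?_
  obtain ⟨P, a, b, c⟩ := exists_isMaximal_dvd_of_dvd_absNorm' Nat.prime_two f e.two_dvd
  have k : (2 : ℤ) ∈ P.under ℤ := b ▸ mem_span_singleton_self _
  rw [mem_comap, map_ofNat] at k
  exact a.ne_top (top_unique (h ▸ sup_le (le_of_dvd c) ((span_singleton_le_iff_mem _).2 k)))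

theorem top_of {R : Type} [CommRing R] {x : R} {F : Ideal R} (h : x - 1 ∈ F) : span {x} ⊔ F = ⊤ := by
  rw [eq_top_iff_one, show (1 : R) = x - (x - 1) by ring]
  exact sub_mem (mem_sup_left (mem_span_singleton_self x)) (mem_sup_right h)

theorem top_max {R : Type} [CommRing R] {x : R} {P : Ideal R} (m : P.IsMaximal) (h : x ∉ P) :
    span {x} ⊔ P = ⊤ := by_contra fun k =>
  h ((m.eq_of_le k le_sup_right).ge (mem_sup_left (mem_span_singleton_self x)))

variable [Algebra L M]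

theorem map_two {f : Ideal (𝓞 L)} (h : f ⊔ span {2} = ⊤) :
    f.map (algebraMap (𝓞 L) (𝓞 M)) ⊔ span {2} = ⊤ := by
  have := congrArg (Ideal.map (algebraMap (𝓞 L) (𝓞 M))) h
  rwa [Ideal.map_sup, map_span, Set.image_singleton, map_ofNat, Ideal.map_top] at this

/-- the norm of an element which is `y` at one prime above two and `1` at the other one -/
theorem nm_two (h : finrank L M = 2) (m : (span {(2 : 𝓞 L)}).IsMaximal) {P Q : Ideal (𝓞 M)}
    (hP : P ≠ ⊤) (hQ : Q ≠ ⊤) (p2 : 2 ∈ P) (q2 : 2 ∈ Q) {x : 𝓞 M} {y : 𝓞 L}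
    (a : x - algebraMap _ _ y ∈ P) (b : x - 1 ∈ Q) (c : y - 1 ∉ span {(2 : 𝓞 L)}) :
    Algebra.intNorm (𝓞 L) (𝓞 M) x - y ∈ span {(2 : 𝓞 L)} := by
  obtain ⟨s, -, e, -⟩ := Pv.q2 h
  have u : ∀ P : Ideal (𝓞 M), P ≠ ⊤ → 2 ∈ P → ∀ z : 𝓞 L, algebraMap _ _ z ∈ P →
      z ∈ span {(2 : 𝓞 L)} := fun P k k2 z hz =>
    (m.eq_of_le (comap_ne_top (algebraMap (𝓞 L) (𝓞 M)) k) ((span_singleton_le_iff_mem _).2
      (by rwa [mem_comap, map_ofNat]))).ge hz
  have e1 := e (x + 1)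
  have e0 := e x
  rw [map_add s, map_one s] at e1
  generalize Algebra.intNorm (𝓞 L) (𝓞 M) (x + 1) = N1 at e1
  generalize Algebra.intNorm (𝓞 L) (𝓞 M) x = N at e0 ⊢
  have k1 := u Q hQ q2 (1 - (N1 - N - 1) + N) (by
    simp only [map_add, map_sub, map_one, e0, e1]
    convert Q.mul_mem_right (s x - 1) b using 1
    ring)
  have k2 := u P hP p2 (y ^ 2 - (N1 - N - 1) * y + N) (by
    simp only [map_add, map_sub, map_mul, map_pow, map_one, e0, e1]
    convert P.mul_mem_right (s x - algebraMap _ _ y) a using 1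
    ring)
  have k3 := (m.isPrime.mem_or_mem (x := y - 1) (y := y + 1 - (N1 - N - 1)) (by
    convert sub_mem k2 k1 using 1
    ring)).resolve_left c
  convert sub_mem k1 k3 using 1
  ring

end C3

open C3 in
/-- **CS3** -/
theorem cs3 : CS3 := by
  intro K _ _ ι J Ω V B hV L _ _ f ψ D M _ _ _ _ hM hd g n' c h k ξ lam hg hn hc R La F a hF ha
  have r2 : finrank L M = 2 := by
    have a := finrank_mul_finrank ℚ K M
    have b := finrank_mul_finrank ℚ L M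
    rw [B.two, hM] at a
    rw [D.two, ← a] at b
    omega
  have H := Cm.la_hc (M := M) B La
  have mc : (span {(c : 𝓞 K)}).map (algebraMap (𝓞 K) (𝓞 M)) = span {(c : 𝓞 M)} := by
    rw [map_span, Set.image_singleton, map_natCast]
  have mul : ∀ I I', a (I * I') = a I * a I' := fun I I' => by
    have := H.mul I I'
    simp only [map_mul] at this
    simp only [ha, map_mul, D.rc.mul, R.rc.mul, this]
    ring
  have val : ∀ x : 𝓞 M, x ≠ 0 → x - 1 ∈ span {(c : 𝓞 M)} → a (span {x}) =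
      ψ (span {Algebra.intNorm (𝓞 L) (𝓞 M) x}) *
        (J (Algebra.norm K (x : M)))⁻¹ ^ (2 * h * k) := fun x x0 x1 => by
    rw [ha, H.prn x x0 trivial, relNorm_singleton, relNorm_singleton,
      R.rc.prn _ (Pv.nm0 x0) (Pv.nm1 hM (mc ▸ x1)), one_mul]
  have pc : Pv ι J (span {(c : 𝓞 M)}) := ⟨c, by simpa using Dl.nodd hc, by simp⟩
  have pn : Pv ι J (n'.map (algebraMap (𝓞 K) (𝓞 M))) := by
    obtain ⟨s, s1, s2⟩ := hn
    exact ⟨s, hV _ ▸ s2, mem_map_of_mem _ s1⟩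
  have pm : ∀ I I' : Ideal (𝓞 M), Pv ι J I → Pv ι J I' → Pv ι J (I * I') :=
    fun I I' ⟨s, s1, s2⟩ ⟨t, t1, t2⟩ => ⟨s * t, by simp [s1, t1], map_mul (algebraMap (𝓞 K) (𝓞 M)) s t ▸
      mul_mem_mul s2 t2⟩
  have Ff : F ≤ f.map (algebraMap (𝓞 L) (𝓞 M)) :=
    hF ▸ mul_le_left.trans (mul_le_left.trans (map_mono mul_le_left))
  have Fc : F ≤ span {(c : 𝓞 M)} := hF ▸ mul_le_right
  have nd : V ((discr L).natAbs * absNorm f : ℕ) = ‖(discr L : ℂ_[2])‖ * ‖(absNorm f : ℂ_[2])‖ := by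
    rw [hV, map_natCast, Nat.cast_mul, norm_mul, Nat.cast_natAbs]
    rcases abs_choice (discr L) with e | e <;> simp [e]
  obtain ⟨⟨b, b1, b2⟩, d2⟩ := (dvl K ι J Ω B).2 L D.two M hM hd
  refine ⟨⟨?_, fun I I' => ?_, fun I => ?_, fun x x0 x1 => ?_⟩, mul, ?_⟩
  · have := H.one
    simp only [map_one] at this
    rw [Dp, if_pos (by simp), ha, map_one, map_one, D.rc.one, R.rc.one, this, mul_one, mul_one]
  · have : I * I' ⊔ F = ⊤ ↔ I ⊔ F = ⊤ ∧ I' ⊔ F = ⊤ := by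
      simp only [← isCoprime_iff_sup_eq, IsCoprime.mul_left_iff]
    simp only [Dp, this, mul]
    by_cases p : I ⊔ F = ⊤ <;> by_cases q : I' ⊔ F = ⊤ <;> simp [p, q]
  · by_cases p : I ⊔ F = ⊤
    · have p1 := (Pv.cop_rel r2).2 (top_unique (p ▸ sup_le_sup_left Ff I))
      have p2 := (Pv.cop_rel hM).2 (mc ▸ top_unique (p ▸ sup_le_sup_left Fc I))
      have p3 := H.zero I
      simp only [Dp, p, if_true, ha, mul_eq_zero, D.rc.zero, R.rc.zero, p1, p2, p3,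
        relNorm_eq_bot_iff]
      simp
    · simp [Dp, p]
  · rw [Dp, if_pos (top_of x1), val x x0 (Fc x1), D.rc.prn _ (Pv.nm0 x0) (Pv.nm1 r2 (Ff x1)), one_mul]
  rcases D.at2 with e | ⟨p2, f', e, e'⟩
  · refine Or.inl ⟨le_rfl, Or.inl rfl, hF ▸ pm _ _ (pm _ _ (pv_two (map_two ?_)) pn) pc, b, b1, ?_⟩
    · rw [sup_comm, Pv.cop_mul, sup_comm, e, sup_comm, hg]
      exact ⟨rfl, rfl⟩
    · rw [b2, nd, Dl.nodd (odd_nm e), mul_one]
  have m2 := p2.isMaximal (by simp)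
  obtain ⟨od, d3⟩ := d2 p2
  obtain ⟨av, n4⟩ := d3 (vv ι J) ⟨vv_max, fun ⟨s, s1, s2⟩ => not_vv.2 s1 s2⟩
  have mP : (VV ι J M).IsMaximal := ((av _).2 rfl).1
  have t2 := VV_two (M := M) B
  have pF : Pv ι J (VV ι (As.Vq.Jc J) M * (f' * g).map (algebraMap (𝓞 L) (𝓞 M)) *
      n'.map (algebraMap (𝓞 K) (𝓞 M)) * span {(c : 𝓞 M)}) := by
    refine pm _ _ (pm _ _ (pm _ _ (pv_iff.2 ?_) (pv_two (map_two ?_))) pn) pc
    · rw [← Ideal.map_sup, sup_comm, vv_cop B, Ideal.map_top]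
    · rw [sup_comm, Pv.cop_mul, sup_comm, e', sup_comm, hg]
      exact ⟨rfl, rfl⟩
  have eF : F = VV ι (As.Vq.Jc J) M * (f' * g).map (algebraMap (𝓞 L) (𝓞 M)) *
      n'.map (algebraMap (𝓞 K) (𝓞 M)) * span {(c : 𝓞 M)} * VV ι J M := by
    rw [hF, e, mul_assoc _ f', Ideal.map_mul, map_span, Set.image_singleton, map_ofNat, ← t2]
    ring
  obtain ⟨y, y1, y2, y0, y3⟩ := D.pm _ f' m2 e
  obtain ⟨u, hu, w, hw, uw⟩ := Submodule.mem_sup.1 ((eq_top_iff_one _).1 (pv_iff.1 pF))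
  have x1 := mul_mem_right (algebraMap (𝓞 L) (𝓞 M) y - 1) _ hu
  have x2 := mul_mem_right (1 - algebraMap (𝓞 L) (𝓞 M) y) _ hw
  rw [show u * (algebraMap (𝓞 L) (𝓞 M) y - 1) = u * algebraMap _ _ y + w - 1 by
    linear_combination -uw] at x1
  rw [show w * (1 - algebraMap (𝓞 L) (𝓞 M) y) = u * algebraMap _ _ y + w - algebraMap _ _ y by
    linear_combination -algebraMap (𝓞 L) (𝓞 M) y * uw] at x2
  generalize u * algebraMap (𝓞 L) (𝓞 M) y + w = x at x1 x2
  have P2 : (2 : 𝓞 M) ∈ VV ι J M := (mul_le_left (t2 ▸ mem_span_singleton_self 2))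
  have xP : x ∉ VV ι J M := fun z => y2 ((m2.eq_of_le (comap_ne_top (algebraMap (𝓞 L) (𝓞 M))
    mP.ne_top) ((span_singleton_le_iff_mem _).2 (by rwa [mem_comap, map_ofNat]))).ge
    (by simpa using sub_mem z x2))
  have x0 : x ≠ 0 := fun z => xP (z ▸ zero_mem _)
  have ef : f = span {2} ⊓ f' := e.trans (mul_eq_inf_of_coprime (sup_comm f' _ ▸ e'))
  refine Or.inr ⟨rfl, rfl, ?_, hM, _, _, eF, pF, av, n4, x, x1, xP, ?_⟩
  · have n : absNorm (span {(2 : 𝓞 L)}) = 4 := by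
      have := absNorm_span_natCast (S := 𝓞 L) 2
      rw [RingOfIntegers.rank, D.two] at this
      simpa using this
    have o := Dl.nodd (Int.natAbs_odd.2 od)
    rw [Nat.cast_natAbs] at o
    rw [nd, e, map_mul, n, Nat.cast_mul, norm_mul, Dl.nodd (odd_nm e'),
      show ((4 : ℕ) : ℂ_[2]) = 2 * 2 by norm_num, norm_mul, Al.Gx.nm_two]
    rcases abs_choice (discr L) with z | z <;> simp [z] at o <;> norm_num [o]
  rw [Dp, if_pos (eF ▸ Pv.cop_mul.2 ⟨top_of x1, top_max mP xP⟩), val x x0 (mul_le_right x1)]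
  have k := Hx.cng (s := fun _ => (1 : ℂ)) (fun _ _ => (one_mul _).symm) D.rc y0 (Pv.nm0 (k := L) x0)
    (e ▸ Pv.cop_mul.2 ⟨top_max m2 y2, top_of y1⟩) (ef ▸ ⟨C3.nm_two r2 m2 mP.ne_top
      (fun z => vv_max.ne_top (by
        rw [← comap_map_eq_self_of_faithfullyFlat (B := 𝓞 M) (vv ι (As.Vq.Jc J))]
        exact (congrArg _ z).trans comap_top)) P2 (mul_le_right (t2 ▸ mem_span_singleton_self 2)) x2
      (mul_le_left (mul_le_left (mul_le_left x1)))
      (fun z => y3 (D.rc.prn y y0 (ef ▸ ⟨z, y1⟩))), by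
      simpa using sub_mem (Pv.nm1 r2 (map_mono mul_le_left
        (mul_le_right (mul_le_left (mul_le_left x1))))) y1⟩)
  rw [mul_one, mul_one] at k
  rw [← k]
  exact fun z => y3 (mul_right_cancel₀ (pow_ne_zero _ (inv_ne_zero ((map_ne_zero J).2
    (Algebra.norm_ne_zero_iff.2 (by simpa using x0))))) (z.trans (one_mul _).symm))

end Vale.Agent.P004C.Ln
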