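import Vale.Agent.P004C.Ln.Ei1b

/-!
# P004 C, block LN, row EI1: law and expansion of the Eisenstein series
-/

open UpperHalfPlane CongruenceSubgroup EisensteinSeries ModularForm Matrix
open scoped Classical MatrixGroups Real ComplexConjugate Manifold

noncomputable section

namespace Vale.Agent.P004C.Ln.Ei

open Vale.Agent.P022.H218.L3
open Wa (ee QE)

variable {m : ℕ} {ψ : ℤ → ℂ}

theorem ee_lt (z : ℍ) : ‖ee z‖ < 1 := norm_exp_two_pi_I_lt_one z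

theorem sm_pow {x : ℂ} (hx : ‖x‖ < 1) : Summable fun n : ℕ+ => ((n : ℕ) : ℂ) ^ 3 * x ^ (n : ℕ) :=
  (summable_norm_pow_mul_geometric_of_norm_lt_one 3 hx).of_norm.comp_injective PNat.coe_injective

theorem lip (z : ℍ) : ∑' k : ℤ, 1 / ((z : ℂ) + k) ^ 4 =
    (2 * π) ^ 4 / 6 * ∑' n : ℕ+, ((n : ℕ) : ℂ) ^ 3 * ee z ^ (n : ℕ) := by
  have h := qExpansion_identity_pnat (k := 3) (by norm_num) z
  have e : ((-2 * π * Complex.I) ^ (3 + 1) / (Nat.factorial 3 : ℕ) : ℂ) = (2 * π) ^ 4 / 6 := by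
    rw [mul_pow, Complex.I_pow_four]
    norm_num [Nat.factorial]
  rw [e] at h
  exact h

theorem split [NeZero m] {f : ℤ → ℂ} (hs : Summable f) :
    ∑' w, f w = ∑ r ∈ Finset.range m, ∑' k : ℤ, f (k * m + r) := by
  let e : Fin m × ℤ ≃ ℤ := (Equiv.prodComm _ _).trans (Int.divModEquiv m).symm
  rw [← e.tsum_eq, ← Fin.sum_univ_eq_sum_range (fun r : ℕ => ∑' k : ℤ, f (k * m + r)),
    ← tsum_fintype (L := SummationFilter.unconditional _)]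
  exact (e.summable_iff.2 hs).tsum_prod

/-- translate by `r / m` -/
def sh (m r : ℕ) (z : ℍ) : ℍ := ⟨z + r / m, by simpa using z.2⟩

theorem sh_pow (r : ℕ) (z : ℍ) (n : ℕ) : ee (sh m r z) ^ n = ee z ^ n * ee ((n : ℤ) * r / m) := by
  change ee (z + r / m) ^ n = _
  rw [ee_add, mul_pow, ← ee_pow (_ / _), mul_div_assoc, Int.cast_natCast]

theorem row0 [NeZero m] (z : ℍ) (r : ℕ) :
    ∑' k : ℤ, ph m ψ (k * m + r) / ((m : ℂ) * z + (k * m + r : ℤ)) ^ 4 =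
      (2 * π) ^ 4 / (6 * m ^ 4) * ∑' n : ℕ+, (((n : ℕ) : ℂ) ^ 3 * ee z ^ (n : ℕ)) *
        (ph m ψ r * ee (((n : ℕ) : ℤ) * r / m)) := by
  have hm : (m : ℂ) ≠ 0 := by exact_mod_cast NeZero.ne m
  have h2 : ∀ k : ℤ, ph m ψ (k * m + r) / ((m : ℂ) * z + (k * m + r : ℤ)) ^ 4 =
      ph m ψ r / m ^ 4 * (1 / ((sh m r z : ℂ) + k) ^ 4) := fun k => by
    have h3 : (m : ℂ) * z + ((k * m + r : ℤ) : ℂ) = m * (sh m r z + k) := by
      change _ = (m : ℂ) * (z + r / m + k)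
      push_cast; field_simp; ring
    rw [ph_per (b := r) (by simp), h3, mul_pow, div_mul_div_comm, mul_one]
  have h4 : ∀ n : ℕ+, (((n : ℕ) : ℂ) ^ 3 * ee z ^ (n : ℕ)) *
      (ph m ψ r * ee (((n : ℕ) : ℤ) * r / m)) =
      ph m ψ r * (((n : ℕ) : ℂ) ^ 3 * ee (sh m r z) ^ (n : ℕ)) := fun n => by
    rw [sh_pow]
    ring
  rw [tsum_congr h2, tsum_congr h4, tsum_mul_left, tsum_mul_left, lip]
  field_simp

theorem row [NeZero m] (h : Cr m ψ) (z : ℍ) : ∑' w : ℤ, ph m ψ w / ((m : ℂ) * z + w) ^ 4 =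
    (2 * π) ^ 4 / (6 * m ^ 3) *
      ∑' n : ℕ+, conj (ψ (n : ℕ)) * (((n : ℕ) : ℂ) ^ 3 * ee z ^ (n : ℕ)) := by
  have hm : (m : ℂ) ≠ 0 := by exact_mod_cast NeZero.ne m
  have hs : Summable fun w : ℤ => ph m ψ w / ((m : ℂ) * z + w) ^ 4 := by
    have h0 := (linear_right_summable z m (k := 4) (by norm_num)).norm.mul_left (m : ℝ)
    refine .of_norm_bounded h0 fun w => ?_
    rw [div_eq_mul_inv, norm_mul]
    refine mul_le_mul (ph_le h w) (le_of_eq ?_) (norm_nonneg _) (Nat.cast_nonneg _)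
    norm_cast
  have h6 : ∀ r ∈ Finset.range m, Summable fun n : ℕ+ => (((n : ℕ) : ℂ) ^ 3 * ee z ^ (n : ℕ)) *
      (ph m ψ r * ee (((n : ℕ) : ℤ) * r / m)) := fun r _ => by
    refine ((sm_pow (ee_lt (sh m r z))).mul_left (ph m ψ r)).congr fun n => ?_
    rw [sh_pow]
    ring
  have h5 : ∀ n : ℕ+, ∑ r ∈ Finset.range m, (((n : ℕ) : ℂ) ^ 3 * ee z ^ (n : ℕ)) *
      (ph m ψ r * ee (((n : ℕ) : ℤ) * r / m)) =
      m * (conj (ψ (n : ℕ)) * (((n : ℕ) : ℂ) ^ 3 * ee z ^ (n : ℕ))) := fun n => by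
    rw [← Finset.mul_sum, ph_inv h]
    ring
  rw [split (m := m) hs, Finset.sum_congr rfl fun r _ => row0 z r, ← Finset.mul_sum,
    ← Summable.tsum_finsetSum h6, tsum_congr h5, tsum_mul_left]
  field_simp

theorem sm_two [NeZero m] (h : Cr m ψ) (τ : ℍ) : Summable fun x : ℤ × ℤ =>
    ψ x.1 * ph m ψ x.2 / ((x.1 : ℂ) * m * τ + x.2) ^ 4 := by
  have hm : (m : ℤ) ≠ 0 := by exact_mod_cast NeZero.ne m
  have hi : Function.Injective fun x : ℤ × ℤ => (![m * x.1, x.2] : Fin 2 → ℤ) := by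
    intro x y e
    have e0 := congrFun e 0
    have e1 := congrFun e 1
    simp only [cons_val_zero, cons_val_one] at e0 e1
    exact Prod.ext (mul_left_cancel₀ hm e0) e1
  refine ((sm_ec (cf_le h) τ).of_norm.comp_injective hi).congr fun x => ?_
  simp only [Function.comp, cf, eisSummand, cons_val_zero, cons_val_one,
    if_pos (dvd_mul_right (m : ℤ) x.1), Int.mul_ediv_cancel_left _ hm, _root_.zpow_neg,
    div_eq_mul_inv]
  congr 2
  push_cast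
  rw [mul_comm (m : ℂ)]
  norm_cast

theorem sm_pp [NeZero m] (h : Cr m ψ) {q : ℂ} (hq : ‖q‖ < 1) : Summable fun x : ℕ+ × ℕ+ =>
    ψ (x.1 : ℕ) * (conj (ψ (x.2 : ℕ)) * (((x.2 : ℕ) : ℂ) ^ 3 * q ^ ((x.1 : ℕ) * x.2))) := by
  refine .of_norm_bounded (summable_prod_mul_pow 3 hq).norm fun x => ?_
  rw [norm_mul, norm_mul, Complex.norm_conj, ← mul_assoc]
  exact mul_le_of_le_one_left (norm_nonneg _)
    (mul_le_one₀ (cr_le h _) (norm_nonneg _) (cr_le h _))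

theorem eis_pp (hm : 1 < m) (h : Cr m ψ) (h1 : ψ (-1) = 1) (τ : ℍ) : eis m ψ τ = ∑' x : ℕ+ × ℕ+,
    ψ (x.1 : ℕ) * (conj (ψ (x.2 : ℕ)) * (((x.2 : ℕ) : ℂ) ^ 3 * ee τ ^ ((x.1 : ℕ) * x.2))) := by
  have : NeZero m := ⟨by omega⟩
  have hm0 : (m : ℂ) ≠ 0 := by exact_mod_cast NeZero.ne m
  have hπ : (π : ℂ) ≠ 0 := by exact_mod_cast Real.pi_ne_zero
  have h0 : ψ 0 = 0 := (h.zero 0).2 fun e => by
    have := Int.isUnit_iff_natAbs_eq.1 (isCoprime_zero_left.1 e)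
    omega
  have hs := sm_two h τ
  have ev : Function.Even fun u : ℤ =>
      ∑' w : ℤ, ψ u * ph m ψ w / ((u : ℂ) * m * τ + w) ^ 4 := fun u => by
    beta_reduce
    rw [← (Equiv.neg ℤ).tsum_eq]
    refine tsum_congr fun w => ?_
    have : ψ (-u) = ψ u := by rw [← neg_one_mul, h.mul, h1, one_mul]
    rw [Equiv.neg_apply, ph_neg h h1, this]
    congr 1
    push_cast
    ring
  have h2 : ∀ u : ℕ+, ∑' w : ℤ, ψ (u : ℕ) * ph m ψ w / ((((u : ℕ) : ℤ) : ℂ) * m * τ + w) ^ 4 =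
      (2 * π) ^ 4 / (6 * m ^ 3) * ∑' n : ℕ+, ψ (u : ℕ) * (conj (ψ (n : ℕ)) *
        (((n : ℕ) : ℂ) ^ 3 * ee τ ^ ((u : ℕ) * n))) := fun u => by
    let y : ℍ := ⟨(u : ℕ) * τ, by simpa using τ.2⟩
    have hy : (y : ℂ) = (u : ℕ) * τ := rfl
    have h3 := row h y
    rw [hy, ee_pow] at h3
    simp_rw [← pow_mul] at h3
    rw [tsum_mul_left, mul_left_comm, ← h3, ← tsum_mul_left]
    refine tsum_congr fun w => ?_
    rw [mul_div_assoc]
    congr 3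
    push_cast
    ring
  change m ^ 3 * 3 / (2 * π) ^ 4 * ∑' x : ℤ × ℤ,
    ψ x.1 * ph m ψ x.2 / ((x.1 : ℂ) * m * τ + x.2) ^ 4 = _
  rw [hs.tsum_prod, tsum_int_eq_zero_add_two_mul_tsum_pnat ev hs.prod,
    (sm_pp h (ee_lt τ)).tsum_prod]
  simp only [h0, zero_mul, zero_div, tsum_zero, zero_add, nsmul_eq_mul]
  rw [tsum_congr h2, tsum_mul_left]
  field_simp
  ring

theorem fib {f : ℕ × ℕ → ℂ} (h0 : ∀ x : ℕ × ℕ, x.1 * x.2 = 0 → f x = 0)
    (hs : Summable fun x : ℕ+ × ℕ+ => f (x.1, x.2)) :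
    HasSum (fun n : ℕ => ∑ x ∈ n.divisorsAntidiagonal, f x) (∑' x : ℕ+ × ℕ+, f (x.1, x.2)) := by
  have hi : Function.Injective fun x : ℕ+ × ℕ+ => (((x.1 : ℕ), (x.2 : ℕ)) : ℕ × ℕ) :=
    fun x y e => Prod.ext (PNat.coe_injective (congrArg Prod.fst e))
      (PNat.coe_injective (congrArg Prod.snd e))
  have h1 : HasSum f (∑' x : ℕ+ × ℕ+, f (x.1, x.2)) := by
    refine (hi.hasSum_iff fun x hx => h0 x ?_).1 hs.hasSum
    by_contra e
    exact hx ⟨(⟨x.1, Nat.pos_of_ne_zero (left_ne_zero_of_mul e)⟩,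
      ⟨x.2, Nat.pos_of_ne_zero (right_ne_zero_of_mul e)⟩), rfl⟩
  have h2 := h1.tsum_fiberwise fun p : ℕ × ℕ => p.1 * p.2
  have h3 : ∀ n : ℕ, ∑' b : (fun p : ℕ × ℕ => p.1 * p.2) ⁻¹' {n}, f b =
      ∑ x ∈ n.divisorsAntidiagonal, f x := fun n => by
    rcases eq_or_ne n 0 with rfl | hn
    · rw [Nat.divisorsAntidiagonal_zero, Finset.sum_empty]
      exact (tsum_congr fun ⟨b, hb⟩ => h0 b hb).trans tsum_zero
    · rw [show (fun p : ℕ × ℕ => p.1 * p.2) ⁻¹' {n} = n.divisorsAntidiagonal by ext; simp [hn],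
        Finset.tsum_subtype' n.divisorsAntidiagonal f]
  rwa [funext h3] at h2

end Vale.Agent.P004C.Ln.Ei

namespace Vale.Agent.P004C.Ln

open Wa (ee QE)
open Ei

/-- **EI1** -/
theorem ei1 : EI1 := by
  intro m ψ hm h h1
  have : NeZero m := ⟨by omega⟩
  refine ⟨eis_mf h, fun τ => ?_⟩
  have h0 : ψ 0 = 0 := (h.zero 0).2 fun e => by
    have := Int.isUnit_iff_natAbs_eq.1 (isCoprime_zero_left.1 e)
    omega
  have h2 := fib (f := fun x => ψ x.1 * (conj (ψ x.2) * ((x.2 : ℂ) ^ 3 * ee τ ^ (x.1 * x.2))))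
    (fun x hx => by rcases mul_eq_zero.1 hx with e | e <;> simp [e, h0]) (sm_pp h (ee_lt τ))
  rw [eis_pp hm h h1]
  refine h2.congr_fun' fun n => ?_
  rw [Finset.sum_mul, ee_pow]
  refine Finset.sum_congr rfl fun x hx => ?_
  rw [(Nat.mem_divisorsAntidiagonal.1 hx).1]
  ring

end Vale.Agent.P004C.Ln
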