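import Vale.Agent.P022.H724.Jac

/-!
# P004 C, block LN: a prime of degree one at which the positive units are squares
-/

open NumberField Module Ideal NumberField.Units NumberField.InfinitePlace
open scoped Classical nonZeroDivisors NumberTheorySymbols

noncomputable section

namespace Vale.Agent.P004C.Ln.Ep

open Vale.Agent.P022.H724

/-- extension of characters -/
theorem ext {A B : Type} [CommMonoid A] [CommGroup B] (f : A →* B) (χ : A →* ℂˣ)
    (h : ∀ a b, f a = f b → χ a = χ b) : ∃ θ : B →* ℂˣ, ∀ a, θ (f a) = χ a := by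
  let _ : DivisibleBy (Additive ℂˣ) ℤ := by
    refine divisibleByOfSMulRightSurj _ _ fun {n} hn x => ?_
    obtain ⟨y, hy⟩ := IsAlgClosed.exists_pow_nat_eq ((x.toMul : ℂˣ) : ℂ) (Int.natAbs_pos.2 hn)
    have y0 : y ≠ 0 := by
      rintro rfl
      exact x.toMul.ne_zero (by rw [← hy, zero_pow (Int.natAbs_ne_zero.2 hn)])
    refine ⟨n.sign • Additive.ofMul (Units.mk0 y y0), ?_⟩
    show n • _ = x
    rw [smul_smul, Int.mul_sign_self, natCast_zsmul]
    exact Additive.toMul.injective (Units.ext (by simpa using hy))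
  let F := Algebra.GrothendieckGroup.lift f
  let X := Algebra.GrothendieckGroup.lift χ
  let g : _ ⧸ F.ker →* ℂˣ := QuotientGroup.lift _ X fun a ha => by
    rw [MonoidHom.mem_ker, Algebra.GrothendieckGroup.lift_apply, div_eq_one] at ha ⊢
    exact h _ _ ha
  obtain ⟨k, hk⟩ := (Module.Baer.of_divisible (Additive ℂˣ)).extension_property_addMonoidHom
    (MonoidHom.toAdditive (QuotientGroup.kerLift F))
    (fun a b hab => QuotientGroup.kerLift_injective F hab) (MonoidHom.toAdditive g)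
  refine ⟨MonoidHom.toAdditive.symm k, fun a => ?_⟩
  have e1 : F (Algebra.GrothendieckGroup.of a) = f a :=
    DFunLike.congr_fun (Algebra.GrothendieckGroup.lift.left_inv f) a
  have e2 : X (Algebra.GrothendieckGroup.of a) = χ a :=
    DFunLike.congr_fun (Algebra.GrothendieckGroup.lift.left_inv χ) a
  rw [← e1, ← e2]
  exact congrArg (fun g : Additive (_ ⧸ F.ker) →+ Additive ℂˣ =>
    (g (Additive.ofMul ((Algebra.GrothendieckGroup.of a : Algebra.GrothendieckGroup A) :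
      _ ⧸ F.ker))).toMul) hk

variable {L : Type} [Field L] [NumberField L]

/-- from elements to ideals -/
theorem chr {w : Ideal (𝓞 L)} (hw : w.IsMaximal) (κ : 𝓞 L → ℂ)
    (mul : ∀ x y, κ (x * y) = κ x * κ y) (sq : ∀ x, x ∉ w → κ x ^ 2 = 1)
    (un : ∀ u : (𝓞 L)ˣ, κ u = 1) : ∃ (ε : Ideal (𝓞 L) → ℂ) (r : ℕ), ε 1 = 1 ∧
    (∀ I J, ε (I * J) = ε I * ε J) ∧ (∀ I, ε I = 0 ↔ I ≤ w) ∧
    (∀ x, x ∉ w → ε (span {x}) = κ x) ∧ ∀ I, ε I = 0 ∨ ε I ^ 2 ^ r = 1 := by
  have p := hw.isPrime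
  have n0 {I : Ideal (𝓞 L)} (h : ¬ I ≤ w) : I ∈ (Ideal (𝓞 L))⁰ :=
    mem_nonZeroDivisors_of_ne_zero fun e => h (e ▸ bot_le)
  have s0 {x : 𝓞 L} (h : x ∉ w) : ¬ span {x} ≤ w := by rwa [span_singleton_le_iff_mem]
  let f : w.primeCompl →* (Ideal (𝓞 L))⁰ := ⟨⟨fun x => ⟨span {x.1}, n0 (s0 x.2)⟩,
    Subtype.ext (by simp)⟩, fun x y => Subtype.ext (span_singleton_mul_span_singleton _ _).symm⟩
  let χ : w.primeCompl →* ℂˣ := ⟨⟨fun x => Units.mk0 (κ x) fun e => by
    simpa [e] using sq x x.2, Units.ext (un 1)⟩, fun x y => Units.ext (mul _ _)⟩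
  obtain ⟨θ, hθ⟩ := ext ((FractionalIdeal.mk0 L).comp f) χ fun a b e => by
    have e1 := FractionalIdeal.coeIdeal_injective (congrArg Units.val e)
    obtain ⟨u, hu⟩ := span_singleton_eq_span_singleton.1 e1
    refine Units.ext ?_
    show κ a = κ b
    rw [← hu, mul, un, mul_one]
  have h0 : 2 * Fintype.card (ClassGroup (𝓞 L)) ≠ 0 := by simp
  obtain ⟨r, m, o, e⟩ := Nat.exists_eq_two_pow_mul_odd h0
  have k (x : 𝓞 L) (h : x ∉ w) : (θ (FractionalIdeal.mk0 L ⟨span {x}, n0 (s0 h)⟩) : ℂ) = κ x :=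
    congrArg Units.val (hθ ⟨x, h⟩)
  refine ⟨fun I => if h : I ≤ w then 0 else (θ (FractionalIdeal.mk0 L ⟨I, n0 h⟩) : ℂ) ^ m, r, ?_,
    fun I J => ?_, fun I => ?_, fun x h => ?_, fun I => ?_⟩
  · have : ¬ (1 : Ideal (𝓞 L)) ≤ w := by simpa using hw.ne_top
    simp only [dif_neg this]
    rw [show (⟨1, n0 this⟩ : (Ideal (𝓞 L))⁰) = 1 from rfl, map_one, map_one, Units.val_one,
      one_pow]
  · by_cases a : I ≤ w
    · simp only [dif_pos a, dif_pos (show I * J ≤ w from mul_le_left.trans a), zero_mul]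
    by_cases b : J ≤ w
    · simp only [dif_pos b, dif_pos (show I * J ≤ w from mul_le_right.trans b), mul_zero]
    have c : ¬ I * J ≤ w := fun h => (p.mul_le.1 h).elim a b
    simp only [dif_neg a, dif_neg b, dif_neg c]
    rw [← mul_pow, ← Units.val_mul, ← map_mul, ← map_mul]
    rfl
  · by_cases a : I ≤ w
    · exact iff_of_true (dif_pos a) a
    · refine iff_of_false ?_ a
      simp only [dif_neg a]
      exact pow_ne_zero _ (Units.ne_zero _)
  · obtain ⟨j, rfl⟩ := o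
    simp only [dif_neg (s0 h)]
    rw [k x h, pow_succ, pow_mul, sq x h, one_pow, one_mul]
  · by_cases a : I ≤ w
    · exact .inl (dif_pos a)
    refine .inr ?_
    simp only [dif_neg a]
    have c := pow_card_eq_one (x := ClassGroup.mk0 (⟨I, n0 a⟩ : (Ideal (𝓞 L))⁰))
    rw [← map_pow] at c
    generalize Fintype.card (ClassGroup (𝓞 L)) = h at c e
    obtain ⟨x, hx⟩ := (ClassGroup.mk0_eq_one_iff (pow_mem (n0 a) h)).1 c
    have hx : I ^ h = span {x} := hx
    have d : x ∉ w := fun b => a (p.le_of_pow_le (hx.trans_le ((span_singleton_le_iff_mem _).2 b)))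
    have q : (⟨I, n0 a⟩ : (Ideal (𝓞 L))⁰) ^ h = ⟨span {x}, n0 (s0 d)⟩ := Subtype.ext hx
    rw [← pow_mul, mul_comm, ← e, mul_comm, pow_mul, ← Units.val_pow_eq_pow_val, ← map_pow,
      ← map_pow, q, k x d, sq x d]

theorem fac {I : Ideal (𝓞 L)} (h : absNorm I % 4 = 3) :
    ∃ w : Ideal (𝓞 L), w.IsMaximal ∧ w ∣ I ∧ absNorm w % 4 = 3 := by
  induction I using UniqueFactorizationMonoid.induction_on_prime with
  | h₁ => simp at h
  | h₂ I u => simp [isUnit_iff.1 u] at h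
  | h₃ I P n p ih =>
    rw [map_mul, Nat.mul_mod] at h
    by_cases a : absNorm P % 4 = 3
    · exact ⟨P, (isPrime_of_prime p).isMaximal p.ne_zero, dvd_mul_right _ _, a⟩
    · obtain ⟨w, b, c, d⟩ := ih (by
        have := Nat.mod_lt (absNorm P) (by norm_num : 0 < 4)
        have := Nat.mod_lt (absNorm I) (by norm_num : 0 < 4)
        generalize absNorm P % 4 = x at *
        generalize absNorm I % 4 = y at *
        interval_cases x <;> interval_cases y <;> simp_all)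
      exact ⟨w, b, c.mul_left _, d⟩

theorem deg (h2 : finrank ℚ L = 2) {w : Ideal (𝓞 L)} (hw : w.IsMaximal)
    (h : absNorm w % 4 = 3) : (absNorm w).Prime := by
  obtain ⟨p, n, n0, m, hp, e⟩ := exists_prime_and_absNorm_eq_pow w
  have := absNorm_dvd_absNorm_of_le ((span_singleton_le_iff_mem _).2 m)
  rw [absNorm_span_natCast, RingOfIntegers.rank, h2, e,
    Nat.pow_dvd_pow_iff_le_right hp.one_lt] at this
  interval_cases n
  · rwa [e, pow_one]
  · rw [e, Nat.pow_mod] at h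
    have := Nat.mod_lt p (by norm_num : 0 < 4)
    generalize p % 4 = x at *
    interval_cases x <;> simp_all

/-- the imaginary case -/
theorem im (h2 : finrank ℚ L = 2) (hi : IsEmpty (L →+* ℝ)) {t : ℕ} (ht : 0 < t) :
    ∃ (l : ℕ) (w : Ideal (𝓞 L)), l.Prime ∧ l % 2 = 1 ∧ l.Coprime t ∧ absNorm w = l ∧
      ∀ u : (𝓞 L)ˣ, u ^ (l / 2) = 1 := by
  obtain ⟨B⟩ := exists_qb h2
  have d0 : (discr L).natAbs ≠ 0 := Int.natAbs_ne_zero.2 (discr_ne_zero L)
  obtain ⟨l, hl, -, e⟩ := Nat.exists_prime_gt_modEq_one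
    (k := 4 * (discr L).natAbs * (t * (2 * torsionOrder L))) 0
    (by have := torsionOrder_ne_zero L; positivity)
  have : Fact l.Prime := ⟨hl⟩
  have c {k : ℕ} (h : k ∣ 4 * (discr L).natAbs * (t * (2 * torsionOrder L))) : l.Coprime k :=
    Nat.coprime_of_mul_modEq_one 1 (by simpa using e.of_dvd h)
  have o : l % 2 = 1 := e.of_dvd (m := 2) ⟨2 * (discr L).natAbs * (t * (2 * torsionOrder L)),
    by ring⟩
  have j : legendreSym l (discr L) = 1 := by
    have : l % (4 * (discr L).natAbs) = 1 :=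
      Eq.trans (e.of_dvd (dvd_mul_right _ _)) (Nat.mod_eq_of_lt (by omega))
    rw [jacobiSym.legendreSym.to_jacobiSym, jacobiSym.mod_right _ (Nat.odd_iff.2 o), this,
      jacobiSym.one_right]
  have n := B.ncard_norm_eq (l := l) (by omega) fun h => hl.one_lt.ne'
    ((c (k := (discr L).natAbs) ⟨4 * (t * (2 * torsionOrder L)), by ring⟩).eq_one_of_dvd
      (Int.natCast_dvd.1 h))
  obtain ⟨w, hw⟩ : {p : Ideal (𝓞 L) | absNorm p = l}.Nonempty :=
    Set.nonempty_of_ncard_ne_zero (by omega)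
  refine ⟨l, w, hl, o, c ⟨4 * (discr L).natAbs * (2 * torsionOrder L), by ring⟩, hw, fun u => ?_⟩
  have r : rank L = 0 := by
    have a := card_add_two_mul_card_eq_rank L
    have : nrRealPlaces L = 0 :=
      Fintype.card_eq_zero_iff.2 ⟨fun x => hi.false (embedding_of_isReal x.2)⟩
    rw [rank, card_eq_nrRealPlaces_add_nrComplexPlaces]
    omega
  obtain ⟨⟨ζ, a⟩, h, -⟩ := exist_unique_eq_mul_prod L u
  have : IsEmpty (Fin (rank L)) := r ▸ inferInstance
  obtain ⟨k, hk⟩ := (Nat.modEq_iff_dvd' hl.one_le).1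
    (e.of_dvd (m := 2 * torsionOrder L) ⟨4 * (discr L).natAbs * t, by ring⟩).symm
  have z : (ζ : (𝓞 L)ˣ) ^ torsionOrder L = 1 := congrArg Subtype.val (pow_card_eq_one' (x := ζ))
  rw [h, Fintype.prod_empty, mul_one, show l / 2 = torsionOrder L * k by
    rw [mul_assoc] at hk; omega, pow_mul, z, one_pow]

/-- the units of a real quadratic field -/
theorem gen (h2 : finrank ℚ L = 2) (σ : L →+* ℝ) (C : ℝ) : ∃ e : (𝓞 L)ˣ, C < σ (e : 𝓞 L) ∧
    ∀ u : (𝓞 L)ˣ, 0 < σ (u : 𝓞 L) → ∃ v : (𝓞 L)ˣ, u = v ^ 2 ∨ u = e * v ^ 2 := by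
  have r : rank L = 1 := by
    have a := card_add_two_mul_card_eq_rank L
    have : 0 < nrRealPlaces L := Fintype.card_pos_iff.2
      ⟨⟨.mk (Complex.ofRealHom.comp σ), isReal_mk_iff.2 (by
        ext x; simp [ComplexEmbedding.conjugate_coe_eq])⟩⟩
    rw [rank, card_eq_nrRealPlaces_add_nrComplexPlaces]
    omega
  have : Unique (Fin (rank L)) := r ▸ inferInstance
  let s : (𝓞 L)ˣ →* ℝ := ((σ.comp (algebraMap (𝓞 L) L) : 𝓞 L →* ℝ)).comp (Units.coeHom _)
  have hs (u : (𝓞 L)ˣ) : s u = σ (u : 𝓞 L) := rfl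
  have s1 (u : (𝓞 L)ˣ) : s (-u) = -s u := by simp [hs]
  have s0 (u : (𝓞 L)ˣ) : s u ≠ 0 := ((Group.isUnit u).map s).ne_zero
  have pm (u : (𝓞 L)ˣ) (h : |s u| = 1) : u = 1 ∨ u = -1 := by
    have i : Function.Injective s := fun a b e =>
      Units.ext (RingOfIntegers.coe_injective (σ.injective e))
    refine (abs_eq zero_le_one).1 h |>.imp (fun e => i ?_) fun e => i ?_
    · rw [e, map_one]
    · rw [e, s1, map_one]
  set ε := fundSystem L default
  have all (u : (𝓞 L)ˣ) : ∃ k : ℤ, u = ε ^ k ∨ u = -ε ^ k := by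
    obtain ⟨⟨ζ, a⟩, h, -⟩ := exist_unique_eq_mul_prod L u
    have z : |s ζ| ^ torsionOrder L = 1 := by
      rw [← abs_pow, ← map_pow, show (ζ : (𝓞 L)ˣ) ^ torsionOrder L = 1 from
        congrArg Subtype.val (pow_card_eq_one' (x := ζ)), map_one, abs_one]
    rw [Fintype.prod_unique] at h
    refine ⟨a default, (pm ζ ((pow_eq_one_iff_of_nonneg (abs_nonneg _)
      (torsionOrder_ne_zero L)).1 z)).imp (fun e => ?_) fun e => ?_⟩ <;> simp [h, e, ε]
  have ne : |s ε| ≠ 1 := fun h => by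
    have : ε ^ (2 : ℤ) = 1 := by rcases pm ε h with e | e <;> simp [e]
    have := (exist_unique_eq_mul_prod L 1).unique (y₁ := (1, fun _ => 2)) (y₂ := (1, fun _ => 0))
      (by simpa using this.symm) (by simp)
    simpa using congrFun (congrArg Prod.snd this) default
  obtain ⟨y, hy⟩ : ∃ y : (𝓞 L)ˣ, 1 < s y ^ 2 := by
    rcases ne.lt_or_gt with h | h
    · refine ⟨ε⁻¹, ?_⟩
      rw [map_inv, one_lt_sq_iff_one_lt_abs, abs_inv]
      exact (one_lt_inv₀ (abs_pos.2 (s0 ε))).2 h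
    · exact ⟨ε, (one_lt_sq_iff_one_lt_abs _).2 h⟩
  obtain ⟨n, hn⟩ := pow_unbounded_of_one_lt (max C 0 / |s ε|) hy
  rw [div_lt_iff₀ (abs_pos.2 (s0 ε)), ← pow_mul, ← map_pow] at hn
  obtain ⟨e, he, h⟩ : ∃ e : (𝓞 L)ˣ, max C 0 < s e ∧ (e = ε * y ^ (2 * n) ∨ e = -(ε * y ^ (2 * n))) := by
    rcases abs_choice (s ε) with a | a <;> rw [a] at hn
    · exact ⟨_, by rwa [map_mul, mul_comm], .inl rfl⟩
    · exact ⟨_, by rw [s1, map_mul]; linarith, .inr rfl⟩
  refine ⟨e, (le_max_left _ _).trans_lt he, fun u hu => ?_⟩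
  have e0 := (le_max_right _ _).trans_lt he
  rw [← hs] at hu
  obtain ⟨k, hk⟩ := all u
  obtain ⟨j, rfl | rfl⟩ := Int.even_or_odd' k
  · refine ⟨ε ^ j, .inl ?_⟩
    rw [mul_comm, zpow_mul, zpow_ofNat] at hk
    refine hk.resolve_right fun a => ?_
    rw [a, s1, map_pow] at hu
    nlinarith [sq_nonneg (s (ε ^ j))]
  · refine ⟨ε ^ j / y ^ n, .inr ?_⟩
    have q : ε ^ (2 * j + 1) = ε * y ^ (2 * n) * (ε ^ j / y ^ n) ^ 2 := by
      rw [div_pow, ← pow_mul, mul_comm n, zpow_add_one, mul_comm 2 j, zpow_mul, zpow_ofNat]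
      simp [mul_comm, mul_left_comm, mul_assoc, div_eq_mul_inv]
    have : u = e * (ε ^ j / y ^ n) ^ 2 ∨ u = -(e * (ε ^ j / y ^ n) ^ 2) := by
      rw [q] at hk
      rcases h with h | h <;> rcases hk with a | a <;> simp [a, h]
    refine this.resolve_right fun a => ?_
    rw [a, s1, map_mul, map_pow] at hu
    nlinarith [mul_nonneg e0.le (sq_nonneg (s (ε ^ j / y ^ n)))]

/-- the real case -/
theorem re (h2 : finrank ℚ L = 2) (σ : L →+* ℝ) {t : ℕ} (ht : 0 < t) :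
    ∃ w : Ideal (𝓞 L), (absNorm w).Prime ∧ absNorm w % 4 = 3 ∧ (absNorm w).Coprime t ∧
      ∀ u : (𝓞 L)ˣ, 0 < σ (u : 𝓞 L) → IsSquare (Ideal.Quotient.mk w u) := by
  obtain ⟨B⟩ := exists_qb h2
  obtain ⟨m, hm⟩ : ∃ m : ℤ, m = (2 * t) ^ 2 := ⟨_, rfl⟩
  have m0 : (1 : ℝ) ≤ m := by
    have : (1 : ℝ) ≤ t := by exact_mod_cast ht
    rw [hm]; push_cast; nlinarith
  obtain ⟨e, he, h⟩ := gen h2 σ (m + 2)
  obtain ⟨a, b, hab⟩ := B.gen e
  obtain ⟨N, hN⟩ : ∃ N, N = a ^ 2 + B.q * a * b - B.p * b ^ 2 := ⟨_, rfl⟩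
  obtain ⟨T, hT⟩ : ∃ T, T = 2 * a + B.q * b := ⟨_, rfl⟩
  have u : N ≤ 1 ∧ -1 ≤ N := by
    have := e.isUnit.map (Algebra.norm ℤ)
    rw [hab, B.norm_eq, ← hN, Int.isUnit_iff] at this
    omega
  have ch : (e : 𝓞 L) ^ 2 - T * e + N = 0 := by
    rw [hab, hN, hT]
    push_cast
    linear_combination (b : 𝓞 L) ^ 2 * B.rel
  have ch' : σ (e : 𝓞 L) ^ 2 - T * σ (e : 𝓞 L) + N = 0 := by
    simpa using congrArg (σ.comp (algebraMap (𝓞 L) L)) ch
  have nz : Algebra.norm ℤ (1 - m * (e : 𝓞 L)) = 1 - m * (T - m * N) := by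
    rw [show 1 - m * (e : 𝓞 L) = ((1 - m * a : ℤ) : 𝓞 L) + ((-(m * b) : ℤ) : 𝓞 L) * B.ω by
      rw [hab]; push_cast; ring, B.norm_eq, hN, hT]
    ring
  have lt : 0 < T - m * N := by
    have n1 : (N : ℝ) ≤ 1 := by exact_mod_cast u.1
    have n2 : (-1 : ℝ) ≤ N := by exact_mod_cast u.2
    have : (m : ℝ) < T := by
      by_contra c
      nlinarith
    have : (m : ℝ) * N < T := by nlinarith
    exact_mod_cast sub_pos.2 this
  obtain ⟨k, hk⟩ : ∃ k : ℕ, T - m * N = k + 1 := ⟨(T - m * N - 1).toNat, by omega⟩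
  have an : absNorm (span {1 - m * (e : 𝓞 L)}) + 1 = (2 * t) ^ 2 * (k + 1) := by
    have : (0 : ℤ) < (2 * t) ^ 2 * (k + 1) := by positivity
    rw [absNorm_span_singleton, nz, hk, hm]
    zify
    rw [abs_of_nonpos (by omega)]
    ring
  obtain ⟨w, hw, d, h3⟩ := fac (I := span {1 - m * (e : 𝓞 L)}) (by
    rw [mul_pow, mul_assoc] at an
    omega)
  refine ⟨w, deg h2 hw h3, h3, Nat.Coprime.coprime_dvd_left (map_dvd absNorm d) ?_, fun u hu => ?_⟩
  · refine Nat.Coprime.coprime_dvd_right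
      (show t ∣ (2 * t) ^ 2 * (k + 1) from ⟨4 * t * (k + 1), by ring⟩) ?_
    rw [← an]
    simp
  · have z : Ideal.Quotient.mk w (1 - m * (e : 𝓞 L)) = 0 := Ideal.Quotient.eq_zero_iff_mem.2
      (le_of_dvd d (mem_span_singleton_self _))
    have q : IsSquare (Ideal.Quotient.mk w e) := ⟨2 * t * Ideal.Quotient.mk w e, by
      rw [hm] at z
      simp only [map_sub, map_mul, map_one, map_intCast] at z
      push_cast at z
      linear_combination Ideal.Quotient.mk w e * z⟩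
    obtain ⟨v, rfl | rfl⟩ := h u hu
    · simpa using IsSquare.sq _
    · simpa using q.mul (IsSquare.sq _)

end Vale.Agent.P004C.Ln.Ep
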