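import Vale.Agent.P004C.Ln.St
import Vale.Agent.P004C.Ln.Eps0

/-!
# P004 C, block LN: the row EPS
-/

open NumberField Module Ideal
open scoped Classical

noncomputable section

namespace Vale.Agent.P004C.Ln

open Wa (Sg RC Pm)

/-- the quadratic symbol times the sign -/
theorem Ep.fin {L : Type} [Field L] [NumberField L] {w : Ideal (𝓞 L)} (hl : (absNorm w).Prime)
    (o : absNorm w % 2 = 1) {sg : L → ℂ} (mul : ∀ x y, sg (x * y) = sg x * sg y)
    (sq : ∀ x, x ≠ 0 → sg x ^ 2 = 1)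
    (un : ∀ u : (𝓞 L)ˣ, sg (u : 𝓞 L) = 1 ∧ (u ^ (absNorm w / 2) = 1 ∨
      IsSquare (Ideal.Quotient.mk w u)) ∨ sg (u : 𝓞 L) = -1 ∧ absNorm w % 4 = 3 ∧
      IsSquare (Ideal.Quotient.mk w (-u))) :
    ∃ (ε : Ideal (𝓞 L) → ℂ) (r : ℕ), RC sg w ε ∧ Pm sg w ε ∧ ∀ I, ε I = 0 ∨ ε I ^ 2 ^ r = 1 := by
  have w0 : w ≠ ⊥ := fun e => hl.ne_zero (by rw [e, absNorm_bot])
  have hw : w.IsMaximal := (isPrime_of_irreducible_absNorm hl).isMaximal w0
  let _ := Ideal.Quotient.field w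
  have : Finite (𝓞 L ⧸ w) := Ideal.finiteQuotientOfFreeOfNeBot w w0
  let _ := Fintype.ofFinite (𝓞 L ⧸ w)
  have cd : Fintype.card (𝓞 L ⧸ w) = absNorm w := by
    rw [absNorm_apply, Submodule.cardQuot_apply, Nat.card_eq_fintype_card]
  have ch : ringChar (𝓞 L ⧸ w) ≠ 2 := fun e => by
    have := FiniteField.even_card_iff_char_two.1 e
    omega
  have n0 {x : 𝓞 L} (h : x ∉ w) : Ideal.Quotient.mk w x ≠ 0 :=
    mt Ideal.Quotient.eq_zero_iff_mem.1 h
  have x0 {x : 𝓞 L} (h : x ∉ w) : x ≠ 0 := fun e => h (e ▸ w.zero_mem)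
  obtain ⟨ε, r, e1, e2, e3, e4, e5⟩ := Ep.chr hw
    (fun x => sg x * quadraticChar (𝓞 L ⧸ w) (Ideal.Quotient.mk w x))
    (fun x y => by simp only [map_mul, mul]; push_cast; ring)
    (fun x h => by
      rw [mul_pow, sq _ (RingOfIntegers.coe_ne_zero_iff.2 (x0 h)), ← Int.cast_pow,
        quadraticChar_sq_one (n0 h), Int.cast_one, one_mul])
    fun u => by
      have u0 (u : (𝓞 L)ˣ) : Ideal.Quotient.mk w u ≠ 0 := (u.isUnit.map _).ne_zero
      rcases un u with ⟨a, b⟩ | ⟨a, b, c⟩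
      · rw [a, (quadraticChar_one_iff_isSquare (u0 u)).2 (b.elim (fun b => ?_) id)]
        · simp
        · rw [FiniteField.isSquare_iff ch (u0 u), cd, ← map_pow, ← Units.val_pow_eq_pow_val, b,
            Units.val_one, map_one]
      · have : Ideal.Quotient.mk w u = -1 * Ideal.Quotient.mk w (-u) := by simp
        rw [a, this, map_mul, (quadraticChar_one_iff_isSquare (by simpa using u0 u)).2 c,
          quadraticChar_neg_one_iff_not_isSquare.2
            (mt FiniteField.isSquare_neg_one_iff.1 (by omega))]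
        simp
  refine ⟨ε, r, ⟨w0, e1, e2, fun I => (e3 I).trans ⟨fun h => .inr ?_, ?_⟩, fun x _ h => ?_⟩,
    fun P f hP e => ?_, e5⟩
  · rw [sup_eq_right.2 h]
    exact hw.ne_top
  · rintro (rfl | h)
    · exact bot_le
    · exact sup_eq_right.1 (hw.eq_of_le h le_sup_right).symm
  · rw [e4 x fun k => hw.ne_top ((eq_top_iff_one _).2 (by simpa using sub_mem k h)),
      Ideal.Quotient.eq.2 h]
    simp
  · obtain rfl := hw.eq_of_le hP.ne_top (e.trans_le mul_le_left)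
    obtain rfl : f = ⊤ := (mul_left_cancel₀ w0 ((mul_top w).trans e)).symm
    obtain ⟨a, ha⟩ := quadraticChar_exists_neg_one ch
    obtain ⟨x, rfl⟩ := Ideal.Quotient.mk_surjective a
    have h : x ∉ w := fun h => by simp [Ideal.Quotient.eq_zero_iff_mem.2 h] at ha
    refine ⟨x, trivial, h, x0 h, fun k => ?_⟩
    have := sq _ (RingOfIntegers.coe_ne_zero_iff.2 (x0 h))
    rw [e4 x h, ha] at k
    rw [show sg x = 0 by push_cast at k; linear_combination (-1 / 2) * k] at this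
    simp at this

/-- **the row EPS** -/
theorem eps : EPS := fun L _ _ h2 t ht => by
  rcases isEmpty_or_nonempty (L →+* ℝ) with hi | ⟨⟨σ⟩⟩
  · obtain ⟨l, w, a, b, c, rfl, e⟩ := Ep.im h2 hi ht
    obtain ⟨ε, r, h⟩ := Ep.fin (sg := fun _ => 1) a b (by simp) (by simp)
      fun u => .inl ⟨rfl, .inl (e u)⟩
    exact ⟨_, _, r, w, ε, .inl ⟨hi, fun _ => rfl⟩, a, c, rfl, h⟩
  · obtain ⟨w, a, b, c, e⟩ := Ep.re h2 σ ht
    obtain ⟨ε, r, h⟩ := Ep.fin (sg := fun x => (SignType.sign (σ x) : ℝ)) a (by omega)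
      (fun x y => by simp [sign_mul]) (fun x hx => by
        rcases ((map_ne_zero σ).2 hx).lt_or_gt with k | k <;> simp [k])
      fun u => by
        rcases ((map_ne_zero σ).2 (RingOfIntegers.coe_ne_zero_iff.2 u.ne_zero)).lt_or_gt with k | k
        · exact .inr ⟨by simp [sign_neg k], b, e (-u) (by simpa using k)⟩
        · exact .inl ⟨by simp [sign_pos k], .inr (e u k)⟩
    exact ⟨_, _, r, w, ε, .inr ⟨σ, fun _ => rfl⟩, a, c, rfl, h⟩

end Vale.Agent.P004C.Ln
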