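import Vale.Agent.P004C.Ln.St2
import Vale.Agent.P004R.Qf

/-!
# P004 C, block LN: the level ideal exists
-/

set_option linter.all false

open NumberField Module
open scoped Classical NumberTheorySymbols

noncomputable section

namespace Vale.Agent.P004C.Ln

open Vale.Agent.P022 (Qb GQ GK below)
open P004K (Cn Cop)
open P004F (Crv Fld)
open P004F.Qx (IM)
open P004R.Qf (sp_list sp_sq sp_mem sp_one cn_nm)

namespace Lx

section

variable {K : Type} [Field K] [NumberField K] {p : ℕ} {I I' : Ideal (𝓞 K)}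

/-- an ideal of prime norm -/
theorem cn_of (hp : p.Prime) (h : Ideal.absNorm I = p) : Cn p I := by
  have : Fact p.Prime := ⟨hp⟩
  have t : I ≠ ⊤ := fun e => hp.one_lt.ne' (by rw [← h, e, Ideal.absNorm_top])
  have m : (p : 𝓞 K) ∈ I := h ▸ Ideal.absNorm_mem I
  refine ⟨fun k => ⟨fun hk => ?_, ?_⟩, fun a => ?_⟩
  · by_contra d
    obtain ⟨a, b, e⟩ := ((Nat.prime_iff_prime_int.1 hp).irreducible.coprime_iff_not_dvd.2 d).map
      (Int.castRingHom (𝓞 K))
    refine t ((Ideal.eq_top_iff_one _).2 (e ▸ add_mem (I.mul_mem_left _ ?_) (I.mul_mem_left _ hk)))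
    simpa using m
  · rintro ⟨c, rfl⟩
    push_cast
    exact I.mul_mem_right _ m
  · have c : Nat.card (𝓞 K ⧸ I) = p := by rw [← h, Ideal.absNorm_apply, Submodule.cardQuot_apply]
    have o : (1 : 𝓞 K ⧸ I) ≠ 0 := fun e => t (Ideal.Quotient.zero_eq_one_iff.1 e.symm)
    obtain ⟨k, hk⟩ := mem_zmultiples_of_prime_card c o (g' := Ideal.Quotient.mk I a)
    refine ⟨k, Ideal.Quotient.eq.1 ?_⟩
    rw [← hk, map_intCast]
    exact zsmul_one k

theorem nm' (h2 : finrank ℚ K = 2) (hp : 0 < p) (h : P004F.Qx.Sp p I I') :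
    Ideal.absNorm I' = p := by
  have e := congrArg Ideal.absNorm h.mul
  rw [map_mul, cn_nm h.cn, Ideal.absNorm_span_natCast, RingOfIntegers.rank, h2, pow_two] at e
  exact Nat.eq_of_mul_eq_mul_left hp e

theorem sp_symm (h2 : finrank ℚ K = 2) (hp : p.Prime) (h : P004F.Qx.Sp p I I') :
    P004F.Qx.Sp p I' I :=
  ⟨cn_of hp (nm' h2 hp.pos h), sup_comm I I' ▸ h.cop, mul_comm I I' ▸ h.mul⟩

theorem max_of (hp : p.Prime) (h : Ideal.absNorm I = p) : I.IsMaximal :=
  (Ideal.isPrime_of_irreducible_absNorm (h ▸ hp)).isMaximal fun e =>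
    hp.ne_zero (by rw [← h, e, Ideal.absNorm_bot])

end

theorem pr (e : Crv) : ∀ p ∈ e.S, p.Prime := fun p k => (e.ov p k).1

theorem dvd_iff (e : Crv) {p : ℕ} (hp : p.Prime) : p ∣ e.S.prod ↔ p ∈ e.S :=
  ⟨mem_list_primes_of_dvd_prod hp.prime fun q k => (pr e q k).prime, List.dvd_prod⟩

theorem half (e : Crv) : e.S.prod / 2 = (e.S.erase 2).prod := by
  rw [← List.prod_erase e.two, Nat.mul_div_cancel_left _ two_pos]

theorem dvd_half (e : Crv) {p : ℕ} (hp : p.Prime) : p ∣ e.S.prod / 2 ↔ p ∈ e.S ∧ p ≠ 2 := by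
  rw [half, and_comm, ← e.nd.mem_erase_iff]
  exact ⟨mem_list_primes_of_dvd_prod hp.prime fun q k => (pr e q (List.mem_of_mem_erase k)).prime,
    List.dvd_prod⟩

theorem kd {e : Crv} (b : Fld e) : Wa.Kd (Jc b.j) b.δ' b.θ :=
  ⟨b.iq.two, b.upm, b.adm.sq, b.adm.m8, b.th, b.im⟩

theorem nd {e : Crv} (b : Fld e) {p : ℕ} (h : p ∈ e.S) : ¬ p ∣ b.δ' := fun d => by
  rcases eq_or_ne p 2 with rfl | n
  · have := b.adm.m8
    omega
  · have k := b.adm.spl p h n
    have : NeZero p := ⟨(pr e p h).ne_zero⟩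
    rw [jacobiSym.eq_zero_iff_not_coprime.2] at k
    · exact zero_ne_one k
    · rw [Int.neg_gcd, Int.gcd_natCast_natCast, Nat.gcd_eq_right d]
      exact (pr e p h).one_lt.ne'

end Lx

open Lx

theorem lvx : LVX := fun e b => by
  have hp := pr e
  refine ⟨kd b, Nat.odd_iff.2 (Nat.two_dvd_ne_zero.1 fun d =>
    ((dvd_half e Nat.prime_two).1 d).2 rfl), Nat.mul_div_cancel' (List.dvd_prod e.two),
    fun p h => dvd_iff e h, fun p h d => by_contra fun k => (e.bad p h k).1 (d.mul_right _),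
    fun m m0 dm hm => ?_⟩
  have hL : ∀ p ∈ m.primeFactorsList, p ∈ e.S := fun p k =>
    hm p (Nat.prime_of_mem_primeFactorsList k) (Nat.dvd_of_mem_primeFactorsList k)
  have h2 : 2 ∈ m.primeFactorsList := (Nat.mem_primeFactorsList m0.ne').2
    ⟨Nat.prime_two, ((List.dvd_prod e.two).mul_left _).trans dm⟩
  have s := sp_list hp b.ch.spl _ hL 1 ⊤ ⊤ one_pos sp_one (by simp)
  have s' := sp_list hp (fun p k => sp_symm b.iq.two (hp p k) (b.ch.spl p k)) _ hL 1 ⊤ ⊤ one_pos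
    sp_one (by simp)
  have s2 := (sp_list hp b.ch.spl (e.S ++ e.S ++ m.primeFactorsList) (fun p k => by
    simp only [List.mem_append, or_self] at k
    exact k.elim id (hL p)) _ _ _ e.rn.pos b.ch.lev b.ch.cop).cop
  have s3 := sp_sq hp b.ch.spl (fun _ => id) e.rn.pos b.ch.lev b.ch.cop
  simp only [List.map_append, List.prod_append] at s2
  rw [Nat.prod_primeFactorsList m0.ne', one_mul, Ideal.top_mul, Ideal.top_mul] at s s'
  have v := Ideal.le_of_dvd (List.dvd_prod (List.mem_map_of_mem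
    (f := fun p => below b.j (e.P p)) h2))
  have q := Ideal.le_of_dvd (List.dvd_prod (List.mem_map_of_mem (f := b.Q) h2))
  have ts : ∀ w : Ideal (𝓞 b.K), w.IsPrime → (m.primeFactorsList.map b.Q).prod ≤ w → tS b ≤ w := by
    intro w hw le
    rw [← Multiset.prod_coe] at le
    obtain ⟨I, hI, le⟩ := hw.multiset_prod_le.1 le
    obtain ⟨p, k, rfl⟩ := List.mem_map.1 (Multiset.mem_coe.1 hI)
    rcases eq_or_ne p 2 with rfl | n
    · exact Ideal.mul_le_left.trans le
    · obtain ⟨c, hc⟩ := (dvd_half e (hp p (hL p k))).2 ⟨hL p k, n⟩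
      refine Ideal.mul_le_right.trans ((Ideal.span_singleton_le_iff_mem _).2 ?_)
      rw [hc, Nat.cast_mul]
      exact w.mul_mem_right _ (le (sp_mem (b.ch.spl p (hL p k))).2)
  generalize (m.primeFactorsList.map fun p => below b.j (e.P p)).prod = n at *
  generalize (m.primeFactorsList.map b.Q).prod = n' at *
  have a2 := b.ch.spl 2 e.two
  have mx := max_of Nat.prime_two (cn_nm a2.cn)
  have mx' := max_of Nat.prime_two (nm' b.iq.two two_pos a2)
  obtain ⟨x, hx, ν, hν, e1⟩ := Submodule.mem_sup.1 ((Ideal.eq_top_iff_one _).1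
    (Ideal.isCoprime_iff_sup_eq.1 ((Ideal.isCoprime_iff_sup_eq.2 s.cop).pow (m := 2) (n := 2))))
  refine ⟨n, n', ν, ⟨m0, s.cop, s.mul, s.cn.2, s'.cn.2, cn_nm s.cn⟩, v, ?_, s3.cn, ?_, q,
    fun w hw k => ?_, ts, ?_, hν, ?_⟩
  · by_contra k
    exact mx.ne_top (top_le_iff.1 (s.cop ▸ sup_le v fun x hx => by_contra fun z => k ⟨x, hx, z⟩))
  · have c : IsCoprime (IM b.j b.I e.S e.P) n' := Ideal.isCoprime_iff_sup_eq.2 (top_le_iff.1
      (s2 ▸ sup_le_sup (by rw [← mul_assoc, ← pow_two]; exact Ideal.mul_le_left)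
        (by rw [← mul_assoc]; exact Ideal.mul_le_right)))
    refine Ideal.le_of_dvd ((c.pow_right (n := 2)).dvd_of_dvd_mul_right ?_)
    rw [← mul_pow, s.mul, Ideal.span_singleton_pow, Ideal.dvd_span_singleton]
    obtain ⟨t, rfl⟩ := dm
    rw [show ((e.N * e.S.prod * t : ℕ) : 𝓞 b.K) ^ 2 = (e.N * e.S.prod ^ 2 : ℕ) * (e.N * t ^ 2) by
      push_cast; ring]
    exact Ideal.mul_mem_right _ _ (sp_mem s3).1
  · have : below b.j (e.P 2) * b.Q 2 ≤ w := by
      rw [a2.mul, Ideal.span_singleton_le_iff_mem]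
      exact_mod_cast k
    exact (hw.mul_le.1 this).imp (fun h => (mx.eq_of_le hw.ne_top h).symm)
      fun h => (mx'.eq_of_le hw.ne_top h).symm
  · exact Nat.Coprime.symm (Nat.coprime_of_dvd fun p h d => nd b (hm p h d))
  · rw [show ν - 1 = -x by linear_combination e1]
    exact neg_mem hx

end Vale.Agent.P004C.Ln
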