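import Vale.Agent.P004C.Ln.Anac0
import Vale.Agent.P004C.Wa.Co
import Vale.Agent.P004C.Al.Cmb1

/-!
# P004 C, block LN: ideals of the imaginary quadratic field (tools for the row ANAC)
-/

open NumberField Module Ideal
open scoped Classical ComplexConjugate NumberTheorySymbols

noncomputable section

namespace Vale.Agent.P004C.Ln.Ac

open Wa (Kd Sp RC)

variable {K : Type} [Field K] [NumberField K] {ι : ℂ →+* ℂ_[2]} {J : K →+* ℂ} {Ω : ℝ}
  {V : AbsoluteValue ℂ ℝ}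

omit [NumberField K] in
theorem mem_dvd {w : Ideal (𝓞 K)} {a b : ℕ} (h : (a : 𝓞 K) ∈ w) (k : a ∣ b) : (b : 𝓞 K) ∈ w := by
  obtain ⟨t, rfl⟩ := k
  rw [Nat.cast_mul]
  exact w.mul_mem_right _ h

omit [NumberField K] in
theorem sup_top {I I' : Ideal (𝓞 K)} {a b : ℕ} (h : (a : 𝓞 K) ∈ I) (h' : (b : 𝓞 K) ∈ I')
    (k : a.Coprime b) : I ⊔ I' = ⊤ := by
  obtain ⟨u, v, e⟩ := (Nat.isCoprime_iff_coprime.2 k).map (Int.castRingHom (𝓞 K))
  rw [eq_top_iff_one, ← e]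
  simp only [eq_intCast, Int.cast_natCast]
  exact add_mem (mem_sup_left (I.mul_mem_left _ h)) (mem_sup_right (I'.mul_mem_left _ h'))

omit [NumberField K] in
theorem not_two {w : Ideal (𝓞 K)} (hw : w ≠ ⊤) {a : ℕ} (h : (a : 𝓞 K) ∈ w) (o : Odd a) :
    2 ∉ w := fun k => hw ((sup_idem w).symm.trans
  (sup_top h (b := 2) (by exact_mod_cast k) (Nat.coprime_two_right.2 o)))

omit [NumberField K] in
theorem ex_p {w : Ideal (𝓞 K)} (hw : w.IsPrime) {a : ℕ} (h0 : a ≠ 0) (h : (a : 𝓞 K) ∈ w) :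
    ∃ p : ℕ, p.Prime ∧ p ∣ a ∧ (p : 𝓞 K) ∈ w := by
  induction a using Nat.recOnMul with
  | zero => exact absurd rfl h0
  | one => exact absurd ((eq_top_iff_one _).2 (by simpa using h)) hw.ne_top
  | prime p hp => exact ⟨p, hp, dvd_rfl, h⟩
  | mul a b ha hb =>
    rw [Nat.cast_mul] at h
    rcases hw.mem_or_mem h with k | k
    · obtain ⟨p, h1, h2, h3⟩ := ha (left_ne_zero_of_mul h0) k
      exact ⟨p, h1, h2.mul_right _, h3⟩
    · obtain ⟨p, h1, h2, h3⟩ := hb (right_ne_zero_of_mul h0) k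
      exact ⟨p, h1, h2.mul_left _, h3⟩

omit [NumberField K] in
theorem coe_mul' (x y : 𝓞 K) : ((x * y : 𝓞 K) : K) = x * y := rfl

omit [NumberField K] in
theorem pv_iff {I : Ideal (𝓞 K)} : Pv ι J I ↔ ∃ s ∈ I, ‖ι (J s)‖ = 1 :=
  ⟨fun ⟨s, h, k⟩ => ⟨s, k, h⟩, fun ⟨s, h, k⟩ => ⟨s, k, h⟩⟩

theorem la_hc (B : Base ι J Ω) {h k : ℕ} {lam : Ideal (𝓞 K) → ℂ} (L : La J h k lam) :
    HC J (2 * h * k) ⊤ lam where
  one := (Cm.la_cm B L).one
  mul := (Cm.la_cm B L).mul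
  zero I := by
    simp only [le_top, sup_of_le_right, ne_eq, not_true_eq_false, or_false]
    refine ⟨fun e => by_contra fun hI => ?_, fun e => by rw [e, L.1]⟩
    obtain ⟨α, h1, h2⟩ := L.2 I hI
    have : α ≠ 0 := fun z => pow_ne_zero h hI (by rw [← h1, z]; simp)
    exact pow_ne_zero _ (inv_ne_zero (by simpa using this)) (h2.symm.trans e)
  prn x hx _ := by
    rw [Cm.la_eq B L (mt span_singleton_eq_bot.1 hx) (α := x ^ h) (span_singleton_pow _ _).symm,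
      Algebra.norm_self, mul_comm 2 h, mul_assoc, pow_mul _ h]
    simp

omit [NumberField K] in
theorem hc_swap {k k' : ℕ} {F : Ideal (𝓞 K)} {η ξ b b' : Ideal (𝓞 K) → ℂ}
    (h : HC J k F (Dp F fun I => η I * (ξ I * b I))) (hb : HC J k ⊤ b) (hb' : HC J k' ⊤ b') :
    HC J k' F (Dp F fun I => η I * (ξ I * b' I)) := by
  have z : ∀ I, b I = 0 ↔ I = ⊥ := fun I => by simpa using hb.zero I
  have z' : ∀ I, b' I = 0 ↔ I = ⊥ := fun I => by simpa using hb'.zero I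
  have e : (Dp F fun I => η I * (ξ I * b' I)) = fun I =>
      Dp F (fun I => η I * (ξ I * b I)) I * ((b I)⁻¹ * b' I) := funext fun I => by
    unfold Dp
    split_ifs
    · by_cases k : I = ⊥
      · simp [(z' I).2 k]
      · field_simp [mt (z I).1 k]
    · rw [zero_mul]
  rw [e]
  refine ⟨by rw [h.one, hb.one, hb'.one]; simp, fun I I' => ?_, fun I => ?_, fun x hx k => ?_⟩
  · rw [h.mul, hb.mul, hb'.mul, mul_inv]; ring
  · simp only [mul_eq_zero, inv_eq_zero, h.zero, z, z']; tauto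
  · rw [h.prn x hx k, hb.prn x hx trivial, hb'.prn x hx trivial, ← mul_assoc, mul_inv_cancel₀,
      one_mul]
    rw [Algebra.norm_self]
    exact pow_ne_zero _ (inv_ne_zero (by simpa using hx))

theorem la_near (hV : V2 V)
    (hx : ∀ x : 𝓞 K, V (J x) ≤ 1 ∧ (V (J x) = 1 → V (J x - 1) ≤ 1 / 2)) {h k : ℕ}
    {lam : Ideal (𝓞 K) → ℂ} (L : La J h k lam) {I : Ideal (𝓞 K)} (o : Odd (absNorm I)) :
    V (lam I - 1) ≤ 1 / 2 := by
  obtain ⟨α, h1, h2⟩ := L.2 I fun e => by simp [e] at o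
  obtain ⟨y, hy⟩ := mem_span_singleton'.1 (h1 ▸ pow_mem_pow (absNorm_mem I) h)
  have h3 : V (J y) * V (J α) = 1 := by
    rw [← V.map_mul, ← map_mul, ← coe_mul' y α, hy]
    simp [v_odd hV o]
  have h4 : V (J α) = 1 :=
    le_antisymm (hx α).1 (h3.ge.trans (mul_le_of_le_one_left (V.nonneg _) (hx y).1))
  have h5 : J α ≠ 0 := fun e => by simp [e] at h4
  have h6 : V (J α)⁻¹ ≤ 1 := by rw [map_inv₀, h4, inv_one]
  rw [h2]
  refine v_pow hV h6 ?_ _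
  rw [show (J α)⁻¹ - 1 = (J α)⁻¹ * -(J α - 1) by field_simp; ring]
  exact v_mul h6 (by rw [V.map_neg]; exact (hx α).2 h4)

/-- the smoothing prime -/
theorem ex_sm {D : ℕ} {θ : 𝓞 K} (h : Kd J D θ) {f : ℕ} {ψ : ℤ → ℂ} (hf : 1 < f) (c : Cr f ψ)
    (p : Cp f ψ) (hD : D.Coprime f) (t : ℕ) : ∃ (s : Ideal (𝓞 K)) (l : ℕ), Sm s l ∧ t < l ∧
      (l : 𝓞 K) ∈ s ∧ ψ l ≠ 0 ∧ ψ l ≠ 1 := by
  obtain ⟨k, -, k0, k1⟩ := p f.minFac (Nat.minFac_prime hf.ne') f.minFac_dvd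
  obtain ⟨u, v, e⟩ := Nat.isCoprime_iff_coprime.2 hD
  have kf : IsCoprime k (f : ℤ) := by_contra fun z => k0 ((c.zero k).2 z)
  have e1 : k * u * D + v * f = 1 + D * ((k - 1) * u) := by linear_combination e
  have e2 : k * u * D + v * f = k + f * ((1 - k) * v) := by linear_combination k * e
  have D0 : D ≠ 0 := h.sqf.ne_zero
  obtain ⟨l, h1, h2, h3⟩ := Nat.forall_exists_prime_gt_and_zmodEq (t + D + 2) (q := D * f)
    (a := k * u * D + v * f) (by positivity) (by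
      rw [Nat.cast_mul]
      exact IsCoprime.mul_right (e1 ▸ isCoprime_one_left.add_mul_left_left _)
        (e2 ▸ kf.add_mul_left_left _))
  rw [Nat.cast_mul] at h3
  have h4 : (l : ℤ) ≡ 1 [ZMOD D] := (h3.of_mul_right _).trans (e1 ▸ Int.modEq_add_fac_self)
  have h5 : (l : ℤ) ≡ k [ZMOD f] := (h3.of_mul_left _).trans (e2 ▸ Int.modEq_add_fac_self)
  have h6 : ψ l = ψ k := c.per _ _ h5.symm.dvd
  obtain ⟨P, P', s⟩ := Wa.Co.spl_of h h2 (fun z => by have := Nat.le_of_dvd (by omega) z; omega)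
    ((jacobiSym.mod_left' h4).trans (jacobiSym.one_left _))
  refine ⟨P, l, ⟨h2, by omega, s.n, fun z => s.ne ?_⟩, by omega, s.mem, h6 ▸ k0, h6 ▸ k1⟩
  rw [s.mul, sq, mul_dvd_mul_iff_left (fun z => h2.ne_zero (by rw [← s.n, z]; simp))] at z
  exact (s.m'.eq_of_le s.m.ne_top (le_of_dvd z)).symm

end Vale.Agent.P004C.Ln.Ac
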