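import Vale.Agent.P004C.Ln.St3
import Vale.Agent.P004C.Ln.Anac1

/-!
# P004 C, block LN: the primes of `m` and of the level ideal (row PRM)
-/

open NumberField Module Ideal
open scoped Classical

noncomputable section

namespace Vale.Agent.P004C.Ln

open Vale.Agent.P022 (Qb GQ GK below)
open P004K (Cn Cop)
open P004F (Crv Fld)
open Wa (Sp)

namespace Ac

theorem sp_cn {K : Type} [Field K] [NumberField K] {m : ℕ} {n n' : Ideal (𝓞 K)} (s : Sp m n n') :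
    Cn m n := by
  refine ⟨fun k => ?_, s.cn⟩
  have e : addOrderOf (1 : 𝓞 K ⧸ n) = m := by
    rw [← s.nm, absNorm_apply, Submodule.cardQuot_apply]
    refine addOrderOf_eq_card_of_forall_mem_zmultiples fun x => ?_
    obtain ⟨y, rfl⟩ := Ideal.Quotient.mk_surjective x
    obtain ⟨j, hj⟩ := s.cn y
    exact ⟨j, by simpa using (Ideal.Quotient.eq.2 hj).symm⟩
  rw [← e, addOrderOf_dvd_iff_zsmul_eq_zero, zsmul_one, ← Ideal.Quotient.eq_zero_iff_mem,
    map_intCast]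

end Ac

open Ac in
/-- **row PRM** -/
theorem prm (iot : IOT) (lvx : LVX) : PRM := by
  intro e b ι V pl m n n' ν lv sm ms
  obtain ⟨kd, o2, e2, -⟩ := lvx e b
  obtain ⟨hV, io⟩ := (iot _ (e.ov 2 e.two)).2 ι V pl
  have hx := (io b.K b.j b.δ' b.θ kd).2.1
  have m0 := lv.sp.pos
  have m2 : 2 ∣ m := (List.dvd_prod e.two).trans sm
  have v1 : ∀ x : 𝓞 b.K, x ∉ below b.j (e.P 2) → V (Jc b.j x) = 1 := fun x z =>
    le_antisymm (hx x).1 (not_lt.1 fun y => z ((hx x).2.1.1 y))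
  have t2 : ((2 : ℕ) : 𝓞 b.K) ∈ below b.j (e.P 2) := (hx _).2.1.1 (by
    rw [show Jc b.j (((2 : ℕ) : 𝓞 b.K) : b.K) = 2 from map_ofNat _ 2, hV.2]; norm_num)
  have t1 : (1 : 𝓞 b.K) ∉ below b.j (e.P 2) := fun y => by simpa using (hx 1).2.1.2 y
  have mn : (m : 𝓞 b.K) ∈ n := ((sp_cn lv.sp).1 m).2 dvd_rfl |> fun z => by simpa using z
  have ts : ∀ (w : Ideal (𝓞 b.K)) (p : ℕ), p.Prime → p ∈ e.S → p ≠ 2 → (p : 𝓞 b.K) ∈ w →
      tS b ≤ w := fun w p hp z y t => mul_le_right.trans ((span_singleton_le_iff_mem _).2 (mem_dvd t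
    (((Nat.coprime_primes hp Nat.prime_two).2 y).dvd_of_dvd_mul_left
      ((List.dvd_prod z).trans e2.symm.dvd))))
  obtain ⟨s₀, s1, s2⟩ := lv.v'
  refine ⟨⟨s₀, s1, v1 _ s2⟩, sp_cn lv.sp, fun I z => ⟨z.1, ?_, ?_⟩, fun I z => ⟨fun y => ?_,
    sup_top (absNorm_mem I) (mem_span_singleton_self _) z⟩, fun M _ _ _ w hw => ?_⟩
  · exact top_unique (z.2.ge.trans (sup_le_sup_left ((span_singleton_le_iff_mem _).2 mn) _))
  · by_contra y
    refine t1 ((z.2.ge.trans (sup_le (fun x k => by_contra fun t => y ⟨x, k, v1 x t⟩)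
      ((span_singleton_le_iff_mem _).2 (mem_dvd t2 m2)))) trivial)
  · rw [y, absNorm_bot, Nat.coprime_zero_left] at z
    omega
  have hp := hw.isPrime
  set u := w.comap (algebraMap (𝓞 b.K) (𝓞 M)) with hu
  have up : u.IsPrime := comap_isPrime _ _
  have c : ∀ a : ℕ, (a : 𝓞 b.K) ∈ u ↔ (a : 𝓞 M) ∈ w := fun a => by rw [hu, mem_comap, map_natCast]
  have c2 : (2 : 𝓞 b.K) ∈ u ↔ (2 : 𝓞 M) ∈ w := by exact_mod_cast c 2
  have av : Av ι (Jc b.j) w ↔ u ≤ below b.j (e.P 2) :=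
    ⟨fun z x y => by_contra fun t => z.2 ⟨x, (pl.eq _).symm.trans (v1 x t), y⟩,
      fun z => ⟨hw, fun ⟨x, t, y⟩ => ((hx x).2.1.2 (z y)).ne ((pl.eq _).trans t)⟩⟩
  simp only [map_le_iff_le_comap, ← hu, ← c, ← c2, av]
  refine ⟨lv.ts u up, fun p z hp y t => ts u p hp z y t, fun y => ?_⟩
  have r : tS b ≤ u → ((e.S.prod / 2 : ℕ) : 𝓞 b.K) ∈ u := fun t =>
    (up.mul_le.1 t).elim (fun q => absurd (lv.q2.trans q) y) (span_singleton_le_iff_mem _).1
  refine ⟨⟨fun t => ?_, fun t => ?_⟩, fun t => ⟨not_two up.ne_top (r t) o2, r t⟩⟩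
  · obtain ⟨p, p1, p2, p3⟩ := ex_p up m0.ne' t
    by_cases p4 : p = 2
    · subst p4
      exact (lv.two u up (by exact_mod_cast p3)).imp le_of_eq fun q => mul_le_left.trans q.ge
    · exact Or.inr (ts u p p1 (ms p p1 p2) p4 p3)
  · rcases t with t | t
    · have um : u.IsMaximal := isMaximal_comap_of_isIntegral_of_isMaximal w
      exact mem_dvd (a := 2) ((um.eq_of_le (fun k => t1 ((eq_top_iff_one _).1 k)) t).ge t2) m2
    · exact mem_dvd (r t) ((Dvd.intro_left 2 e2).trans sm)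

end Vale.Agent.P004C.Ln
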