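import Vale.Agent.P004C.Ln.Pv3a
import Vale.Agent.P004C.Wa.ThaC

/-!
# P004 C, block LN, row PV3: the twist of a ray class character by a Dirichlet character
-/

set_option autoImplicit false
set_option linter.all false

open NumberField Module Ideal Polynomial
open scoped Classical ComplexConjugate

noncomputable section

namespace Vale.Agent.P004C.Ln.Pv

open Wa (Kd Sp Sg RC Pm)
open Vale.Agent.P022.H724 (QB exists_qb)

variable {L : Type} [Field L] [NumberField L] {c : ℕ} {χ : ℤ → ℂ}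

theorem nm_per (B : QB L) {x y : 𝓞 L} {m : ℤ} (h : (m : 𝓞 L) ∣ x - y) :
    m ∣ Algebra.norm ℤ x - Algebra.norm ℤ y := by
  obtain ⟨z, hz⟩ := h
  obtain ⟨a, b, rfl⟩ := B.gen y
  obtain ⟨u, v, rfl⟩ := B.gen z
  rw [show x = ((a + m * u : ℤ) : 𝓞 L) + ((b + m * v : ℤ) : 𝓞 L) * B.ω by
    push_cast
    linear_combination hz, B.norm_eq, B.norm_eq]
  exact ⟨2 * a * u + m * u ^ 2 + B.q * (a * v + b * u + m * u * v) - B.p * (2 * b * v + m * v ^ 2),
    by ring⟩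

theorem cop_nm {I : Ideal (𝓞 L)} (c0 : c ≠ 0) :
    IsCoprime (absNorm I : ℤ) c ↔ I ⊔ span {(c : 𝓞 L)} = ⊤ := by
  refine ⟨fun ⟨a, b, e⟩ => (eq_top_iff_one _).2 ?_, fun e => Nat.isCoprime_iff_coprime.2
    (Nat.coprime_of_dvd fun p hp a b => ?_)⟩
  · have := congrArg (Int.cast : ℤ → 𝓞 L) e
    push_cast at this
    rw [← this]
    exact add_mem (mem_sup_left (mul_mem_left _ _ (absNorm_mem I)))
      (mem_sup_right (mul_mem_left _ _ (mem_span_singleton_self _)))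
  · obtain ⟨Q, q, m, d⟩ := Wa.Co.ex_max hp a
    obtain ⟨t, rfl⟩ := b
    refine q.ne_top (eq_top_iff.2 (e ▸ sup_le (le_of_dvd d) ((span_singleton_le_iff_mem _).2 ?_)))
    push_cast
    exact mul_mem_right _ _ m

/-- the sign of the norm, through `χ` -/
def sn (χ : ℤ → ℂ) (x : L) : ℂ := χ (SignType.sign (Algebra.norm ℚ x))

theorem neg_one (h : Cr c χ) : χ (-1) = 1 ∨ χ (-1) = -1 :=
  mul_self_eq_one_iff.1 (by rw [← h.mul, neg_mul_neg, one_mul, h.one])

theorem sn_mul (h : Cr c χ) (x y : L) : sn χ (x * y) = sn χ x * sn χ y := by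
  rw [sn, map_mul, sign_mul, SignType.coe_mul, h.mul, sn, sn]

theorem sn_pm (h : Cr c χ) {x : L} (hx : x ≠ 0) : sn χ x = 1 ∨ sn χ x = -1 := by
  rcases lt_or_gt_of_ne (Algebra.norm_ne_zero_iff.2 hx : Algebra.norm ℚ x ≠ 0) with e | e
  · simpa [sn, sign_neg e] using neg_one h
  · simp [sn, sign_pos e, h.one]

theorem sn_key (h : Cr c χ) {x : 𝓞 L} (hx : x ≠ 0) :
    conj (χ (absNorm (span {x}))) = conj (χ (Algebra.norm ℤ x)) * sn χ (x : L) := by
  have z : (x : L) ≠ 0 := by simpa using hx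
  have k : conj (sn χ (x : L)) = sn χ (x : L) := by rcases sn_pm h z with e | e <;> simp [e]
  rw [← k, ← map_mul, sn, ← h.mul, absNorm_span_singleton, ← Algebra.coe_norm_int]
  congr 2
  rcases lt_trichotomy (Algebra.norm ℤ x) 0 with e | e | e
  · rw [sign_neg (by exact_mod_cast e), Int.natCast_natAbs, abs_of_neg e]
    simp
  · simp [e]
  · rw [sign_pos (by exact_mod_cast e), Int.natCast_natAbs, abs_of_pos e]
    simp

/-- the new type at infinity -/
theorem ex_sg (h2 : finrank ℚ L = 2) (h : Cr c χ) {sg : L → ℂ} (hs : Sg sg) :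
    ∃ sg' : L → ℂ, Sg sg' ∧ ∀ x : 𝓞 L, x ≠ 0 → sg' x = sg x * sn χ (x : L) := by
  have n0 : ∀ x : 𝓞 L, x ≠ 0 → Algebra.norm ℚ (x : L) ≠ 0 := fun x hx =>
    Algebra.norm_ne_zero_iff.2 (by simpa using hx)
  rcases neg_one h with e | e
  · refine ⟨sg, hs, fun x hx => ?_⟩
    rcases lt_or_gt_of_ne (n0 x hx) with u | u
    · simp [sn, sign_neg u, e]
    · simp [sn, sign_pos u, h.one]
  rcases hs with ⟨i, k⟩ | ⟨σ, k⟩
  · refine ⟨sg, .inl ⟨i, k⟩, fun x hx => ?_⟩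
    obtain ⟨B⟩ := exists_qb h2
    have d := (Wa.Th.disc_neg h2).2 i
    have u : 0 < Algebra.norm ℚ (x : L) := lt_of_le_of_ne (by
      obtain ⟨a, b, rfl⟩ := B.gen x
      rw [← Algebra.coe_norm_int, B.norm_eq, Int.cast_nonneg_iff]
      rw [B.discr_eq] at d
      nlinarith [sq_nonneg (2 * a + B.q * b), mul_nonneg (neg_nonneg.2 d.le) (sq_nonneg b)])
      (n0 x hx).symm
    simp [sn, sign_pos u, h.one]
  · obtain ⟨τ, -, -, b⟩ := Wa.Co.aut2 ℚ L h2
    refine ⟨_, .inr ⟨σ.comp (τ : L →+* L), fun _ => rfl⟩, fun x hx => ?_⟩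
    have u : ((Algebra.norm ℚ (x : L) : ℚ) : ℝ) = σ x * σ (τ x) := by
      rw [← map_mul, ← b]
      simp
    have z : σ x ≠ 0 := by simpa using hx
    rw [k, sn]
    change ((SignType.sign (σ (τ x)) : ℝ) : ℂ) = _
    rcases lt_or_gt_of_ne (n0 x hx) with v | v
    · have w : σ x * σ (τ x) < 0 := by exact_mod_cast u ▸ (Rat.cast_lt_zero.2 v)
      rcases mul_neg_iff.1 w with ⟨p, q⟩ | ⟨p, q⟩
      · simp [sign_neg v, sign_pos p, sign_neg q, e]
      · simp [sign_neg v, sign_neg p, sign_pos q, e]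
    · have w : 0 < σ x * σ (τ x) := by exact_mod_cast u ▸ (Rat.cast_pos.2 v)
      rcases mul_pos_iff.1 w with ⟨p, q⟩ | ⟨p, q⟩
      · simp [sign_pos v, sign_pos p, sign_pos q, h.one]
      · simp [sign_pos v, sign_neg p, sign_neg q, h.one]

/-- `conj χ ∘ N` -/
def tw (χ : ℤ → ℂ) (I : Ideal (𝓞 L)) : ℂ := if I = ⊥ then 0 else conj (χ (absNorm I))

theorem tw_rc (h2 : finrank ℚ L = 2) (c0 : c ≠ 0) (h : Cr c χ) :
    RC (sn χ) (span {(c : 𝓞 L)}) (tw χ) where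
  ne := by simpa using c0
  one := by simp [tw, h.one]
  mul I I' := by
    by_cases a : I = ⊥
    · simp [tw, a]
    by_cases b : I' = ⊥
    · simp [tw, b]
    simp [tw, a, b, h.mul]
  zero I := by
    by_cases a : I = ⊥
    · simp [tw, a]
    · simp [tw, a, h.zero, cop_nm c0]
  prn x x0 x1 := by
    obtain ⟨B⟩ := exists_qb h2
    have := nm_per B (m := c) (by simpa using mem_span_singleton.1 x1)
    rw [tw, if_neg (by simpa using x0), sn_key h x0, h.per _ _ this, map_one, h.one, map_one,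
      one_mul]

/-- norms with a given residue -/
theorem ex_nm (h2 : finrank ℚ L = 2) {q : ℕ} (hq : q.Prime) (o : q ≠ 2)
    (d : ¬ q ∣ (discr L).natAbs) {P : Ideal (𝓞 L)} (hP : P.IsMaximal) (m : (q : 𝓞 L) ∈ P) (k : ℤ) :
    ∃ (g : Ideal (𝓞 L)) (y : 𝓞 L), span {(q : 𝓞 L)} = P * g ∧ y - 1 ∈ g ∧
      (q : ℤ) ∣ Algebra.norm ℤ y - k := by
  obtain ⟨B⟩ := exists_qb h2
  rcases Wa.Co.dec h2 hq with ⟨A, A', S⟩ | i | ⟨A, r⟩
  · obtain ⟨P', S⟩ : ∃ P', Wa.Co.Spl q P P' := by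
      rcases S.two hP m with rfl | rfl
      exacts [⟨_, S⟩, ⟨_, S.symm⟩]
    obtain ⟨u, hu, π, hπ, e⟩ := Submodule.mem_sup.1
      ((eq_top_iff_one _).1 (S.m.coprime_of_ne S.m' S.ne))
    obtain ⟨a, b, rfl⟩ := B.gen π
    have n : ((a ^ 2 + B.q * a * b - B.p * b ^ 2 : ℤ) : 𝓞 L) =
        (a + b * B.ω) * (a + B.q * b - b * B.ω) := by
      push_cast
      linear_combination (b : 𝓞 L) ^ 2 * B.rel
    have n1 := Wa.Co.int_dvd hq S.m'.ne_top S.symm.mem (n ▸ mul_mem_right _ _ hπ)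
    have n2 : (q : ℤ) ∣ 2 * a + B.q * b - 1 := Wa.Co.int_dvd hq hP.ne_top m (by
      obtain ⟨t, ht⟩ := n1
      rw [show ((2 * a + B.q * b - 1 : ℤ) : 𝓞 L) = q * t + u * (a + B.q * b - b * B.ω - 1) by
        rw [ht] at n
        push_cast at n ⊢
        linear_combination -n - (a + B.q * b - b * B.ω - 1) * e]
      exact add_mem (mul_mem_right _ _ m) (mul_mem_right _ _ hu))
    refine ⟨P', ((1 + (k - 1) * a : ℤ) : 𝓞 L) + (((k - 1) * b : ℤ) : 𝓞 L) * B.ω, S.mul, ?_, ?_⟩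
    · convert mul_mem_left _ ((k : 𝓞 L) - 1) hπ using 1
      push_cast
      ring
    · rw [B.norm_eq]
      exact ((n2.mul_left (k - 1)).add (n1.mul_left ((k - 1) ^ 2))).trans (dvd_of_eq (by ring))
  · haveI := Fact.mk hq
    have d0 : ((discr L : ℤ) : ZMod q) ≠ 0 := fun e =>
      d (Int.natCast_dvd.1 ((ZMod.intCast_zmod_eq_zero_iff_dvd _ _).1 e))
    obtain ⟨u, v, e⟩ := FiniteField.exists_root_sum_quadratic (R := ZMod q)
      (f := X ^ 2 - C (k : ZMod q)) (g := C (-(discr L : ZMod q)) * X ^ 2)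
      (degree_X_pow_sub_C (by decide) _) (degree_C_mul_X_pow 2 (neg_ne_zero.2 d0))
      (by rw [ZMod.card]; exact (hq.eq_two_or_odd).resolve_left o)
    obtain ⟨u, rfl⟩ := ZMod.intCast_surjective u
    obtain ⟨v, rfl⟩ := ZMod.intCast_surjective v
    refine ⟨⊤, ((u - B.q * v : ℤ) : 𝓞 L) + ((2 * v : ℤ) : 𝓞 L) * B.ω,
      by rw [mul_top, Wa.Co.ine_one i hP m], trivial, ?_⟩
    rw [B.norm_eq, ← ZMod.intCast_zmod_eq_zero_iff_dvd]
    simp only [eval_sub, eval_pow, eval_X, eval_C, eval_mul, B.discr_eq] at e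
    push_cast at e ⊢
    linear_combination e
  · exact absurd (r.dvd hq) d

theorem tw_pm (h2 : finrank ℚ L = 2) (c0 : c ≠ 0) (o : c.Coprime (2 * (discr L).natAbs))
    (sq : Squarefree c) (h : Cr c χ) (hp : Cp c χ) : Pm (sn χ) (span {(c : 𝓞 L)}) (tw χ) := by
  intro P f' hP e
  obtain ⟨B⟩ := exists_qb h2
  have cP : (c : 𝓞 L) ∈ P := mul_le_left (e ▸ mem_span_singleton_self _)
  obtain ⟨q, hq, qc, m⟩ : ∃ q : ℕ, q.Prime ∧ q ∣ c ∧ (q : 𝓞 L) ∈ P := by
    have := Nat.prod_primeFactors_of_squarefree sq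
    rw [← this, Nat.cast_prod] at cP
    obtain ⟨q, a, b⟩ := (IsPrime.prod_mem_iff (hp := hP.isPrime)).1 cP
    exact ⟨q, Nat.prime_of_mem_primeFactors a, Nat.dvd_of_mem_primeFactors a, b⟩
  obtain ⟨k, k1, k0, kn⟩ := hp q hq qc
  have nd : ¬ q ∣ 2 * (discr L).natAbs := (hq.coprime_iff_not_dvd).1 (o.coprime_dvd_left qc)
  obtain ⟨g, y, eg, y1, yn⟩ := ex_nm h2 hq (fun u => nd (u ▸ dvd_mul_right _ _))
    (fun u => nd (u.mul_left _)) hP m k
  obtain ⟨r, rfl⟩ := qc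
  rw [Nat.mul_div_cancel_left _ hq.pos] at k1
  have cop : IsCoprime (q : ℤ) r := Nat.isCoprime_iff_coprime.2 (Nat.coprime_of_squarefree_mul sq)
  obtain ⟨a, b, ab⟩ := id cop
  have ab' := congrArg (Int.cast : ℤ → 𝓞 L) ab
  push_cast at ab'
  have ef : f' = g * span {(r : 𝓞 L)} := mul_left_cancel₀ (a := P)
    (fun u => c0 (by simpa [u] using cP)) (by
      rw [← e, ← mul_assoc, ← eg, span_singleton_mul_span_singleton, Nat.cast_mul])
  set x : 𝓞 L := 1 + (y - 1) * (b * r) with hx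
  have xn : ((q * r : ℕ) : ℤ) ∣ Algebra.norm ℤ x - k := by
    push_cast
    refine cop.mul_dvd ?_ ?_
    · have := nm_per B (x := x) (y := y) (m := q) ⟨a * (1 - y), by
        push_cast
        linear_combination (y - 1) * ab'⟩
      simpa using this.add yn
    · have := nm_per B (x := x) (y := 1) (m := r) ⟨b * (y - 1), by
        push_cast
        ring⟩
      simpa using this.sub k1
  have xP : x ∉ P := fun u => by
    have := Wa.Co.int_dvd hq hP.ne_top m (z := Algebra.norm ℤ x) (by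
      obtain ⟨i, j, w⟩ := B.gen x
      rw [w, B.norm_eq, show ((i ^ 2 + B.q * i * j - B.p * j ^ 2 : ℤ) : 𝓞 L) =
        (i + j * B.ω) * (i + B.q * j - j * B.ω) by
          push_cast
          linear_combination (j : 𝓞 L) ^ 2 * B.rel]
      exact mul_mem_right _ _ (w ▸ u))
    refine k0 ((h.per _ _ xn).symm.trans ((h.zero _).2 fun v => ?_))
    exact (Nat.prime_iff_prime_int.1 hq).not_unit (v.isUnit_of_dvd' this (by simp))
  have x0 : x ≠ 0 := fun u => xP (u ▸ zero_mem _)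
  refine ⟨x, ?_, xP, x0, fun u => kn ?_⟩
  · rw [ef, hx, add_sub_cancel_left]
    exact mul_mem_mul y1 (mul_mem_left _ _ (mem_span_singleton_self _))
  · rw [tw, if_neg (by simpa using x0), sn_key h x0, h.per _ _ xn, mul_eq_right₀ (by
      rcases sn_pm h (x := (x : L)) (by simpa using x0) with w | w <;> simp [w])] at u
    simpa using congrArg conj u

/-- **the twist** -/
theorem twl (hX : HEX) (h2 : finrank ℚ L = 2) {sg : L → ℂ} {f : Ideal (𝓞 L)}
    {ψ : Ideal (𝓞 L) → ℂ} (hs : Sg sg) (r : RC sg f ψ) (p : Pm sg f ψ) {m : ℕ}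
    (hm : (m : 𝓞 L) ∈ f) (hd : (discr L).natAbs ∣ m) (m2 : 2 ∣ m) (c0 : 0 < c) (cm : c.Coprime m)
    (sq : Squarefree c) (h : Cr c χ) (hp : Cp c χ) :
    ∃ sg', Sg sg' ∧ RC sg' (f * span {(c : 𝓞 L)}) (fun I => ψ I * conj (χ (absNorm I))) ∧
      Pm sg' (f * span {(c : 𝓞 L)}) fun I => ψ I * conj (χ (absNorm I)) := by
  obtain ⟨sg', s', e⟩ := ex_sg h2 h hs
  have co : f ⊔ span {(c : 𝓞 L)} = ⊤ := by
    rw [sup_comm]
    exact_mod_cast Wa.Th.cop_int hm (Nat.isCoprime_iff_coprime.2 cm)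
  obtain ⟨a, b⟩ := ((hX L).2 sg (Wa.Th.sg_mul hs)
    (fun x hx u => by simpa [u] using Wa.Th.sg_sq hs hx) f ψ r).2.2.2 (sn χ) _ (tw χ) (sn_mul h)
    (fun x hx => by rcases sn_pm h hx with w | w <;> simp [w]) (tw_rc h2 c0.ne' h) co
  replace b := b p (tw_pm h2 c0.ne' ((cm.coprime_dvd_right m2).mul_right
    (cm.coprime_dvd_right hd)) sq h hp)
  have u : (fun I => ψ I * tw χ I) = fun I => ψ I * conj (χ (absNorm I)) := funext fun I => by
    by_cases i : I = ⊥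
    · rw [(r.zero I).2 (.inl i), zero_mul, zero_mul]
    · rw [tw, if_neg i]
  rw [u] at a b
  refine ⟨sg', s', ⟨a.ne, a.one, a.mul, a.zero, fun x x0 x1 => (a.prn x x0 x1).trans (e x x0).symm⟩,
    fun P f' hP k => ?_⟩
  obtain ⟨x, x1, x2, x0, x3⟩ := b P f' hP k
  exact ⟨x, x1, x2, x0, by rwa [e x x0]⟩

end Vale.Agent.P004C.Ln.Pv
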