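import Vale.Agent.P004C.Ln.Pv3c
import Vale.Agent.P004C.Ln.Pv3t

/-! # P004 C, block LN: the row `PV3` -/

open NumberField Module Ideal UpperHalfPlane
open scoped Classical ComplexConjugate Real

noncomputable section

namespace Vale.Agent.P004C.Ln

open Wa Wa.Co Wa.Re0 Wa.Re1 Pv Pw

theorem pv3 (hW : WALD) (hT : THG) (hF : FRK) (hK : THK) (hI : TWI) (hX : HEX) (hY : XI) :
    PV3 := by
  intro V hV K _ _ J D θ h L _ _ h2 M _ _ _ _ hM dj sg f ψ hS hψ f1 pm a2 m₀ m c n n' w w' ε ξ b ν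
    m0 t0 pr dv hs hw sq cm dm ⟨y, y0, y1⟩ hε hg eε hξ hb n1 n2 F hF'
  have hL := rk2 h h2 hM
  have B : Bq K L M := ⟨h.two, h2, hM, hL, fun x y e => (dj x y e).imp fun q k =>
    ⟨k, (algebraMap K M).injective (by rw [← e, k, map_ratCast, map_ratCast])⟩⟩
  obtain ⟨χ, hχ, pχ, rel⟩ := hY.2 K c w w' ξ hw sq hξ
  have d0 := (dvd_mul_left _ _).trans dv
  have t2 := t0.trans d0
  have m1 : 1 < m := Nat.le_of_dvd hs.pos t2
  have c1 := cm.coprime_mul_right_right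
  have c2 := c1.coprime_dvd_right t2
  have vc := v_odd hV (Nat.coprime_two_right.1 c2)
  have S := sp_mul hs hw c1
  have mc : 1 < m * c := m1.trans_le (Nat.le_mul_of_pos_right _ hw.pos)
  obtain ⟨sg', hS', r', pm'⟩ := twl hX h2 hS hψ pm (by
    obtain ⟨e, rfl⟩ := d0
    exact Nat.cast_mul (α := 𝓞 L) _ _ ▸ f.mul_mem_right _ m0) ((dvd_mul_right _ _).trans dv) t2
    hw.pos c1 sq hχ pχ
  have g1 : f * span {(c : 𝓞 L)} ≠ ⊤ := fun e => f1 (top_le_iff.1 (e.ge.trans mul_le_left))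
  have m2 : ((m₀ * c : ℕ) : 𝓞 L) ∈ f * span {(c : 𝓞 L)} :=
    Nat.cast_mul (α := 𝓞 L) _ _ ▸ mul_mem_mul m0 (mem_span_singleton_self _)
  have p2 : ∀ p : ℕ, p.Prime → p ∣ m * c → p ∣ m₀ * c := fun p p1 d =>
    (p1.dvd_mul.1 d).elim (fun d => (pr p p1 d).mul_right _) fun d => d.mul_left _
  have d2 : (discr L).natAbs * (m₀ * c) ∣ m * c := mul_assoc _ m₀ c ▸ mul_dvd_mul_right dv c
  obtain ⟨-, q', -, th⟩ := hT L h2 sg' _ _ hS' r' g1
  obtain ⟨ε', hε', mw, hk, pp⟩ := th (m₀ * c) (m * c) S.pos m2 (t0.mul_right _) p2 d2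
  have z0 : ∀ d : ℤ, ¬ IsCoprime d (m * c : ℕ) → ε' d = ε d * conj (χ d) ^ 2 := fun d p => by
    rw [(hε'.zero d).2 p]
    rw [Nat.cast_mul, IsCoprime.mul_right_iff, not_and_or, ← hε.zero, ← hχ.zero] at p
    rcases p with p | p <;> simp [p]
  have e' : ∀ d, ε' d = ε d * conj (χ d) ^ 2 := ext_p hε'.mul (fun a b => by
      rw [hε.mul, hχ.mul, map_mul]; ring) (z0 0 fun p => mc.ne'
      (Int.isUnit_iff_natAbs_eq.1 (isCoprime_zero_left.1 p)))
    (by simp [hε'.one, hε.one, hχ.one])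
    (by rcases neg_one hχ with e | e <;> simp [hε'.odd, hε.odd, e]) fun p p1 => by
      by_cases k : p.Coprime (m * c)
      · rw [(pp p p1 k).1, eε p p1 k.coprime_mul_right_right, nm_span h2, Nat.cast_pow, pow_two,
          hχ.mul, map_mul]
        ring
      · exact z0 p (mt Nat.isCoprime_iff_coprime.1 k)
  obtain ⟨a, ha, aa⟩ := ex_a hX h hs hw c1 m1 hε hχ hξ rel hb e'
  obtain ⟨_, u1, ν', u2, u⟩ := Submodule.mem_sup.1 ((eq_top_iff_one _).1 (isCoprime_iff_sup_eq.1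
    ((isCoprime_iff_sup_eq.2 S.cop).pow (m := 2) (n := 2))))
  have u3 : ν' - 1 ∈ (n * w) ^ 2 := by rw [← u]; simpa using u1
  obtain ⟨R, hR⟩ : ∃ R : ClassGroup (𝓞 K) → Ideal (𝓞 K), Rc (m * c) R := by
    have : ∀ C : ClassGroup (𝓞 K), ∃ I, I ≠ ⊥ ∧ cl I = C ∧ (absNorm I).Coprime (m * c) := fun C => by
      obtain ⟨⟨I, i⟩, rfl⟩ := ClassGroup.mk0_surjective C
      obtain ⟨I', x, z, k1, k2, k3, k4, -, -, k⟩ := (hX K).1 ⊤ I (span {((m * c : ℕ) : 𝓞 K)})
        top_ne_bot (nonZeroDivisors.ne_zero i) (sup_top_eq _) (by simpa using S.pos.ne')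
      refine ⟨I', k1, ?_, (cop_iff _ _).1 k2⟩
      rw [cl, dif_neg k1, ClassGroup.mk0_eq_mk0_iff]
      exact ⟨z, x, k4, k3, k.symm⟩
    choose R a b d using this
    exact ⟨R, a, b, d⟩
  obtain ⟨κ, vκ, tw⟩ := hI K J D θ h m c n n' w w' ε ε' χ _ _ _ ξ b a ν ν' R hs hw sq
    (mul_assoc 2 m D ▸ c2.mul_right cm) dm hε hg ((hT L h2 sg f ψ hS hψ f1).2.1 m) hξ hχ pχ rel e' mw
    (cast (congrArg _ (funext fun i => co_of fun I k => by
      rw [dp, dp, k]
      by_cases p : i.Coprime m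
      · by_cases q : i.Coprime c
        · rw [if_pos p, if_pos (p.mul_right q)]
        · simp [(hχ.zero i).2 (mt Nat.isCoprime_iff_coprime.1 q)]
      · rw [if_neg p, if_neg fun q => p q.coprime_mul_right_right, zero_mul])) (q' (m * c))) hb ha aa
    n1 n2 u2 u3 hR
  have cw : span {(c : 𝓞 M)} ≤ w'.map (algebraMap _ _) :=
    map_p (L := K) (M := M) c ▸ map_mono ((span_singleton_le_iff_mem _).2 (Cj.sp_m hw).2)
  have F1 : F ≤ (f * span {(c : 𝓞 L)}).map (algebraMap _ _) := by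
    rw [hF', Ideal.map_mul, map_p]
    exact mul_mono_left mul_le_left
  have F2 : F ≤ (n' * w').map (algebraMap _ _) := by
    rw [hF', Ideal.map_mul]
    exact Ideal.mul_mono mul_le_right cw
  have rφ := rc_bar hS' r'
  have hc0 := hcm h h2 hM dj hS' rφ ha.hc
  have hc : HC J 1 F (cM M (fun I => conj (ψ I * conj (χ (absNorm I)))) a) := by
    refine ⟨hc0.one, hc0.mul, fun I => (hc0.zero I).trans (or_congr_right (not_congr ⟨fun e => ?_,
      fun e => cop_mul.2 ⟨top_le_iff.1 (e.ge.trans (sup_le_sup_left F1 _)),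
        top_le_iff.1 (e.ge.trans (sup_le_sup_left F2 _))⟩⟩)), fun x x0 x1 => ?_⟩
    · rw [Ideal.map_mul, Ideal.map_mul, map_p] at e
      simp only [hF', cop_mul] at e ⊢
      exact ⟨⟨e.1.1, e.2.1⟩, e.1.2⟩
    · rw [cM, relNorm_singleton, relNorm_singleton, rφ.prn _ (nm0 x0) (nm1 hL (F1 x1)),
        ha.hc.prn _ (nm0 x0) (nm1 hM (F2 x1)), coe_nm, coe_nm, Algebra.norm_self]
      rcases hS' with ⟨-, e⟩ | ⟨σ, e⟩
      · rw [e, one_mul]; rfl
      · rw [e, sign_pos (pos h hL dj σ (by simpa using x0))]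
        simp
  obtain ⟨z, ac, ez⟩ := core hW hT hF hK hV h B hS' r' g1 pm' (by
      have k : span {(c : 𝓞 L)} ⊔ span {2} = ⊤ :=
        sup_top c2 (mem_span_singleton_self _) (by simp)
      refine a2.imp (fun e => ?_) fun ⟨e, f', e1, e2⟩ => ⟨e, _, by rw [e1, mul_assoc], ?_⟩ <;>
        rw [sup_comm] at * <;> exact cop_mul.2 ⟨‹_›, k⟩) m2 p2 d2 mc S
    (dm.mul_right cm.coprime_mul_left_right.symm) (y := y * c) (mul_mem_mul y0 (Cj.sp_m hw).2)
    (by simpa [vc] using y1) hε' mw hk pp ha u2 u3 hR F1 F2 hc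
  refine ⟨_, z, hc, ac, fun I p => ?_, fun β _ A hA => ?_⟩
  · have := cr_cj hχ hw.pos ((hχ.zero (absNorm I)).not.2
      (not_not.2 (Nat.isCoprime_iff_coprime.2 p.coprime_mul_left_right)))
    rw [cM, aa _ (by rwa [absNorm_relNorm]), absNorm_relNorm, absNorm_relNorm, map_mul,
      Complex.conj_conj]
    linear_combination conj (ψ (relNorm (𝓞 L) I)) * (ξ (relNorm (𝓞 K) I) * b (relNorm (𝓞 K) I)) *
      ε (absNorm I) * this
  · rw [tw β A hA, mul_left_comm, map_mul, vκ V hV, one_mul, map_mul absNorm, nm_span h2,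
      ← mul_assoc (discr L).natAbs, Nat.cast_mul, Nat.cast_pow, map_mul V _ (_ ^ 2), map_pow, vc, one_pow, mul_one] at ez
    rw [ez, Ef, Ef]
    refine congrArg (_ * · * _) (finprod_mem_congr (Set.ext fun Q => and_congr_right fun q =>
      and_congr_left fun k => ?_) fun _ _ => rfl)
    rw [Nat.cast_mul, q.isPrime.mul_mem_iff_mem_or_mem, or_iff_left fun j => q.ne_top ?_]
    rw [← k, sup_eq_left.2 (hF' ▸ mul_le_right.trans ((span_singleton_le_iff_mem _).2 j))]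

end Vale.Agent.P004C.Ln
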