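import Vale.Agent.P004C.Ln.St2
import Vale.Agent.P004K.Bas

/-!
# P004 C, block LN: if the anchor fails then the period is small
-/

set_option linter.all false

open NumberField Module UpperHalfPlane
open scoped Classical Real

noncomputable section

namespace Vale.Agent.P004C.Ln

open Vale.Agent.P022 (Qb GQ GK below)
open Vale.Agent.P027H Vale.Agent.P027M.M
open P004K (Cn Cop HG1 CJ0 jL)
open P004F (Crv Fld)
open P004F.Qx (IM QEXP)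

namespace Sm0

variable {V : AbsoluteValue ℂ ℝ}

theorem sum_le (hV : IsNonarchimedean V) {κ : Type} (s : Finset κ) {f : κ → ℂ} {C : ℝ} (h0 : 0 ≤ C)
    (h : ∀ i ∈ s, V (f i) ≤ C) : V (∑ i ∈ s, f i) ≤ C :=
  Finset.sum_induction f (fun x => V x ≤ C) (fun a b ha hb => (hV a b).trans (max_le ha hb))
    (by rwa [V.map_zero]) h

theorem rt {ζ : ℂ} {n : ℕ} (hn : n ≠ 0) (h : ζ ^ n = 1) : V ζ = 1 :=
  (pow_eq_one_iff_of_nonneg (V.nonneg ζ) hn).1 (by rw [← V.map_pow, h, V.map_one])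

theorem le_one (hV : IsNonarchimedean V) {x : ℂ} (h : V (x - 1) ≤ 1) : V x ≤ 1 := by
  have := hV (x - 1) 1
  rw [sub_add_cancel, V.map_one] at this
  exact this.trans (max_le h le_rfl)

/-- the size of the period -/
theorem om {Λ : Submodule ℤ ℂ} {Ω : ℝ} {Ω₀ : ℂ} (h0 : 0 < Ω)
    (h : Ω ^ 12 = V (g2 Λ ^ 3 - 27 * g3 Λ ^ 2)) (hj : V (jL Λ) = 1) (e : Ω₀ ^ 4 = 12 * g2 Λ) :
    V Ω₀ = Ω := by
  refine (pow_left_inj₀ (V.nonneg _) h0.le (by norm_num : 12 ≠ 0)).1 ?_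
  rw [jL, map_div₀, ← h, div_eq_one_iff_eq (pow_pos h0 _).ne'] at hj
  rw [← hj, ← V.map_pow, show Ω₀ ^ 12 = (Ω₀ ^ 4) ^ 3 by ring, e]
  congr 1
  ring

theorem cop_l {O : Type} [CommRing O] {c m : ℕ} {I : Ideal O} (h : Cop (c * m) I) : Cop c I :=
  ⟨h.1, top_le_iff.1 (h.2 ▸ sup_le_sup_left (Ideal.span_singleton_le_span_singleton.2
    (Nat.cast_dvd_cast (dvd_mul_right c m))) I)⟩

theorem cop_r {O : Type} [CommRing O] {c m : ℕ} {I : Ideal O} (h : Cop (c * m) I) : Cop m I :=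
  cop_l (mul_comm c m ▸ h)

theorem fin (hV : IsNonarchimedean V) {κ : Type} [Fintype κ] {z β X y : κ → ℂ} {p w : ℂ}
    {δ₀ δ₁ a : ℝ} (hz : ∀ i, V (z i) = 1) (hβ : ∀ i, V (β i - 1) ≤ δ₁) (d1 : δ₁ ≤ 1)
    (hy : ∀ i, V (y i) ≤ 1 ∧ V (p * X i - w * y i) ≤ δ₀ * V w) (s : V (∑ i, z i * y i) ≤ a)
    (h0 : δ₀ ≤ a) (h1 : δ₁ ≤ a) : V (p * ∑ i, z i * β i * X i) ≤ V w * a := by
  have a0 := (V.nonneg _).trans s
  have w0 := V.nonneg w
  rw [show p * ∑ i, z i * β i * X i = w * ∑ i, z i * y i +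
      ∑ i, z i * (β i * (p * X i - w * y i) + (β i - 1) * (w * y i)) by
    rw [Finset.mul_sum, Finset.mul_sum, ← Finset.sum_add_distrib]
    exact Finset.sum_congr rfl fun i _ => by ring]
  refine (hV _ _).trans (max_le ?_ (sum_le hV _ (mul_nonneg w0 a0) fun i _ => ?_))
  · rw [V.map_mul]
    exact mul_le_mul_of_nonneg_left s w0
  · rw [V.map_mul, hz, one_mul]
    refine (hV _ _).trans (max_le ?_ ?_) <;> simp only [V.map_mul]
    · refine (mul_le_of_le_one_left (V.nonneg _) (le_one hV ((hβ i).trans d1))).trans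
        ((hy i).2.trans ?_)
      rw [mul_comm]
      exact mul_le_mul_of_nonneg_left h0 w0
    · rw [mul_comm]
      exact mul_le_mul (mul_le_of_le_one_right w0 (hy i).1) ((hβ i).trans h1) (V.nonneg _) w0

end Sm0

open Sm0

theorem sml (qe : QEXP) (lkg : LKG) (sum : SUM) (xi : XI) (iot : IOT) (lvx : LVX) (hg1 : HG1)
    (cj : CJ0) : SML := by
  intro e ι V pl m k r ε G A ρ m0 dm hm cr rt' law hG ρ1 hA
  have hp : ∀ p ∈ e.S, p.Prime := fun p k => (e.ov p k).1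
  have v2 := ((iot _ (e.ov 2 e.two)).2 ι V pl).1
  have hV := v2.1
  obtain ⟨u, hu, s, hs, hq, h1⟩ := qe _ _ _ _ _ _ _ _ _ _ e.rn e.par e.S e.nd hp
  obtain ⟨T₁, h1⟩ := h1 e.P fun p k => (e.ov p k).2
  have dM : e.N * e.S.prod ^ 2 ∣ m ^ 2 :=
    (Dvd.intro e.N (by ring)).trans (pow_dvd_pow_of_dvd dm 2)
  have hM := Nat.pos_of_dvd_of_pos dM (pow_pos m0 2)
  obtain ⟨T₂, δ₀, d0, h2⟩ := lkg V _ (e.ov 2 e.two) v2 pl.vp _ m k r m0 dM u hu s hs (hq 2 e.two).1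
    ε G A ρ cr rt' law hG ρ1 (hA s (hq 2 e.two).2)
  refine ⟨max T₁ T₂, fun b hb Ω ba n n' ν lv β δ₁ d1 hβ => ⟨max (max δ₀ δ₁) (1 / 2),
    max_lt (max_lt d0 d1) (by norm_num), le_max_right _ _, le_max_of_le_left (le_max_right _ _),
    fun n₀ c χ ζ ξ l ly an => ?_⟩⟩
  obtain ⟨Ω₀, hΩ⟩ := IsAlgClosed.exists_pow_nat_eq (12 * g2 (Lk (Jc b.j))) (by norm_num : 0 < 4)
  obtain ⟨j1, h2⟩ := h2 _ (le_of_max_le_right hb) b.K b.j b.θ (lvx e b).1 n n' _ ν Ω₀ lv.sp lv.v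
    lv.cn lv.im lv.nu lv.nu1 hΩ
  have eΩ := om ba.pos (ba.per.trans (pl.eq _).symm) j1 hΩ
  have c0 : 0 < c := Nat.pos_of_ne_zero ly.sq.ne_zero
  have cm : c.Coprime m := Nat.coprime_of_dvd fun p h d d' => (ly.out p h d).1 (hm p h d')
  have cp := cm.coprime_dvd_right dm
  obtain ⟨T, an⟩ := not_forall.1 an
  obtain ⟨tv, an⟩ := Classical.not_imp.1 an
  obtain ⟨B, ro, ar⟩ := (xi.1 e b n₀ c χ ζ ly.ad ly.sq ly.rt).2.2 T m m0 tv
  obtain ⟨τ, hτ⟩ := (hg1 b.K b.j b.iq _ c _ hM c0 ((cm.pow_right 2).coprime_dvd_right dM) lv.cn).1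
  have key : ∀ g : T, V (io (hh b c g)) ≤ 1 ∧ V ((2 * π) ^ k * Wa.lf k (m ^ 2) G
      (P004K.st (Jo (Jc b.j)) (B g) (P004K.Oc (Jo (Jc b.j)) c)) (c * Jc b.j ν / (m ^ 2 : ℕ)) -
      Ω₀ ^ k * io (hh b c g)) ≤ δ₀ * V Ω₀ ^ k := fun g => by
    obtain ⟨σ, hσ⟩ := P004K.ex_ex g
    obtain ⟨τ', c'⟩ := (cj σ _ hM).1 τ
    exact h2 c (B g) g σ τ τ' _ c0 cm (ro.cop g) (ar g) hσ hτ c' ((h1 b.δ' (le_of_max_le_left hb)
      b.adm.sq b.K b.j b.iq b.θ b.th _ _ _ _ b.ch c c0 cp _ (b.hg c c0 cp.coprime_mul_right_right)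
      g (tv.1 g g.2) 2 e.two).2 σ τ τ' hσ hτ c')
  have z1 : V ζ = 1 := rt (pow_ne_zero _ two_ne_zero) ly.rt
  have s1 := sum e b V v2 pl.vp c l χ ζ T c0 cp (by
      have := hV ζ (-1)
      rwa [V.map_neg, V.map_one, z1, max_self, ← sub_eq_add_neg] at this)
    (fun g hg => ⟨tv.1 g hg, (pl.vp.2 _).1.2 (key ⟨g, hg⟩).1⟩)
    fun i hi => by_contra fun z => an ⟨i, hi, z⟩
  refine ⟨T, inferInstance, B, ro, ?_⟩
  rw [← Finset.sum_coe_sort] at s1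
  have hξ : ∀ g : T, ξ (B g) = ζ ^ χ g := fun g => ly.xi.1 _ _ (cop_l (ro.cop g)) (ar g)
  simp only [← hξ] at s1
  rw [← V.map_pow] at key
  rw [← eΩ, ← V.map_pow]
  exact fin hV (fun g => by rw [hξ, V.map_pow, z1, one_pow]) (fun g => hβ _ (cop_r (ro.cop g)))
    d1.le key (s1.trans (max_le_max_right _ (le_max_right _ _)))
    (le_max_of_le_left (le_max_of_le_left (le_max_left _ _)))
    (le_max_of_le_left (le_max_of_le_left (le_max_right _ _)))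

end Vale.Agent.P004C.Ln
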