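import Vale.Agent.P004C.Ln.St

/-!
# P004 C, block LN: divisibility by a power of `T` gives small sums
-/

open NumberField Finset
open scoped Classical

noncomputable section

namespace Vale.Agent.P004C.Ln

open Vale.Agent.P022 (Qb GQ GK below)
open Vale.Agent.P027H Vale.Agent.P027M.M Vale.Agent.P022.H218.L3 Vale.Agent.P022.H236.L3
open P004K (Cop Iq Ar Hc Ip Zp RC2)
open Vale.Agent.P027M.S (Inert)
open P004M.TE (Pt ga ga_mul)
open P004F.Qx (zf dep op gE UNV)

namespace Su

/-- inertia outside `c` fixes the ring class field -/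
theorem in_hc (r2 : RC2) {K : Type} [Field K] [NumberField K] {j : K →+* Qb} (iq : Iq K) {c q : ℕ}
    (hc : 0 < c) (hq : q.Coprime c) {P : Ideal (𝓞 Qb)} (hP : P022E.GW.Ov q P) {g : GQ}
    (hg : g ∈ GK j) (h : Inert P g) : g ∈ Hc j c := by
  obtain ⟨-, -, -, -, r5, -, r7⟩ := r2 K j iq c hc
  have n : (c : 𝓞 Qb) ∉ P := fun k => by
    obtain ⟨u, v, e⟩ := hq.cast (R := 𝓞 Qb)
    exact hP.2.1.ne_top ((Ideal.eq_top_iff_one _).2
      (e ▸ add_mem (P.mul_mem_left u hP.2.2) (P.mul_mem_left v k)))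
  have a := r7 P hP.2.1 (fun k => hP.1.ne_zero (by simpa [k] using hP.2.2)) n g hg 0
    fun x => by simpa using h x
  exact (r5 _ g ⟨by simp, by simp⟩ a).2 ⟨1, 0, by simp⟩

theorem zf_ga {A B : ℤ} (g : GQ) (y : Pt A B) : zf (ga g y) = g (zf y) := by
  rcases y with _ | ⟨x, y, h⟩
  · exact (congrArg zf (map_zero (ga g))).trans (map_zero g).symm
  · rw [P004M.TE.ga_some]
    simp [zf]

/-- the points which are fixed by a subgroup -/
def Fx (A B : ℤ) (H : Subgroup GQ) : AddSubgroup (Pt A B) where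
  carrier := {y | ∀ h ∈ H, ga h y = y}
  zero_mem' h _ := map_zero _
  add_mem' a b h k := by rw [map_add, a h k, b h k]
  neg_mem' a h k := by rw [map_neg, a h k]

theorem fx_ga {A B : ℤ} {H : Subgroup GQ} (n : H.Normal) (g : GQ) {y : Pt A B}
    (h : y ∈ Fx A B H) : ga g y ∈ Fx A B H := fun s k => by
  conv_rhs => rw [← h _ (n.conj_mem' s k g)]
  rw [← ga_mul, ← ga_mul, ← mul_assoc, mul_inv_cancel_left]

theorem fx_dep {A B : ℤ} {H : Subgroup GQ} (n : H.Normal) (N w : ℕ) (a : ℕ → ℤ) (S : List ℕ)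
    (φ : ℕ → GQ) {y : Pt A B} (h : y ∈ Fx A B H) : dep N w a S φ y ∈ Fx A B H := by
  refine (Fx A B H).nsmul_mem (x := (S.map fun p => op N a p (φ p)).prod y) ?_ _
  induction S with
  | nil => exact h
  | cons p S ih =>
    rw [List.map_cons, List.prod_cons]
    generalize (S.map fun p => op N a p (φ p)).prod = f at ih
    refine add_mem (sub_mem (y := a p • ga (φ p) (f y)) ?_ (zsmul_mem (fx_ga n _ ih) _)) ?_
    · exact (AddMonoid.End.natCast_apply p (f y)).symm ▸ nsmul_mem ih p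
    · split_ifs
      · exact zero_mem _
      · exact fx_ga n _ ih

theorem sum_le {V : AbsoluteValue ℂ ℝ} (h : IsNonarchimedean V) {α : Type} {s : Finset α}
    {f : α → ℂ} {C : ℝ} (c : 0 ≤ C) (k : ∀ i ∈ s, V (f i) ≤ C) : V (∑ i ∈ s, f i) ≤ C :=
  sum_induction f (V · ≤ C) (fun a b p q => (h a b).trans (max_le p q)) (by simpa using c) k

end Su

open Su

theorem sum_row (r1 : P004K.RC1) (r2 : RC2) (hu : UNV) : SUM := by
  intro e b V h2 hV c l χ ζ T hc cop hz hT hs
  have o2 := e.ov 2 e.two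
  have c2 : Nat.Coprime 2 c :=
    (cop.coprime_dvd_right ((List.dvd_prod e.two).mul_left _)).symm
  have n := (r1 b.K b.j b.iq c hc).2.2.1
  have fx : ∀ g s, Inert (e.P 2) s → s (hh b c g) = hh b c g := fun g s k => by
    rw [hh, map_div₀, map_natCast, ← zf_ga, fx_ga n g (fx_dep n _ _ _ _ _
      (b.fx c hc (Nat.Coprime.coprime_mul_right_right cop))) s
      (in_hc r2 b.iq hc c2 o2 (b.le 2 e.two (P022D.W.inP_le_dec k)) k)]
  obtain ⟨N, hN⟩ := (T.image χ).bddAbove
  have ex : ∀ g ∈ T, ζ ^ χ g = ∑ i ∈ range (N + 1), (ζ - 1) ^ i * (χ g).choose i := fun g k => by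
    conv_lhs => rw [← sub_add_cancel ζ 1, add_pow]
    simp only [one_pow, mul_one]
    refine sum_subset (range_mono (Nat.succ_le_succ (hN (by simpa using ⟨g, k, rfl⟩))))
      fun i _ p => ?_
    rw [Nat.choose_eq_zero_of_lt (by simpa using p), Nat.cast_zero, mul_zero]
  rw [sum_congr rfl fun g k => by rw [ex g k, sum_mul], sum_comm]
  refine sum_le h2.1 (le_max_of_le_left (by norm_num)) fun i _ => ?_
  simp only [mul_assoc, ← mul_sum]
  rw [map_mul, map_pow]
  by_cases p : i ≤ l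
  · have := (hV.2 _).1.1 (hu 2 _ o2.1 o2.2.1 o2.2.2 _ (fun s k => by
      simp only [map_sum, map_mul, map_natCast, fx _ s k]) (hs i p))
    simp only [map_div₀, map_sum, map_mul, map_natCast, Nat.cast_ofNat, map_ofNat, h2.2] at this
    exact le_max_of_le_left ((mul_le_of_le_one_left (V.nonneg _)
      (pow_le_one₀ (V.nonneg _) hz)).trans ((div_le_one (by norm_num)).1 this))
  · refine le_max_of_le_right ((mul_le_of_le_one_right (by positivity) ?_).trans
      (pow_le_pow_of_le_one (V.nonneg _) hz (by omega)))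
    refine sum_le h2.1 zero_le_one fun g k => ?_
    rw [map_mul]
    exact mul_le_one₀ (h2.1.apply_natCast_le_one) (V.nonneg _) ((hV.2 _).1.1 (hT g k).2)

end Vale.Agent.P004C.Ln
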