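import Vale.Agent.P004C.Ln.St3

/-!
# P004 C, block LN: no torsion modulo a prime over `l ≥ 7`
-/

open NumberField Module
open scoped Classical

noncomputable section

namespace Vale.Agent.P004C.Ln

theorem tfx : TFX := by
  intro M _ _ hM w l hw hl h30 hlw u hu hf
  by_contra h1
  have hn : orderOf u ≠ 1 := fun e => h1 (orderOf_eq_one_iff.1 e)
  have hp := Nat.minFac_prime hn
  have ho : orderOf (u ^ (orderOf u / (orderOf u).minFac)) = (orderOf u).minFac :=
    orderOf_pow_orderOf_div hf.orderOf_pos.ne' (Nat.minFac_dvd _)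
  generalize (orderOf u).minFac = p at hp ho
  generalize orderOf u / p = d at ho
  have hv : IsPrimitiveRoot (((u ^ d : (𝓞 M)ˣ)) : 𝓞 M) p :=
    IsPrimitiveRoot.coe_units_iff.2 (ho ▸ IsPrimitiveRoot.orderOf _)
  have hq : Ideal.Quotient.mk w (u : 𝓞 M) = 1 := by
    rw [← map_one (Ideal.Quotient.mk w)]
    exact Ideal.Quotient.eq.2 hu
  have hpw : (p : 𝓞 M) ∈ w := by
    have h := congrArg (Ideal.Quotient.mk w) (hv.geom_sum_eq_zero hp.one_lt)
    simp only [map_sum, map_pow, Units.val_pow_eq_pow_val, hq, one_pow, Finset.sum_const,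
      Finset.card_range, nsmul_eq_mul, mul_one, map_zero] at h
    exact Ideal.Quotient.eq_zero_iff_mem.1 (by rw [map_natCast]; exact h)
  have hpl : p = l := by
    by_contra e
    obtain ⟨a, b, hab⟩ := Nat.isCoprime_iff_coprime.2 ((Nat.coprime_primes hp hl).2 e)
    refine hw.ne_top ((Ideal.eq_top_iff_one w).2 ?_)
    have h : (a : 𝓞 M) * p + b * l = 1 := by exact_mod_cast congrArg (Int.cast : ℤ → 𝓞 M) hab
    rw [← h]
    exact w.add_mem (w.mul_mem_left _ hpw) (w.mul_mem_left _ hlw)
  subst hpl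
  have hv' := hv.map_of_injective (f := algebraMap (𝓞 M) M) (RingOfIntegers.coe_injective)
  have h2 := minpoly.natDegree_le (A := ℚ) (algebraMap (𝓞 M) M ((u ^ d : (𝓞 M)ˣ) : 𝓞 M))
  rw [← Polynomial.cyclotomic_eq_minpoly_rat hv' hp.pos, Polynomial.natDegree_cyclotomic,
    Nat.totient_prime hp] at h2
  have h3 : p ≤ 5 := by omega
  have h4 := hp.two_le
  interval_cases p <;> revert h30 hp <;> decide

end Vale.Agent.P004C.Ln
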