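import Vale.Agent.P004C.Ln.Twi2

/-! # P004 C, block LN: twisting -/

set_option autoImplicit false
set_option linter.all false

open NumberField Module UpperHalfPlane CongruenceSubgroup
open scoped Classical MatrixGroups Real ComplexConjugate

noncomputable section

namespace Vale.Agent.P004C.Ln

open Wa Wa.Pe Wa.Cj
open P004K (st Oc Cop)

namespace Tw

variable {K : Type} [Field K] [NumberField K] {J : K →+* ℂ} {c m : ℕ}
  {n n' w w' A B H I : Ideal (𝓞 K)} {φ φ' : 𝓞 K →+* ZMod c} {e p f θ p₀ ν : 𝓞 K} {r : ZMod c}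
  {s : 𝓞 K ≃+* 𝓞 K} {τ : ℍ} {V : AbsoluteValue ℂ ℝ} {ε χ : ℤ → ℂ} {b ξ : Ideal (𝓞 K) → ℂ}
  {g : ℍ → ℂ}

theorem v_J (cg : Cg J θ s) (hV : IsNonarchimedean V) (x : 𝓞 K) : V (J x) ≤ 1 := by
  obtain ⟨t, ht⟩ := cg.fix (x + s x) (by rw [map_add, cg.ss, add_comm])
  obtain ⟨k, hk⟩ := cg.fix (x * s x) (by rw [map_mul, cg.ss, mul_comm])
  have q : J x * J x = t * J x + -k := by
    simpa using congrArg (fun y : 𝓞 K => J y)
      (show x * x = t * x + -k by linear_combination x * ht - hk)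
  have a := hV (t * J x) (-k)
  rw [← q, map_mul, map_mul, V.map_neg] at a
  have a1 := v_int hV t
  have a2 := v_int hV k
  have a3 := V.nonneg (J x)
  rcases le_max_iff.1 a with a | a <;> nlinarith

theorem top_of (hs : Sp m n n') {k : ℕ} (hk : k.Coprime m) (h : (k : 𝓞 K) ∈ I) : I ⊔ n = ⊤ := by
  obtain ⟨u, v, q⟩ := Nat.Coprime.cast (R := 𝓞 K) hk
  exact (Ideal.eq_top_iff_one _).2 (q ▸ Submodule.add_mem_sup (I.mul_mem_left _ h)
    (n.mul_mem_left _ (M_mem hs).1))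

theorem pw (h1 : b 1 = 1) (hm : ∀ I I', b (I * I') = b I * b I') (k : ℕ) : b (I ^ k) = b I ^ k :=
  map_pow (⟨⟨b, h1⟩, hm⟩ : Ideal (𝓞 K) →* ℂ) I k

theorem v_ch (hc : 0 < c) (h1 : χ 1 = 1) (hm : ∀ a b, χ (a * b) = χ a * χ b)
    (hp : ∀ a b, (c : ℤ) ∣ a - b → χ a = χ b) (hz : ∀ a, χ a = 0 ↔ ¬ IsCoprime a (c : ℤ))
    {a : ℤ} (ha : χ a ≠ 0) : conj (χ a) * χ a = 1 ∧ V (χ a) = 1 ∧ V (conj (χ a)) = 1 := by
  have := ch_root hc h1 hm hp (not_not.1 (mt (hz a).2 ha))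
  have t0 := (Nat.totient_pos.2 hc).ne'
  exact ⟨cj_mul t0 this, v_root t0 this, v_root t0 (by rw [← map_pow, this, map_one])⟩

theorem v_b (cg : Cg J θ s) (hV : IsNonarchimedean V) (hs : Sp m n n') (hε : Chr m ε)
    (hb : Hb J 1 n (fun d => conj (ε d)) b) (hc : V c = 1) (hm : c.Coprime m) (hI : I ≠ ⊥)
    (h : (c : 𝓞 K) ∈ I) : V (b I) = 1 := by
  obtain ⟨k, x, k0, x0, q⟩ := pow_prin hI
  obtain ⟨d, hd⟩ := hs.cn x
  have a := hb.fin x d x0 hd
  rw [← q, pw hb.hc.one hb.hc.mul, pow_one] at a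
  have b0 : b I ≠ 0 := fun z => ((hb.hc.zero I).1 z).elim hI fun z => z (top_of hs hm h)
  have e0 : ε d ≠ 0 := fun z => pow_ne_zero k b0 (by simp [a, z])
  obtain ⟨y, hy⟩ := Ideal.mem_span_singleton.1 (q.le (Ideal.pow_mem_pow h k))
  have : V (J x) = 1 := v_two (v_J cg hV x) (v_J cg hV y) (by
    rw [show J x * J y = (c : ℂ) ^ k by simpa using (congrArg (fun y : 𝓞 K => J y) hy).symm,
      map_pow, hc, one_pow])
  refine (pow_eq_one_iff_of_nonneg (V.nonneg _) k0).1 ?_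
  rw [← map_pow, a, map_mul, map_inv₀, this, inv_one, one_mul]
  exact (v_ch hs.pos hε.one hε.mul hε.per hε.zero e0).2.2

theorem sq_cn (hs : Sp m n n') (x : 𝓞 K) : ∃ k : ℤ, x - k ∈ n ^ 2 := by
  obtain ⟨ν, a, b⟩ := ex_nu hs
  obtain ⟨k, hk⟩ := hs.cn x
  obtain ⟨y, q⟩ := inf_mem hs (n.mul_mem_right ν hk) (n'.mul_mem_left _ a)
  obtain ⟨l, hl⟩ := hs.cn y
  refine ⟨k + m * l, ?_⟩
  push_cast
  rw [show x - (k + m * l) = m * (y - l) - (x - k) * (ν - 1) by linear_combination q, sq]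
  exact sub_mem (Ideal.mul_mem_mul (M_mem hs).1 hl) (Ideal.mul_mem_mul hk b)

theorem sq_dvd (hs : Sp m n n') {x : 𝓞 K} (h : x ∈ n ^ 2) (h' : x ∈ n' ^ 2) :
    ∃ y, x = m ^ 2 * y := by
  refine Ideal.mem_span_singleton.1 ?_
  rw [← Ideal.span_singleton_pow, ← hs.mul, mul_pow, Ideal.mul_eq_inf_of_isCoprime
    (Ideal.isCoprime_iff_sup_eq.2 hs.cop).pow]
  exact ⟨h, h'⟩

/-- the value at the lattice of conductor `c` -/
theorem lev (cg : Cg J θ s) (h : Cx c w w' φ φ' e) (hs : Sp m n n') (hε : Chr m ε)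
    (hg : MW (m ^ 2) ε g) (hb : Hb J 1 n (fun d => conj (ε d)) b) (h1 : ν ∈ n' ^ 2)
    (h2 : ν - 1 ∈ n ^ 2) (hm : c.Coprime m) (hN : (Ideal.absNorm A).Coprime m)
    (hH : Cop c (A.map s)) (hB : Cop c B) (hB' : B ⊔ n = ⊤) (R : Rz w' φ φ' e r (B * A.map s) p f)
    (q1 : p₀ ∈ A.map s * w') (q2 : p₀ - Ideal.absNorm A ∈ n ^ 2) (q3 : p₀ ∈ n' ^ 2)
    (bs : Bs (st (Jo J) B (Oc (Jo J) c)) (c * J p₀ / J p) τ) :
    Ideal.absNorm A * b A * g τ = c * J p₀ * b w' * b B *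
      lf 1 (m ^ 2) g (st (Jo J) B (Oc (Jo J) c)) (c * J ν / (m ^ 2 : ℕ)) := by
  have nm := cg.nm A
  have mN : (Ideal.absNorm A : 𝓞 K) ∈ A.map s :=
    Ideal.mul_le_right (nm.ge (Ideal.mem_span_singleton_self _))
  have N0 : Ideal.absNorm A ≠ 0 := nm_ne fun z => hH.1 (by simp [z])
  generalize Ideal.absNorm A = N at *
  have p0 := (h.units (cop_mul hB hH) R).1
  have j0 : J p ≠ 0 := fun b => p0 (jinj J (by simpa using b))
  have m2 : (m : 𝓞 K) ^ 2 ∈ n ^ 2 := Ideal.pow_mem_pow (M_mem hs).1 2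
  obtain ⟨d, hd⟩ : ∃ d : ℤ, p - (d * N : ℤ) ∈ n ^ 2 := by
    obtain ⟨k, hk⟩ := sq_cn hs p
    obtain ⟨u, v, q⟩ := (Nat.Coprime.cast (R := ℤ) hN).pow_right (n := 2)
    refine ⟨k * u, ?_⟩
    have := congrArg (Int.cast : ℤ → 𝓞 K) q
    push_cast at this ⊢
    rw [show p - k * u * N = p - k + k * v * m ^ 2 by linear_combination -k * this]
    exact add_mem hk (Ideal.mul_mem_left _ _ m2)
  have b1 := hb.fin p _ p0 (Ideal.pow_le_self two_ne_zero hd)
  have b2 := hb.fin N N (Nat.cast_ne_zero.2 N0) (by simp)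
  have nz : ∀ {I}, I ≠ ⊥ → I ⊔ n = ⊤ → b I ≠ 0 := fun a a' z =>
    ((hb.hc.zero _).1 z).elim a fun z => z a'
  have b3 := nz hH.1 (top_of hs hN mN)
  rw [R.gen, hb.hc.mul, hb.hc.mul, hε.mul, map_mul, pow_one] at b1
  rw [← nm, hb.hc.mul, pow_one] at b2
  have e0 : ε d ≠ 0 := fun z => mul_ne_zero (mul_ne_zero (nz hB.1 hB') b3)
    (nz (sp_ne h.sp).2 (top_of hs hm (M_mem h.sp).2)) (by simp [b1, z])
  have e1 := (v_ch (V := AbsoluteValue.trivial) hs.pos hε.one hε.mul hε.per hε.zero e0).1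
  obtain ⟨y, hy⟩ := sq_dvd hs (x := d * p₀ - ν * p) (by
    rw [show d * p₀ - ν * p = d * (p₀ - N) - (ν - 1) * p - (p - (d * N : ℤ)) by push_cast; ring]
    exact sub_mem (sub_mem (Ideal.mul_mem_left _ _ q2) (Ideal.mul_mem_right _ _ h2)) hd)
    (sub_mem (Ideal.mul_mem_left _ _ q3) (Ideal.mul_mem_right _ _ h1))
  have y1 : y ∈ A.map s * w' := by
    obtain ⟨u, v, q⟩ := (Nat.Coprime.cast (R := 𝓞 K) (hN.mul_left hm)).pow_right (n := 2)
    push_cast at q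
    rw [show y = u * y * (N * c) + v * (d * p₀ - ν * p) by linear_combination -y * q - v * hy]
    exact add_mem (Ideal.mul_mem_left _ _ (Ideal.mul_mem_mul mN (M_mem h.sp).2))
      (Ideal.mul_mem_left _ _ (sub_mem (Ideal.mul_mem_left _ _ q1) (Ideal.mul_mem_left _ _
        (Ideal.mul_le_right ((R.gen.trans (mul_assoc _ _ _)).le
          (Ideal.mem_span_singleton_self p))))))
  have m0 : (m : ℂ) ≠ 0 := Nat.cast_ne_zero.2 hs.pos.ne'
  rw [lf_eq (ε := ε) (d := d) (pow_pos hs.pos 2) (fun γ a τ => by rw [pow_one, hg.law γ a]) bs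
    (by push_cast; exact (not_not.1 (mt (hε.zero d).2 e0)).pow_right)
    (fun a b q => hε.per a b ((Int.natCast_dvd_natCast.2 (dvd_pow_self m two_ne_zero)).trans q))
    ((mem_st h hB hH R _).2 ⟨c * y, ⟨Ideal.mul_mem_left _ _ y1, y * e, by ring, by
      simp [(h.k' y).2 (Ideal.mul_le_right y1)]⟩, by
        have := congrArg (Jo J) hy
        simp only [map_sub, map_mul, map_pow, map_intCast, map_natCast, jo] at this ⊢
        push_cast
        field_simp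
        linear_combination -c * this⟩)]
  have := bs.1
  have c0 : (c : ℂ) * J p₀ ≠ 0 := fun z => this (by rw [z, zero_div])
  have n0 : (N : ℂ) ≠ 0 := Nat.cast_ne_zero.2 N0
  simp only [map_natCast, RingOfIntegers.coe_eq_algebraMap] at b1 b2 j0 c0 ⊢
  have : N * b A = b w' * b B * ε d * J (algebraMap _ K p) := mul_left_cancel₀ b3 (by
    field_simp at b1 b2
    linear_combination b2 - ε d * b1 - conj (ε N) * e1)
  rw [this, pow_one]
  have := left_ne_zero_of_mul c0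
  have := right_ne_zero_of_mul c0
  field_simp

end Tw

open Tw

theorem twi : TWI := by
  intro K _ _ J D θ kd m c n n' w w' ε ε' χ A g G ξ b a ν ν' R sm sc _ hc _ hε hg qg hξ hχ pχ hx
    hε' hG qG hb _ ha n1 n2 n3 n4 hR
  obtain ⟨s, cg⟩ := ex_cg kd
  obtain ⟨φ, hφ⟩ := ex_phi sc
  have : NeZero c := ⟨sc.pos.ne'⟩
  obtain ⟨φ', hs⟩ : ∃ φ' : 𝓞 K →+* ZMod c, ∀ x, φ' (s x) = φ x :=
    ⟨φ.comp s, fun x => by simp [cg.ss]⟩
  have hφ' : ∀ x, φ' x = 0 ↔ x ∈ w' := fun x => by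
    rw [← (cg.sp_mem sc).1, ← hφ, ← hs, cg.ss]
  rw [mul_pow] at n3 n4
  have l2 : ∀ {I : Ideal (𝓞 K)} {x}, x ∈ I ^ 2 → x ∈ I := fun q => Ideal.pow_le_self two_ne_zero q
  have h : Cx c w w' φ φ' (1 - ν') := ⟨sc, hφ, hφ', (hφ _).2 (by
    simpa using neg_mem (l2 (Ideal.mul_le_right n4))), by
      simp [(hφ' ν').2 (l2 (Ideal.mul_le_right n3))], sq_dvd sc (Ideal.mul_mem_left _ _ (by
        simpa using neg_mem (Ideal.mul_le_right n4))) (Ideal.mul_mem_right _ _ (by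
          simpa using Ideal.mul_le_right n3))⟩
  have cm : c.Coprime m := (hc.of_dvd_right ⟨2 * D, by ring⟩)
  have ut : IsUnit (φ' θ) := by
    have q : φ' θ * -φ' θ = D := by simpa [sq] using congrArg (fun x => -φ' x) kd.sq
    exact isUnit_of_mul_isUnit_left (q ▸ (ZMod.isUnit_iff_coprime D c).2
      (hc.of_dvd_right ⟨2 * m, by ring⟩).symm)
  have cu : ∀ {V : AbsoluteValue ℂ ℝ} {r : ZMod c}, IsUnit r → conj (cz c χ r) * cz c χ r = 1 ∧
      V (cz c χ r) = 1 ∧ V (conj (cz c χ r)) = 1 := fun u =>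
    v_ch sc.pos hχ.one hχ.mul hχ.per hχ.zero ((cz_ne hχ.per hχ.zero _).2 u)
  have c1 : cz c χ 1 = 1 := by rw [← Int.cast_one, cz_int hχ.per, hχ.one]
  have xv : ∀ x : 𝓞 K, x ≠ 0 → ξ (Ideal.span {x}) = cz c χ (φ x) * conj (cz c χ (φ' x)) :=
    fun x x0 => hx x _ _ x0 ((hφ _).1 (by simp)) ((hφ' _).1 (by simp))
  have x0 : ∀ {I}, Cop c I → ξ I ≠ 0 := fun q z => ((hξ.rc.zero _).1 z).elim q.1 fun z => z q.2
  obtain ⟨t, t0, vt, ht⟩ := gauss hχ.one hχ.mul hχ.per hχ.zero pχ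
  obtain ⟨E, p₁, f₁, hE, R₁⟩ := h.sur (H := ⊤) ⟨top_ne_bot, top_sup_eq _⟩ isUnit_one
  rw [Ideal.mul_top] at R₁
  have xr : ∀ {r I p f}, Cop c I → Rz w' φ φ' (1 - ν') r I p f → ξ I = cz c χ r * ξ E :=
    fun {r _ _ _} hI q => by
      obtain ⟨y, u, a1, a2, a3, a4⟩ := h.cmp hI hE q R₁
      have := congrArg ξ a3
      rw [hξ.rc.mul, hξ.rc.mul, xv _ (mt Ideal.span_singleton_eq_bot.2 a1.1),
        xv _ (mt Ideal.span_singleton_eq_bot.2 a2.1), ← one_mul (φ u), ← a4, cz_mul hχ.mul hχ.per,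
        mul_assoc (cz c χ r), mul_comm (cz c χ (φ' u)),
        (cu (V := AbsoluteValue.trivial) (h.unit a2).2).1] at this
      simpa [c1] using this
  refine ⟨c * b w' * cz c χ (φ' θ) / (t * ξ E), fun V hV => ?_, fun β _ B hB => ?_⟩
  · have vc := v_odd hV.1 hV.2 (Nat.coprime_two_right.1 (hc.of_dvd_right ⟨m * D, by ring⟩))
    obtain ⟨k, x, k0, x1, q⟩ := pow_prin hE.1
    have q' : Cop c (Ideal.span {x}) :=
      q ▸ ⟨pow_ne_zero k hE.1, Ideal.pow_sup_eq_top hE.2⟩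
    have : V (ξ E) = 1 := (pow_eq_one_iff_of_nonneg (V.nonneg _) k0).1 (by
      rw [← map_pow, ← pw hξ.rc.one hξ.rc.mul, q, xv x x1, map_mul, (cu (h.unit q').1).2.1,
        (cu (h.unit q').2).2.2, one_mul])
    rw [map_div₀, map_mul, map_mul, map_mul, vc, vt V hV.1 vc, this, (cu ut).2.1,
      v_b cg hV.1 sm hε hb vc cm (sp_ne sc).2 (M_mem sc).2]
    norm_num
  have Nm : ∀ C, (Ideal.absNorm (R C)).Coprime m := fun C => (hR.cop C).coprime_mul_right_right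
  have Nc : ∀ C, (Ideal.absNorm (R C)).Coprime c := fun C => (hR.cop C).coprime_mul_left_right
  have uN : ∀ C, IsUnit (Ideal.absNorm (R C) : ZMod c) := fun C =>
    (ZMod.isUnit_iff_coprime _ c).2 (Nc C)
  have N0 : ∀ C, (Ideal.absNorm (R C) : 𝓞 K) ≠ 0 := fun C => Nat.cast_ne_zero.2 (nm_ne (hR.ne C))
  have hH : ∀ C, Cop c ((R C).map s) := fun C => h.cop (fun z => N0 C
    (Ideal.span_singleton_eq_bot.1 (by rw [← cg.nm, z, Ideal.mul_bot])))
    (Ideal.mul_le_right ((cg.nm _).ge (Ideal.mem_span_singleton_self _))) (by simpa using uN C)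
    (by simpa using uN C)
  have cB : ∀ i, Cop c (B i) := fun i => ⟨(hB.cop i).1, top_le_iff.1 ((hB.cop i).2.ge.trans
    (sup_le_sup_left (Ideal.span_singleton_le_span_singleton.2 (by simp)) _))⟩
  have nB : ∀ i, B i ⊔ n = ⊤ := fun i => top_le_iff.1 ((hB.cop i).2.ge.trans
    (sup_le_sup_left ((Ideal.span_singleton_le_iff_mem _).2 (by
      push_cast; exact n.mul_mem_left _ (M_mem sm).1)) _))
  have mc : 0 < (m * c) ^ 2 := pow_pos (mul_pos sm.pos sc.pos) 2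
  choose ω τ bs hω using fun C => adapt kd (hR.ne C) ν' mc fun p hp q => by
    rcases (Nat.Prime.dvd_mul hp).1 (hp.dvd_of_dvd_pow q) with q | q
    · exact not_dvd sm (Nm C) (l2 (Ideal.mul_le_left n4)) hp q
    · exact not_dvd sc (Nc C) (l2 (Ideal.mul_le_right n4)) hp q
  choose p₀ q₀ ba using fun C => cg.ex_ba kd (hR.ne C) (bs C)
  have hp : ∀ C, ∃ y, p₀ C = Ideal.absNorm (R C) * ν' + (m * c) ^ 2 * y := fun C => by
    obtain ⟨y, q⟩ := hω C _ (Ideal.absNorm_mem _)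
    refine ⟨y, jinj J ?_⟩
    rw [(ba C).hp, ← Nat.cast_mul, ← Nat.cast_pow, ← q]
    simp
  let Rel : ClassGroup (𝓞 K) × ZMod c → Ideal (𝓞 K) → Prop := fun x I => ∃ r p f,
    x.2 * (Ideal.absNorm (R x.1) : ZMod c) = r * φ' θ ∧
      Rz w' φ φ' (1 - ν') r (I * (R x.1).map s) p f
  have uq : ∀ x y I, Cop c I → Rel x I → Rel y I → x = y := by
    rintro ⟨C, x⟩ ⟨C', y⟩ I hI ⟨r, p, f, a1, a2⟩ ⟨r', p', f', a3, a4⟩
    have : ∀ {C r p f}, Rz w' φ φ' (1 - ν') r (I * (R C).map s) p f → C = cl (I * w') :=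
      fun {C _ _ _} q => (hR.eq C).symm.trans (cl_of (hR.ne C) (mul_ne_zero hI.1 (sp_ne sc).2)
        (h.units (cop_mul hI (hH C)) q).1 (N0 C) (by rw [q.gen, ← cg.nm]; ring))
    obtain rfl : C = C' := (this a2).trans (this a4).symm
    obtain rfl := h.uniq kd.upm (cop_mul hI (hH C)) a2 a4
    exact Prod.ext rfl ((uN C).mul_right_cancel (a1.trans a3.symm))
  choose e he using fun i : β => show ∃ x, Rel x (B i) by
    have a0 : B i * w' ≠ ⊥ := mul_ne_zero (cB i).1 (sp_ne sc).2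
    obtain ⟨x, y, -, y0, q⟩ := cl_eq (hR.ne (cl (B i * w'))) a0 (hR.eq _)
    generalize cl (B i * w') = C at q
    obtain ⟨p, a1, -⟩ := quo (I := B i * (R C).map s * w') (y := x * Ideal.absNorm (R C)) y0 (by
      rw [← Ideal.span_singleton_mul_span_singleton, ← cg.nm, ← mul_assoc _ (R C), q]; ring)
    obtain ⟨r, f, a2⟩ := h.ex (cop_mul (cB i) (hH C)) a1
    obtain ⟨u, a3⟩ := (uN C).exists_left_inv
    exact ⟨(C, r * φ' θ * u), r, p, f, by rw [mul_assoc, a3, mul_one], a2⟩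
  let T : ClassGroup (𝓞 K) × ZMod c → ℂ := fun x => a (R x.1) / ε' (Ideal.absNorm (R x.1)) *
    (cz c χ x.2 * g (sf c x.2 (τ x.1))) / (t * J (ω x.1))
  have e1 : per J ((m * c) ^ 2) ε' G a ν' R = ∑ x, T x := by
    rw [per, Fintype.sum_prod_type]
    refine Finset.sum_congr rfl fun C _ => ?_
    rw [lf_eq (ε := ε') (d := 1) mc (fun γ q τ => by rw [pow_one, hG.law γ q]) (bs C)
      isCoprime_one_left (fun x y q => by
        rw [hε', hε', hε.per x y (dvd_trans ⟨m * c ^ 2, by push_cast; ring⟩ q),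
          hχ.per x y (dvd_trans ⟨m ^ 2 * c, by push_cast; ring⟩ q)]) fun x q => by
        obtain ⟨y, q⟩ := hω C x q
        have := congrArg J q
        have m0 : (((m * c) ^ 2 : ℕ) : ℂ) ≠ 0 := Nat.cast_ne_zero.2 mc.ne'
        simp only [map_mul, map_add, map_natCast, RingOfIntegers.coe_eq_algebraMap] at this ⊢
        refine ⟨y, ?_⟩
        field_simp
        push_cast at this ⊢
        linear_combination this]
    simp only [T]
    rw [← Finset.sum_div, ← Finset.mul_sum, ← twist qg qG ht, hε' 1, hε.one, hχ.one]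
    have := (bs C).1
    simp only [map_one, one_pow, pow_one]
    field_simp
  rw [e1, pc, Finset.mul_sum]
  refine (Finset.sum_of_injOn e (fun i _ j _ q => ?_) (fun _ _ => Finset.mem_coe.2
    (Finset.mem_univ _)) (fun x _ q => ?_) fun i _ => ?_).symm
  · obtain ⟨r, p, f, a1, a2⟩ := he i
    obtain ⟨r', p', f', a3, a4⟩ := he j
    rw [← q] at a3 a4
    obtain rfl := ut.mul_right_cancel (a1.symm.trans a3)
    obtain ⟨y, u, b1, b2, b3, b4⟩ := h.cmp (cop_mul (cB i) (hH _)) (cop_mul (cB j) (hH _)) a2 a4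
    obtain ⟨k, z, rfl⟩ := h.oc
      ((h.units (cop_mul (cB i) (hH _)) a2).2.2.2.mul_left_cancel b4).symm
    rw [← mul_assoc, ← mul_assoc] at b3
    refine (hB.ex _ (cB i)).unique ⟨1, 1, y, y, ?_, ?_, rfl⟩ ⟨1, k, y, z, ?_, b2, ?_⟩
    iterate 3 simpa using b1
    simpa using mul_right_cancel₀ (hH _).1 b3
  · by_contra z
    have u : IsUnit x.2 := (cz_ne hχ.per hχ.zero _).1 fun z' => z (by simp [T, z'])
    obtain ⟨v, a1⟩ := ut.exists_left_inv
    obtain ⟨I, p, f, hI, a2⟩ := h.sur (hH x.1)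
      ((u.mul (uN x.1)).mul (IsUnit.of_mul_eq_one _ a1))
    obtain ⟨i, ⟨k, k', y, y', -, a3, a4⟩, -⟩ := hB.ex I hI
    obtain ⟨p', f', a5⟩ := h.trans a3 a4 a2
    exact q ⟨i, Finset.mem_coe.2 (Finset.mem_univ _), uq _ _ _ (cB i) (he i)
      ⟨_, p', f', by rw [mul_assoc _ v, a1, mul_one], a5⟩⟩
  · obtain ⟨r, p, f, a1, a2⟩ := he i
    generalize e i = x at a1 a2
    obtain ⟨C, x⟩ := x
    obtain ⟨y, hy⟩ := hp C
    have m2 := (M_mem sm).imp (Ideal.pow_mem_pow · 2) (Ideal.pow_mem_pow · 2)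
    have a3 := lev cg h sm hε hg hb n1 n2 cm (Nm C) (hH C) (cB i) (nB i) a2 (p₀ := p₀ C) (by
      rw [Ideal.mul_eq_inf_of_coprime (top_le_iff.1 ((hH C).2.ge.trans (sup_le_sup_left
        ((Ideal.span_singleton_le_iff_mem _).2 (M_mem sc).2) _)))]
      exact ⟨((ba C).mem _).2 ⟨0, 1, by simp⟩, (hφ' _).1 (by
        simp [hy, (hφ' ν').2 (l2 (Ideal.mul_le_right n3))])⟩) (by
      rw [show p₀ C - Ideal.absNorm (R C) = Ideal.absNorm (R C) * (ν' - 1) + c ^ 2 * y * m ^ 2 by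
        rw [hy]; ring]
      exact add_mem (Ideal.mul_mem_left _ _ (Ideal.mul_le_left n4)) (Ideal.mul_mem_left _ _ m2.1))
      (by
        rw [hy, mul_pow, mul_assoc]
        exact add_mem (Ideal.mul_mem_left _ _ (Ideal.mul_le_left n3))
          (Ideal.mul_mem_right _ _ m2.2))
      (bs_st h hs ut (uN C) (hH C) (ba C) (y₀ := y * (m : 𝓞 K) ^ 2) (by rw [hy]; ring) a1 (cB i) a2)
    have a4 := xr (cop_mul (cB i) (hH C)) a2
    have a5 := hξ.rat (Ideal.absNorm (R C)) (Int.natCast_ne_zero.2 (nm_ne (hR.ne C))) (Nc C).cast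
    have a6 := congrArg (cz c χ) a1
    have a7 := (cu (V := AbsoluteValue.trivial) (uN C)).1
    have a8 : ε (Ideal.absNorm (R C)) ≠ 0 := mt (hε.zero _).1 (not_not.2 (Nm C).cast)
    rw [Int.cast_natCast, ← cg.nm, hξ.rc.mul] at a5
    rw [cz_mul hχ.mul hχ.per, cz_mul hχ.mul hχ.per] at a6
    rw [hξ.rc.mul] at a4
    rw [← Int.cast_natCast, cz_int hχ.per] at a6 a7
    rw [(ba C).hp] at a3
    simp only [T] at *
    rw [ha _ (hR.cop C), hε']
    have b1 := (bs C).1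
    have b2 := x0 hE
    have b3 := left_ne_zero_of_mul_eq_one a7
    have b4 : (Ideal.absNorm (R C) : ℂ) ≠ 0 := Nat.cast_ne_zero.2 (nm_ne (hR.ne C))
    have k1 := mul_left_cancel₀ b4 ((mul_assoc _ _ _).symm.trans (a3.trans (by
      rw [mul_left_comm, mul_assoc, mul_assoc, mul_assoc])))
    rw [div_mul_eq_mul_div, div_mul_eq_mul_div, div_div, div_eq_div_iff (mul_ne_zero t0 b2)
      (mul_ne_zero (mul_ne_zero a8 (pow_ne_zero 2 b3)) (mul_ne_zero t0 b1))]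
    generalize conj (χ (Ideal.absNorm (R C))) = u at *
    linear_combination ε (Ideal.absNorm (R C)) * u * t * (b (R C) * g (sf c x (τ C)) *
      (u * (cz c χ (φ' θ) * (ξ (R C) * a4 - ξ (B i) * a5) - ξ (R C) * ξ E * a6) +
        ξ (R C) * cz c χ x * ξ E * a7) - cz c χ (φ' θ) * ξ (B i) * u * k1)

end Vale.Agent.P004C.Ln
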