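import Vale.Agent.P004C.Ln.Sum

/-!
# P004 C, block LN: ring class characters and their Dirichlet components
-/

set_option linter.unusedSectionVars false

open NumberField Ideal
open scoped Classical ComplexConjugate

noncomputable section

namespace Vale.Agent.P004C.Ln

open Vale.Agent.P022 (Qb GQ GK below)
open P004K (Cop Iq Ar Hc RC2)
open Wa (Sp RC)

namespace Xx

variable {K : Type} [Field K] [NumberField K] {c t : ℕ} {I I' w w' : Ideal (𝓞 K)}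
  {ξ : Ideal (𝓞 K) → ℂ} {x y e e' : 𝓞 K}

theorem cop_mul : Cop c (I * I') ↔ Cop c I ∧ Cop c I' := by
  simp only [Cop, ne_eq, mul_eq_bot, not_or, ← isCoprime_iff_sup_eq, IsCoprime.mul_left_iff]
  tauto

theorem cop_span : Cop c (span {x}) ↔ x ≠ 0 ∧ IsCoprime x (c : 𝓞 K) := by
  rw [Cop, ne_eq, span_singleton_eq_bot, sup_eq_top_iff_isCoprime]

theorem cop_le (h : Cop (c * t) I) : Cop c I :=
  ⟨h.1, top_unique (h.2.ge.trans (sup_le le_sup_left (le_sup_of_le_right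
    (span_singleton_le_span_singleton.2 ⟨t, Nat.cast_mul c t⟩))))⟩

theorem cop_int {a b : ℤ} (h : IsCoprime (a : 𝓞 K) (b : 𝓞 K)) : IsCoprime a b := by
  rw [Int.isCoprime_iff_gcd_eq_one, ← Int.natAbs_natCast (a.gcd b), ← Int.isUnit_iff_natAbs_eq,
    ← isUnit_map_iff (algebraMap ℤ (𝓞 K))]
  exact h.isUnit_of_dvd' (map_dvd _ (Int.gcd_dvd_left a b)) (map_dvd _ (Int.gcd_dvd_right a b))

theorem cr_conj {χ : ℤ → ℂ} (h : Cr c χ) (hc : c ≠ 0) {k : ℤ} (n : χ k ≠ 0) :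
    (χ k)⁻¹ = conj (χ k) := by
  have : NeZero c := ⟨hc⟩
  obtain ⟨N, p, q⟩ := isOfFinOrder_iff_pow_eq_one.1 ((ZMod.coe_int_isUnit_iff_isCoprime k c).2
    (not_not.1 (mt (h.zero k).2 n)).symm).isOfFinOrder
  have s : ∀ N : ℕ, χ (k ^ N) = χ k ^ N := fun N => by
    induction N with
    | zero => simpa using h.one
    | succ N ih => rw [pow_succ, pow_succ, h.mul, ih]
  refine Complex.inv_eq_conj (Complex.norm_eq_one_of_pow_eq_one (n := N) ?_ p.ne')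
  rw [← s, ← h.one]
  exact (h.per _ _ ((ZMod.intCast_eq_intCast_iff_dvd_sub _ _ c).1 (by simpa using q))).symm

/-- the character on elements -/
def gg (c : ℕ) (ξ : Ideal (𝓞 K) → ℂ) (x : 𝓞 K) : ℂ := ξ (span {if x = 0 then (c : 𝓞 K) else x})

theorem gg_eq (n : x ≠ 0) : gg c ξ x = ξ (span {x}) := by rw [gg, if_neg n]

theorem c_ne (h : Rg c ξ) : (c : 𝓞 K) ≠ 0 := mt span_singleton_eq_bot.2 h.rc.ne

theorem f_zero (h : Rg c ξ) (n : x ≠ 0) : ξ (span {x}) = 0 ↔ ¬ IsCoprime x (c : 𝓞 K) := by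
  rw [h.rc.zero, span_singleton_eq_bot, ne_eq, sup_eq_top_iff_isCoprime, or_iff_right n]

theorem f_per (h : Rg c ξ) (n : x ≠ 0) (n' : y ≠ 0) (k : (c : 𝓞 K) ∣ x - y) :
    ξ (span {x}) = ξ (span {y}) := by
  obtain ⟨d, hd⟩ := k
  have e : IsCoprime x (c : 𝓞 K) ↔ IsCoprime y (c : 𝓞 K) := by
    rw [sub_eq_iff_eq_add'.1 hd, IsCoprime.add_mul_left_left_iff]
  by_cases p : IsCoprime x (c : 𝓞 K)
  · obtain ⟨u, v, k⟩ := p
    obtain ⟨z, z0, s, hz⟩ : ∃ z, z ≠ 0 ∧ ∃ s, z = u + c * s := by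
      by_cases q : u = 0
      · exact ⟨c, c_ne h, 1, by simp [q]⟩
      · exact ⟨u, q, 0, by simp⟩
    have a := h.rc.prn _ (mul_ne_zero z0 n) (mem_span_singleton'.2 ⟨s * x - v, by
      rw [hz]; linear_combination -k⟩)
    have b := h.rc.prn _ (mul_ne_zero z0 n') (mem_span_singleton'.2 ⟨s * y - v - u * d, by
      rw [hz]; linear_combination -k + u * hd⟩)
    rw [← span_singleton_mul_span_singleton, h.rc.mul] at a b
    exact mul_left_cancel₀ (left_ne_zero_of_mul_eq_one a) (a.trans b.symm)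
  · rw [(f_zero h n).2 p, (f_zero h n').2 (mt e.2 p)]

theorem rep (h : Rg c ξ) (x : 𝓞 K) : ∃ y, y ≠ 0 ∧ (c : 𝓞 K) ∣ y - x ∧ gg c ξ x = ξ (span {y}) :=
  ⟨_, by split_ifs with p <;> [exact c_ne h; exact p], by split_ifs with p <;> simp [p], rfl⟩

theorem g_per (h : Rg c ξ) (k : (c : 𝓞 K) ∣ x - y) : gg c ξ x = gg c ξ y := by
  obtain ⟨a, p, q, r⟩ := rep h x
  obtain ⟨b, p', q', r'⟩ := rep h y
  rw [r, r']
  exact f_per h p p' (by simpa using (q.add k).sub q')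

theorem g_mul (h : Rg c ξ) (x y : 𝓞 K) : gg c ξ (x * y) = gg c ξ x * gg c ξ y := by
  obtain ⟨a, p, q, r⟩ := rep h x
  obtain ⟨b, p', q', r'⟩ := rep h y
  rw [r, r', ← h.rc.mul, span_singleton_mul_span_singleton, ← gg_eq (c := c) (ξ := ξ) (mul_ne_zero p p')]
  exact (g_per h ((by ring : (a - x) * b + x * (b - y) = a * b - x * y) ▸
    (q.mul_right b).add (q'.mul_left x))).symm

theorem g_ne (h : Rg c ξ) (n : gg c ξ x ≠ 0) : IsCoprime x (c : 𝓞 K) := by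
  obtain ⟨a, p, ⟨d, q⟩, r⟩ := rep h x
  have := not_not.1 (mt (f_zero h p).2 (r ▸ n))
  rwa [sub_eq_iff_eq_add'.1 q, IsCoprime.add_mul_left_left_iff] at this

theorem g_int (h : Rg c ξ) {k : ℤ} (p : IsCoprime k (c : ℤ)) : gg c ξ k = 1 := by
  have n : (c : ℤ) ≠ 0 := fun q => c_ne h (by exact_mod_cast q)
  by_cases q : k = 0
  · rw [q] at p
    rw [q, Int.cast_zero, gg, if_pos rfl, ← Int.cast_natCast]
    exact h.rat c n (isCoprime_self.2 (isCoprime_zero_left.1 p))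
  · rw [gg_eq (by exact_mod_cast q), h.rat k q p]

/-- an integer in the class of `x`, which is one modulo `c / q` -/
theorem ex_k (sq : Squarefree c) (hw : (c : 𝓞 K) ∈ w) (cn : ∀ x : 𝓞 K, ∃ k : ℤ, x - k ∈ w) {q : ℕ}
    (d : q ∣ c) (hx : x - 1 ∈ span {((c / q : ℕ) : 𝓞 K)}) :
    ∃ k : ℤ, ((c / q : ℕ) : ℤ) ∣ k - 1 ∧ x - k ∈ w := by
  obtain ⟨r, rfl⟩ := d
  rw [Nat.mul_div_cancel_left _ (Nat.pos_of_mul_pos_right sq.ne_zero.bot_lt)] at hx ⊢
  obtain ⟨u, v, e⟩ := (Nat.coprime_of_squarefree_mul sq).cast (R := ℤ)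
  obtain ⟨k, hk⟩ := cn x
  obtain ⟨a, ha⟩ := mem_span_singleton'.1 hx
  have e' : (u : 𝓞 K) * q + v * r = 1 := by exact_mod_cast e
  refine ⟨u * q + k * v * r, ⟨k * v - v, by linear_combination e⟩, ?_⟩
  convert add_mem (w.mul_mem_left (v * r) hk) (w.mul_mem_left (u * a) hw) using 1
  push_cast
  linear_combination -x * e' - u * q * ha

theorem dv (hw : w * w' = span {(c : 𝓞 K)}) (a : x ∈ w) (b : y ∈ w') : (c : 𝓞 K) ∣ x * y :=
  mem_span_singleton.1 (hw ▸ mul_mem_mul a b)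

theorem cn (h : Rg c ξ) (sq : Squarefree c) (cp : w ⊔ w' = ⊤) (hw : w * w' = span {(c : 𝓞 K)})
    (cn : ∀ x : 𝓞 K, ∃ k : ℤ, x - k ∈ w') {k : ℤ} (hk : (k : 𝓞 K) ∈ w) : (c : ℤ) ∣ k := by
  have m : (c : 𝓞 K) ∈ w * w' := hw ▸ mem_span_singleton_self _
  obtain ⟨r, hr⟩ : k.gcd c ∣ c := by exact_mod_cast Int.gcd_dvd_right k c
  by_contra n
  obtain ⟨q, p, s, rfl⟩ := Nat.exists_prime_and_dvd (n := r) fun z => n (by
    rw [z, mul_one] at hr
    exact hr ▸ Int.gcd_dvd_left k c)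
  have d : q ∣ c := hr ▸ (dvd_mul_right q s).mul_left _
  have g : ((c / q : ℕ) : 𝓞 K) ∈ w := by
    rw [show c / q = k.gcd c * s from Nat.div_eq_of_eq_mul_right p.pos (by rw [mul_left_comm, ← hr]),
      Nat.cast_mul, ← Int.cast_natCast (k.gcd c), Int.gcd_eq_gcd_ab]
    push_cast
    exact w.mul_mem_right _ (add_mem (w.mul_mem_right _ hk) (w.mul_mem_right _ (mul_le_left m)))
  obtain ⟨x, a, b, b'⟩ := h.ram q p d
  obtain ⟨l, ⟨z, hz⟩, hl⟩ := ex_k sq (mul_le_right m) cn d a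
  have x0 : x ≠ 0 := fun z => b ((h.rc.zero _).2 (.inl (by simp [z])))
  have e : gg c ξ x = gg c ξ l := g_per h (mem_span_singleton.1 (hw ▸ mul_eq_inf_of_coprime cp ▸
    ⟨by
      have : (l : 𝓞 K) - 1 = (c / q : ℕ) * z := by
        generalize c / q = r at hz
        exact_mod_cast hz
      rw [← sub_sub_sub_cancel_right _ _ 1, this]
      exact sub_mem ((span_singleton_le_iff_mem _).2 g a) (w.mul_mem_right _ g), hl⟩))
  rw [← gg_eq (c := c) (ξ := ξ) x0, e] at b b'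
  exact b' (g_int h (cop_int (by simpa using g_ne h b)))

theorem cr (h : Rg c ξ) (hw : w * w' = span {(c : 𝓞 K)}) (a : e' ∈ w) (b : e ∈ w')
    (s : e' + e = 1) (cn : ∀ x : 𝓞 K, ∃ k : ℤ, x - k ∈ w)
    (z : ∀ k : ℤ, (k : 𝓞 K) ∈ w → (c : ℤ) ∣ k) : Cr c fun k => gg c ξ (k * e + e') := by
  obtain ⟨d, hd⟩ := dv hw a b
  have m : (c : 𝓞 K) ∈ w := mul_le_left (hw ▸ mem_span_singleton_self (c : 𝓞 K) : _ ∈ w * w')
  have one : gg c ξ ((1 : ℤ) * e + e') = 1 := by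
    rw [Int.cast_one, one_mul, add_comm, s, ← Int.cast_one, g_int h isCoprime_one_left]
  have mul : ∀ k l : ℤ, gg c ξ ((k * l : ℤ) * e + e') = gg c ξ (k * e + e') * gg c ξ (l * e + e') :=
    fun k l => (g_per h ⟨(k * l + 1 - k - l) * d, by
      push_cast
      linear_combination (k * l + 1 - k - l) * hd - (k * l * e + e') * s⟩).trans (g_mul h _ _)
  have per : ∀ k l : ℤ, (c : ℤ) ∣ k - l → gg c ξ (k * e + e') = gg c ξ (l * e + e') :=
    fun k l ⟨r, p⟩ => g_per h ⟨r * e, by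
      have : (k : 𝓞 K) - l = c * r := by exact_mod_cast p
      linear_combination e * this⟩
  refine ⟨one, mul, per, fun k => ⟨fun p ⟨u, v, q⟩ => ?_, fun p => by_contra fun n => p ?_⟩⟩
  · have := mul u k
    rw [p, mul_zero, per _ 1 ⟨-v, by linear_combination q⟩, one] at this
    exact one_ne_zero this
  · obtain ⟨u, v, q⟩ := g_ne h n
    obtain ⟨l, hl⟩ := cn u
    obtain ⟨r, hr⟩ := z (l * k - 1) (by
      convert sub_mem (sub_mem (w.mul_mem_left (u * (k - 1)) a) (w.mul_mem_left v m))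
        (w.mul_mem_right (k : 𝓞 K) hl) using 1
      push_cast
      linear_combination q - u * k * s)
    exact ⟨l, -r, by linear_combination hr⟩

theorem two (hs : Sp c w w') (sq : Squarefree c) (h : Rg c ξ) : ∃ χ, Cr c χ ∧ Cp c χ ∧
    ∀ (x : 𝓞 K) (k k' : ℤ), x ≠ 0 → x - k ∈ w → x - k' ∈ w' →
      ξ (span {x}) = χ k * conj (χ k') := by
  obtain ⟨e', a, e, b, s⟩ := Submodule.mem_sup.1 ((eq_top_iff_one _).1 hs.cop)
  have hw' := (mul_comm _ _).trans hs.mul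
  have m : (c : 𝓞 K) ∈ w * w' := hs.mul ▸ mem_span_singleton_self _
  have c1 := cr h hs.mul a b s hs.cn fun k => cn h sq hs.cop hs.mul hs.cn'
  have c2 := cr h hw' b a ((add_comm _ _).trans s) hs.cn' fun k =>
    cn h sq ((sup_comm _ _).trans hs.cop) hw' hs.cn
  have p : ∀ (x : 𝓞 K) (k k' : ℤ), x - k ∈ w → x - k' ∈ w' →
      gg c ξ x = gg c ξ (k * e + e') * gg c ξ (k' * e' + e) := fun x k k' u v => by
    refine (g_per h ?_).trans (g_mul h _ _)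
    convert ((dv hs.mul u b).add (dv hs.mul a v)).add
      ((dv hs.mul a b).mul_left (k + k' - k * k' - 1)) using 1
    linear_combination (-x - k * e - k' * e') * s
  have q : ∀ k : ℤ, gg c ξ (k * e' + e) = conj (gg c ξ (k * e + e')) := fun k => by
    by_cases r : IsCoprime k (c : ℤ)
    · rw [← cr_conj c1 sq.ne_zero (mt (c1.zero k).1 (not_not.2 r))]
      exact eq_inv_of_mul_eq_one_right ((p k k k (by simp) (by simp)).symm.trans (g_int h r))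
    · rw [(c1.zero k).2 r, (c2.zero k).2 r, map_zero]
  have f : ∀ (x : 𝓞 K) (k k' : ℤ), x ≠ 0 → x - k ∈ w → x - k' ∈ w' → ξ (span {x}) =
      gg c ξ (k * e + e') * conj (gg c ξ (k' * e + e')) := fun x k k' n u v => by
    rw [← gg_eq (c := c) (ξ := ξ) n, p x k k' u v, q]
  refine ⟨_, c1, fun r hr d => ?_, f⟩
  obtain ⟨x, u, v, v'⟩ := h.ram r hr d
  obtain ⟨k, k1, k2⟩ := ex_k sq (mul_le_left m) hs.cn d u
  obtain ⟨l, l1, l2⟩ := ex_k sq (mul_le_right m) hs.cn' d u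
  have x0 : x ≠ 0 := fun z => v ((h.rc.zero _).2 (.inl (by simp [z])))
  rw [f x k l x0 k2 l2] at v v'
  by_cases z : gg c ξ (k * e + e') = 1
  · exact ⟨l, l1, fun y : gg c ξ _ = 0 => v (by rw [y, map_zero, mul_zero]),
      fun y : gg c ξ _ = 1 => v' (by rw [y, z, map_one, mul_one])⟩
  · exact ⟨k, k1, left_ne_zero_of_mul v, z⟩

variable {j : K →+* Qb}

theorem eo_iff (r2 : RC2) (iq : Iq K) (hc : 0 < c) {g g' : GQ} (p : Cop c I) (p' : Cop c I')
    (a : Ar j c I g) (a' : Ar j c I' g') : Eo c I I' ↔ g⁻¹ * g' ∈ Hc j c := by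
  obtain ⟨r1, r, r3, r4, r5, -⟩ := r2 K j iq c hc
  refine ⟨fun ⟨k, k', x, y, u, v, z⟩ => ?_, fun h => ?_⟩
  · obtain ⟨s, hs⟩ := r1 _ u
    obtain ⟨s', hs'⟩ := r1 _ v
    have := (r4 _ _ _ (r3 _ _ _ _ p u a hs)).1
      (by rw [mul_comm I, z, mul_comm]; exact r3 _ _ _ _ p' v a' hs')
    simpa [mul_assoc] using mul_mem (mul_mem ((r5 _ _ u hs).2 ⟨_, _, rfl⟩) this)
      (inv_mem ((r5 _ _ v hs').2 ⟨_, _, rfl⟩))
  · obtain ⟨C, u, v⟩ := r _ (inv_mem a'.1) 1 one_pos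
    replace u := cop_le u
    obtain ⟨k, x, z⟩ := (r5 _ _ (cop_mul.2 ⟨p, u⟩) (r3 _ _ _ _ p u ((r4 _ _ _ a).2 h) v)).1
      (by simp)
    obtain ⟨k', y, z'⟩ := (r5 _ _ (cop_mul.2 ⟨p', u⟩) (r3 _ _ _ _ p' u a' v)).1 (by simp)
    exact ⟨k', k, y, x, z' ▸ cop_mul.2 ⟨p', u⟩, z ▸ cop_mul.2 ⟨p, u⟩, by rw [← z, ← z']; ring⟩

end Xx

open Xx

theorem xi (r2 : RC2) : XI := by
  refine ⟨fun e b n c χ ζ ad sq hz => ?_, fun K _ _ c w w' ξ hs sq h => two hs sq h⟩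
  have hc : 0 < c := sq.ne_zero.bot_lt
  obtain ⟨r1, r, r3, r4, r5, -⟩ := r2 b.K b.j b.iq c hc
  have k1 : ∀ g ∈ Hc b.j c, ζ ^ χ g = 1 := fun g k => by
    obtain ⟨d, hd⟩ := ad.ker g k
    rw [hd, pow_mul, hz, one_pow]
  have km : ∀ g ∈ b.Γ, ∀ h ∈ b.Γ, ζ ^ χ (g * h) = ζ ^ χ g * ζ ^ χ h := fun g p h q =>
    (pow_eq_pow_of_modEq (ad.add g p h q) hz).trans (pow_add _ _ _)
  have z0 : ζ ≠ 0 := fun k => by simp [k] at hz
  refine ⟨⟨fun I => if h : Cop c I then ζ ^ χ (r1 I h).choose else 0, fun I g p a => ?_,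
    fun I p => dif_neg p⟩, fun ξ h => ?_, fun T t ht hT => ?_⟩
  · have s := (r1 I p).choose_spec
    have k := (r4 _ _ _ s).1 a
    refine (dif_pos p).trans ?_
    rw [← mul_inv_cancel_left (r1 I p).choose g, km _ s.1 _ k.1, k1 _ k, mul_one]
  · have prn : ∀ (k : ℤ) (a : 𝓞 b.K), Cop c (span {k + c * a}) → ξ (span {k + c * a}) = 1 :=
      fun k a p => by
      obtain ⟨g, q⟩ := r1 _ p
      rw [h.1 _ g p q, k1 g ((r5 _ _ p q).2 ⟨_, _, rfl⟩)]
    have zr : ∀ I, ξ I = 0 ↔ ¬ Cop c I := fun I => ⟨fun k p => by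
      obtain ⟨g, q⟩ := r1 _ p
      exact pow_ne_zero _ z0 ((h.1 _ g p q).symm.trans k), h.2 I⟩
    have mul : ∀ I I', ξ (I * I') = ξ I * ξ I' := fun I I' => by
      by_cases p : Cop c (I * I')
      · obtain ⟨u, v⟩ := cop_mul.1 p
        obtain ⟨g, q⟩ := r1 _ u
        obtain ⟨g', q'⟩ := r1 _ v
        rw [h.1 _ _ p (r3 _ _ _ _ u v q q'), h.1 _ _ u q, h.1 _ _ v q', km _ q.1 _ q'.1]
      · rw [h.2 _ p, eq_comm, mul_eq_zero, zr, zr, ← not_and_or, ← cop_mul]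
        exact p
    have rat : ∀ k : ℤ, k ≠ 0 → IsCoprime k (c : ℤ) → ξ (span {(k : 𝓞 b.K)}) = 1 := fun k p q => by
      simpa using prn k 0 (cop_span.2 ⟨by simpa using p, by simpa using q.intCast (R := 𝓞 b.K)⟩)
    refine ⟨fun I => (em (Cop c I)).symm.imp (h.2 I) fun p => ?_, fun hr => ⟨⟨?_, ?_, mul,
      fun I => (zr I).trans (by rw [Cop, not_and_or, not_not]), fun x n p => ?_⟩, rat,
      fun q hq d => ?_⟩⟩
    · obtain ⟨g, q⟩ := r1 _ p
      rw [h.1 _ g p q, ← pow_mul, mul_comm, pow_mul, hz, one_pow]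
    · simpa using hc.ne'
    · simpa using rat 1 one_ne_zero isCoprime_one_left
    · obtain ⟨a, k⟩ := mem_span_singleton'.1 p
      obtain rfl : x = (1 : ℤ) + c * a := by push_cast; linear_combination -k
      exact prn 1 a (cop_span.2 ⟨n, 1, -a, by push_cast; ring⟩)
    · obtain ⟨P, o, g, hg, i, n⟩ := hr q hq d
      obtain ⟨s, rfl⟩ := d
      have cp := Nat.coprime_of_squarefree_mul sq
      have s0 := Nat.pos_of_mul_pos_left hc
      rw [Nat.mul_div_cancel_left _ hq.pos]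
      obtain ⟨I, p, a⟩ := r g hg 1 one_pos
      replace p := cop_le p
      obtain ⟨-, -, -, -, t5, t6, -⟩ := r2 b.K b.j b.iq s s0
      have p' : Cop (s * q) I := mul_comm q s ▸ p
      obtain ⟨k, x, rfl⟩ := (t5 I g (cop_le p') (t6 q I g hq.pos p' (mul_comm q s ▸ a))).1
        (Su.in_hc r2 b.iq s0 cp o hg i)
      obtain ⟨u, v, y⟩ := (cop_int (K := b.K) (a := k) (b := s) (by simpa using
        (cop_span.1 (cop_le p')).2)).mul_left (cp.cast (R := ℤ))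
      obtain ⟨u', v', y'⟩ := cp.cast (R := ℤ)
      have c1 : IsCoprime (u * q + v' * s) (q : ℤ) := ⟨1, u' - u, by linear_combination y'⟩
      have c2 : IsCoprime (u * q + v' * s) (s : ℤ) := ⟨k, v - k * v', by linear_combination y⟩
      have y0 : (u : 𝓞 b.K) * (k * q) + v * s = 1 := by exact_mod_cast y
      have f : ξ (span {((u * q + v' * s : ℤ) : 𝓞 b.K) * (k + s * x)}) = ζ ^ χ g := by
        rw [← span_singleton_mul_span_singleton, mul, h.1 _ g p a, rat _ (fun z => ?_)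
          (Nat.cast_mul (α := ℤ) q s ▸ c1.mul_right c2), one_mul]
        rw [z, isCoprime_zero_left, Int.ofNat_isUnit] at c1
        exact hq.not_isUnit c1
      refine ⟨_, mem_span_singleton'.2 ⟨v' * k - v + (u * q + v' * s) * x, ?_⟩,
        f ▸ pow_ne_zero _ z0, f ▸ n⟩
      push_cast
      linear_combination -y0
  · choose B h1 h2 using fun g : T => r g (hT.1 g g.2) t ht
    refine ⟨B, ⟨h1, fun I p => ?_⟩, h2⟩
    obtain ⟨g, a⟩ := r1 I p
    obtain ⟨s, ⟨u, v⟩, z⟩ := hT.2 g a.1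
    exact ⟨⟨s, u⟩, (eo_iff r2 b.iq hc p (cop_le (h1 _)) a (h2 _)).2 v, fun i k =>
      Subtype.ext (z i ⟨i.2, (eo_iff r2 b.iq hc p (cop_le (h1 _)) a (h2 _)).1 k⟩)⟩

end Vale.Agent.P004C.Ln
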