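import Vale.Agent.P004C.Ln.St2

/-!
# P004 C, block LN: parts of the export for the image `S₃`
-/

open NumberField Module
open scoped Classical

noncomputable section

namespace Vale.Agent.P004C.Ln

open P004F (Crv Fld)

/-- the character of weight `2 h k` and its type at `v` -/
def CS3 : Prop := ∀ (K : Type) [Field K] [NumberField K] (ι : ℂ →+* ℂ_[2]) (J : K →+* ℂ) (Ω : ℝ)
  (V : AbsoluteValue ℂ ℝ), Base ι J Ω → (∀ z, V z = ‖ι z‖) →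
  ∀ (L : Type) [Field L] [NumberField L] (f : Ideal (𝓞 L)) ψ, Dh f ψ →
  ∀ (M : Type) [Field M] [NumberField M] [Algebra K M] [Algebra L M], finrank K M = 2 →
  (∀ x : L, ∀ y : K, algebraMap L M x = algebraMap K M y → ∃ q : ℚ, x = q) →
  ∀ (g : Ideal (𝓞 L)) (n' : Ideal (𝓞 K)) (c h k : ℕ) ξ lam, g ⊔ Ideal.span {2} = ⊤ →
  (∃ s ∈ n', V (J s) = 1) → Odd c → Rg c ξ → La J h k lam →
  ∀ (F : Ideal (𝓞 M)) (a : Ideal (𝓞 M) → ℂ), F = (f * g).map (algebraMap (𝓞 L) (𝓞 M)) *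
    n'.map (algebraMap (𝓞 K) (𝓞 M)) * Ideal.span {(c : 𝓞 M)} →
  (∀ I, a I = ψ (Ideal.relNorm (𝓞 L) I) *
    (ξ (Ideal.relNorm (𝓞 K) I) * lam (Ideal.relNorm (𝓞 K) I))) →
  HC J (2 * h * k) F (Dp F a) ∧ (∀ I I', a (I * I') = a I * a I') ∧
    Cs ι J 2 1 (2 * h * k) (V ((discr L).natAbs * Ideal.absNorm f : ℕ)) F (Dp F a)

/-- no torsion modulo a prime over `l ≥ 7` -/
def TFX : Prop := ∀ (M : Type) [Field M] [NumberField M], finrank ℚ M ≤ 4 →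
  ∀ (w : Ideal (𝓞 M)) (l : ℕ), w.IsMaximal → l.Prime → l.Coprime 30 → (l : 𝓞 M) ∈ w → TF w

/-- the primes of `m` and of the level ideal -/
def PRM : Prop := ∀ (e : Crv) (b : Fld e) ι V, Pl ι V (e.P 2) → ∀ (m : ℕ) n n' ν, Lv b m n n' ν →
  e.S.prod ∣ m → (∀ p : ℕ, p.Prime → p ∣ m → p ∈ e.S) → (∃ s ∈ n', V (Jc b.j s) = 1) ∧
  P004K.Cn m n ∧ (∀ I, P004K.Cop m I → I ≠ ⊥ ∧ I ⊔ n = ⊤ ∧ ∃ s ∈ I, V (Jc b.j s) = 1) ∧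
  (∀ I : Ideal (𝓞 b.K), (Ideal.absNorm I).Coprime m → P004K.Cop m I) ∧
  ∀ (M : Type) [Field M] [NumberField M] [Algebra b.K M] (w : Ideal (𝓞 M)), w.IsMaximal →
    (n'.map (algebraMap (𝓞 b.K) (𝓞 M)) ≤ w → (tS b).map (algebraMap (𝓞 b.K) (𝓞 M)) ≤ w) ∧
    (∀ p ∈ e.S, p.Prime → p ≠ 2 → (p : 𝓞 M) ∈ w → (tS b).map (algebraMap (𝓞 b.K) (𝓞 M)) ≤ w) ∧
    (¬ n'.map (algebraMap (𝓞 b.K) (𝓞 M)) ≤ w →
      ((m : 𝓞 M) ∈ w ↔ Av ι (Jc b.j) w ∨ (tS b).map (algebraMap (𝓞 b.K) (𝓞 M)) ≤ w) ∧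
      ((tS b).map (algebraMap (𝓞 b.K) (𝓞 M)) ≤ w → 2 ∉ w ∧ ((e.S.prod / 2 : ℕ) : 𝓞 M) ∈ w))

end Vale.Agent.P004C.Ln
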