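import Vale.Agent.P004C.Ln.Anac1
import Vale.Agent.P004C.Ln.Bex
import Vale.Agent.P004C.Ln.St3

/-!
# P004 C, block LN: the form of weight one (tools for the row ANA3)
-/

open NumberField Module Ideal
open scoped Classical ComplexConjugate

noncomputable section

namespace Vale.Agent.P004C.Ln.A3

open P004F (Crv Fld)
open Wa (Chr MW QE co Sg RC Pm tg dp THG)
open Ac

variable {L : Type} [Field L] [NumberField L] {f w : Ideal (𝓞 L)} {ψ ε : Ideal (𝓞 L) → ℂ}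
  {sg : L → ℂ} {l r : ℕ} {V : AbsoluteValue ℂ ℝ}

/-- the twisted character -/
def ph (ψ ε : Ideal (𝓞 L) → ℂ) (I : Ideal (𝓞 L)) : ℂ := conj (ψ I) * ε I

/-- the auxiliary character -/
structure Tw (f : Ideal (𝓞 L)) (sg : L → ℂ) (l r : ℕ) (w : Ideal (𝓞 L)) (ε : Ideal (𝓞 L) → ℂ) :
    Prop where
  sgn : Sg sg
  pr : l.Prime
  cop : l.Coprime (30 * ((discr L).natAbs * absNorm f))
  nm : absNorm w = l
  rc : RC sg w ε
  pm : Pm sg w ε
  tp : ∀ I, ε I = 0 ∨ ε I ^ 2 ^ r = 1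

omit [NumberField L] in
theorem sg_mul (h : Sg sg) : (∀ x y, sg (x * y) = sg x * sg y) ∧ ∀ x, x ≠ 0 → sg x ≠ 0 := by
  rcases h with ⟨-, h⟩ | ⟨σ, h⟩
  · simp [h]
  · exact ⟨fun x y => by simp [h, sign_mul], fun x hx => by
      rw [h, Complex.ofReal_ne_zero]
      rcases lt_trichotomy (σ x) 0 with k | k | k
      exacts [by simp [sign_neg k], absurd k (by simpa using hx), by simp [sign_pos k]]⟩

theorem Tw.mem (T : Tw f sg l r w ε) : (l : 𝓞 L) ∈ w := T.nm ▸ absNorm_mem w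

theorem Tw.odd (T : Tw f sg l r w ε) : Odd l :=
  Nat.coprime_two_right.1 (T.cop.coprime_dvd_right (Dvd.dvd.mul_right (by norm_num) _))

theorem Tw.two (T : Tw f sg l r w ε) : w ⊔ span {2} = ⊤ :=
  sup_top T.mem (b := 2) (by exact_mod_cast mem_span_singleton_self _)
    (Nat.coprime_two_right.2 T.odd)

theorem Tw.ne (T : Tw f sg l r w ε) : w ≠ ⊤ := fun e =>
  T.pr.one_lt.ne' (by rw [← T.nm, e, absNorm_top])

theorem Tw.pow (T : Tw f sg l r w ε) {I : Ideal (𝓞 L)} (h : (absNorm I).Coprime l) :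
    ε I ^ 2 ^ (r + 1) = 1 := by
  rw [pow_succ, pow_mul, (T.tp I).resolve_left fun z => ((T.rc.zero I).1 z).elim
    (fun y => T.pr.one_lt.ne' (by simpa [y] using h)) fun y => y (sup_top (absNorm_mem I) T.mem h),
    one_pow]

theorem Tw.chr (hex : HEX) (D : Dh f ψ) (T : Tw f sg l r w ε) : RC sg (f * w) (ph ψ ε) ∧
    f * w ≠ ⊤ ∧ Pm sg (f * w) (ph ψ ε) ∧ At2 (f * w) := by
  have r1 : RC (fun _ => 1) f fun I => conj (ψ I) := ⟨D.rc.ne, by rw [D.rc.one, map_one],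
    fun I I' => by simp [D.rc.mul], fun I => by simpa using D.rc.zero I,
    fun x a b => by simp [D.rc.prn x a b]⟩
  have p1 : Pm (fun _ => 1) f fun I => conj (ψ I) := fun P g a b =>
    (D.pm P g a b).imp fun x k => ⟨k.1, k.2.1, k.2.2.1, fun z => k.2.2.2 (by
      simpa using congrArg conj z)⟩
  have := ((hex L).2 (fun _ => 1) (by simp) (by simp) f _ r1).2.2.2 sg w ε (sg_mul T.sgn).1
    (sg_mul T.sgn).2 T.rc (sup_top (absNorm_mem f) T.mem
      (T.cop.symm.coprime_dvd_left ((dvd_mul_left _ _).mul_left _)))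
  simp only [one_mul] at this
  have c : ∀ g : Ideal (𝓞 L), g ⊔ span {2} = ⊤ → g * w ⊔ span {2} = ⊤ := fun g k => by
    have := T.two
    rw [← isCoprime_iff_sup_eq] at *
    exact k.mul_left this
  refine ⟨this.1, fun e => T.ne (top_unique (e.ge.trans mul_le_right)), this.2 p1 T.pm,
    D.at2.imp (c f) fun ⟨a, g, b, k⟩ => ⟨a, g * w, by rw [b, mul_assoc], c g k⟩⟩

theorem v_sum (hV : V2 V) {α : Type} {ρ : ℝ} (h0 : 0 ≤ ρ) (s : Finset α) (u : α → ℂ)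
    (h : ∀ i ∈ s, V (u i) ≤ ρ) : V (∑ i ∈ s, u i) ≤ ρ :=
  Finset.sum_induction u (fun z => V z ≤ ρ) (fun _ _ => v_add hV) (by simpa using h0) h

theorem chr_pow {m N : ℕ} {χ : ℤ → ℂ} (h : Chr m χ) (m2 : 2 ∣ m) (o : Even N)
    (k : ∀ p : ℕ, p.Prime → p.Coprime m → χ p ^ N = 1) (d : ℤ) : χ d = 0 ∨ χ d ^ N = 1 := by
  have a : ∀ n : ℕ, χ n = 0 ∨ χ n ^ N = 1 := fun n => by
    induction n using Nat.recOnMul with
    | zero => exact Or.inl ((h.zero _).2 fun z => by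
        have := Nat.isCoprime_iff_coprime.1 z
        simp only [Nat.coprime_zero_left] at this
        omega)
    | one => exact Or.inr (by rw [Nat.cast_one, h.one, one_pow])
    | prime p hp =>
      exact or_iff_not_imp_left.2 fun z => k p hp (Nat.isCoprime_iff_coprime.1
        (by_contra fun y => z ((h.zero _).2 y)))
    | mul a b ha hb =>
      rw [Nat.cast_mul, h.mul, mul_eq_zero, mul_pow]
      rcases ha with u | u
      · exact Or.inl (Or.inl u)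
      · exact hb.imp Or.inr fun v => by rw [u, v, one_mul]
  obtain ⟨n, rfl | rfl⟩ := Int.eq_nat_or_neg d
  · exact a n
  · rw [← neg_one_mul, h.mul, h.odd, neg_one_mul, neg_eq_zero, o.neg_pow]
    exact a n

/-- the level, the character and the congruence of the coefficients -/
structure Fo (e : Crv) (V : AbsoluteValue ℂ ℝ) (g : Ideal (𝓞 L)) (φ : Ideal (𝓞 L) → ℂ)
    (r m₀ m : ℕ) (χ : ℤ → ℂ) (ρ : ℝ) : Prop where
  pos : 0 < m
  mem : (m₀ : 𝓞 L) ∈ g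
  two : 2 ∣ m₀
  pd : ∀ p : ℕ, p.Prime → p ∣ m → p ∣ m₀
  dm : (discr L).natAbs * m₀ ∣ m
  nm : e.N * e.S.prod ∣ m
  ms : ∀ p : ℕ, p.Prime → p ∣ m → p ∈ e.S
  chr : Chr m χ
  mw : MW (m ^ 2) χ (tg (dp m φ))
  pr : ∀ p : ℕ, p.Prime → p.Coprime m →
    χ p = (if (span {(p : 𝓞 L)}).IsPrime then -1 else 1) * φ (span {(p : 𝓞 L)})
  tp : ∀ d, χ d = 0 ∨ χ d ^ 2 ^ r = 1
  qe : QE (tg (dp m φ)) (co (dp m φ))
  lt : ρ < 1
  rt : ∀ z, z ^ 2 ^ r = 1 → V (z - 1) ≤ ρ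
  cg : ∀ s, P004F.Qx.Cq 2 (P004F.Qx.dp e.S.prod e.a) s → ∀ i : ℕ,
    V (s.coeff i - co (dp m φ) i) ≤ ρ

theorem form (hex : HEX) (thg : THG) (cfc : CFC) (D : Dh f ψ) (T : Tw f sg l r w ε)
    {e : Crv} (hl : l ∈ e.S) (fs : ∀ p : ℕ, p.Prime → p ∣ (discr L).natAbs * absNorm f → p ∈ e.S)
    (cg : ∀ p : ℕ, p.Prime → p ∉ e.S → ∃ k : ℤ, co ψ p = e.a p + 2 * k) (hV : V2 V) :
    ∃ m₀ m χ ρ, Fo e V (f * w) (ph ψ ε) (r + 1) m₀ m χ ρ := by
  obtain ⟨r1, r2, -, -⟩ := T.chr hex D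
  have sd : ∀ p : ℕ, p.Prime → (p ∣ e.S.prod ↔ p ∈ e.S) := fun p hp =>
    ⟨fun h => by
      obtain ⟨a, h1, h2⟩ := hp.prime.dvd_prod_iff.1 h
      rwa [(Nat.prime_dvd_prime_iff_eq hp (e.ov a h1).1).1 h2], List.dvd_prod⟩
  have R0 : 0 < e.S.prod := List.prod_pos fun p hp => (e.ov p hp).1.pos
  have N0 := e.rn.pos
  have d0 : 0 < (discr L).natAbs := Int.natAbs_pos.2 (discr_ne_zero L)
  have f0 : 0 < absNorm (f * w) := Nat.pos_of_ne_zero (mt absNorm_eq_zero_iff.1 r1.ne)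
  have ns : ∀ p : ℕ, p.Prime → p ∣ e.N → p ∈ e.S := fun p hp z =>
    by_contra fun y => (e.bad p hp y).1 (z.mul_right _)
  obtain ⟨m, hm⟩ : ∃ m, m = (discr L).natAbs * (e.S.prod * absNorm (f * w)) * e.N := ⟨_, rfl⟩
  have m0 : 0 < m := by rw [hm]; positivity
  have sm : e.S.prod ∣ m := ⟨(discr L).natAbs * absNorm (f * w) * e.N, by rw [hm]; ring⟩
  have r2' : 2 ∣ e.S.prod := List.dvd_prod e.two
  have ms : ∀ p : ℕ, p.Prime → p ∣ m → p ∈ e.S := fun p hp z => by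
    rw [hm, map_mul, T.nm] at z
    simp only [hp.dvd_mul] at z
    rcases z with (z | z | z | z) | z
    exacts [fs p hp (z.mul_right _), (sd p hp).1 z, fs p hp (z.mul_left _),
      (Nat.prime_dvd_prime_iff_eq hp T.pr).1 z ▸ hl, ns p hp z]
  have mem : ((e.S.prod * absNorm (f * w) : ℕ) : 𝓞 L) ∈ f * w :=
    mem_dvd (absNorm_mem _) (dvd_mul_left _ _)
  have pd : ∀ p : ℕ, p.Prime → p ∣ m → p ∣ e.S.prod * absNorm (f * w) := fun p hp z =>
    ((sd p hp).2 (ms p hp z)).mul_right _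
  obtain ⟨-, qe, -, H⟩ := thg L D.two sg _ _ T.sgn r1 r2
  obtain ⟨χ, c1, c2, -, c3⟩ := H _ m m0 mem (r2'.mul_right _) pd (hm ▸ dvd_mul_right _ _)
  obtain ⟨ρ, ρ1, hρ⟩ := Bx.unif hV (2 ^ (r + 1)) (by positivity) 0 one_pos
  have rt : ∀ z, z ^ 2 ^ (r + 1) = 1 → V (z - 1) ≤ max ρ (1 / 2) := fun z k =>
    (hρ z (v_tp hV _ k) (by simp [k])).trans (le_max_left _ _)
  have ev : Even (2 ^ (r + 1)) := by rw [pow_succ]; exact even_two.mul_left _
  have pp : ∀ p : ℕ, p.Prime → p ∉ e.S → ((if (span {(p : 𝓞 L)}).IsPrime then -1 else 1) *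
      ph ψ ε (span {(p : 𝓞 L)})) ^ 2 ^ (r + 1) = 1 := fun p hp z => by
    have a : ψ (span {(p : 𝓞 L)}) = 1 := (D.rat p).resolve_left fun y => ((D.rc.zero _).1 y).elim
      (fun u => hp.ne_zero (by simpa using u)) fun u => u (sup_top (mem_span_singleton_self _)
        (absNorm_mem f) (hp.coprime_iff_not_dvd.2 fun v => z (fs p hp (v.mul_left _))))
    have b := T.pow (I := span {(p : 𝓞 L)}) (by
      rw [Wa.Co.nm_span D.two]
      exact ((Nat.coprime_primes hp T.pr).2 fun v => z (v ▸ hl)).pow_left 2)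
    rw [mul_pow, ph, a, map_one, one_mul, b, mul_one]
    split_ifs
    exacts [ev.neg_one_pow, one_pow _]
  have ρ2 : max ρ (1 / 2) < 1 := max_lt ρ1 (by norm_num)
  refine ⟨_, m, χ, max ρ (1 / 2), m0, mem, r2'.mul_right _, pd, hm ▸ dvd_mul_right _ _,
    ⟨(discr L).natAbs * absNorm (f * w), by rw [hm]; ring⟩, ms, c1, c2, fun p a b => (c3 p a b).1,
    chr_pow c1 (r2'.trans sm) ev fun p a b => ?_, qe m, ρ2, rt, fun s hs i => ?_⟩
  · rw [(c3 p a b).1]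
    exact pp p a fun z => a.coprime_iff_not_dvd.1 b (((sd p a).2 z).trans sm)
  obtain ⟨H, h2⟩ := cfc.2.1 L D.two (ph ψ ε) r1.one r1.mul
  have cm : i.Coprime m ↔ i.Coprime e.S.prod := ⟨fun z => z.coprime_dvd_right sm, fun z =>
    Nat.coprime_of_dvd fun p hp a b => hp.one_lt.ne' (Nat.eq_one_of_dvd_coprimes z a
      ((sd p hp).2 (ms p hp b)))⟩
  rw [h2]
  simp only [cm]
  refine cfc.1 V hV e.N _ e.a _ _ _ s e.rn.one e.rn.te r2' (fun p hp z => ?_) (le_max_right _ _) ρ2.le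
    ⟨H.one, H.mul, fun p k hp z => H.pow p k hp fun y => z ((sd p hp).2 (fs p hp (y.mul_right _)))⟩
    hs i
  have y := mt (sd p hp).2 z
  obtain ⟨k, hk⟩ := cg p hp y
  refine ⟨fun t => y (ns p hp t), ?_, rt _ (pp p hp y)⟩
  have u : (e.a p : ℂ) = ∑ I ∈ Wa.Co.fs L p, conj (ψ I) - k * 2 := by
    rw [← map_sum, ← Wa.Co.co_eq, hk]
    simp only [map_add, map_mul, map_intCast, map_ofNat]
    ring
  rw [u, Wa.Co.co_eq, ← sub_add, ← Finset.sum_sub_distrib]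
  refine v_add hV (v_sum hV (le_max_of_le_right (by norm_num)) _ _ fun I hI => ?_)
    ((v_two hV (v_int hV k)).trans (le_max_right _ _))
  rw [ph, ← mul_sub_one]
  refine v_mul (v_root' three_ne_zero ((D.cub I).imp (fun t => by simp [t]) fun t => by
    rw [← map_pow, t, map_one])) (rt _ (T.pow ?_))
  rw [Wa.Co.mem_fs.1 hI]
  exact (Nat.coprime_primes hp T.pr).2 fun v => y (v ▸ hl)

end Vale.Agent.P004C.Ln.A3
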