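import Vale.Agent.P004C.Ln.St2

/-!
# P004 C, block LN: places above two, cubic characters (tools for the row ANAC)
-/

open NumberField Module
open scoped Classical ComplexConjugate

noncomputable section

namespace Vale.Agent.P004C.Ln.Ac

/-! ### places -/

section place

variable {V : AbsoluteValue ℂ ℝ} {x y : ℂ} {r : ℝ}

theorem v_add (h : V2 V) (hx : V x ≤ r) (hy : V y ≤ r) : V (x + y) ≤ r :=
  (h.1 x y).trans (max_le hx hy)

theorem v_sub (h : V2 V) (hx : V x ≤ r) (hy : V y ≤ r) : V (x - y) ≤ r := by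
  rw [sub_eq_add_neg]
  exact v_add h hx (by rwa [V.map_neg])

theorem v_mul (hx : V x ≤ 1) (hy : V y ≤ r) : V (x * y) ≤ r := by
  rw [V.map_mul]
  exact (mul_le_of_le_one_left (V.nonneg _) hx).trans hy

theorem v_int (h : V2 V) (k : ℤ) : V k ≤ 1 := h.1.apply_intCast_le_one

theorem v_two (h : V2 V) (hx : V x ≤ 1) : V (x * 2) ≤ 1 / 2 := v_mul hx h.2.le

theorem v_one (h : V2 V) (hx : V (x - 1) < 1) : V x = 1 := by
  have h1 := h.1 (x - 1) 1
  have h2 := h.1 x (-(x - 1))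
  rw [sub_add_cancel, V.map_one, max_eq_right hx.le] at h1
  rw [V.map_neg, show x + -(x - 1) = 1 by ring, V.map_one] at h2
  exact le_antisymm h1 ((le_max_iff.1 h2).resolve_right (not_le.2 hx))

theorem v_odd' (h : V2 V) {k : ℕ} (hk : Odd k) : V (k - 1) ≤ 1 / 2 := by
  obtain ⟨j, rfl⟩ := hk
  rw [show ((2 * j + 1 : ℕ) : ℂ) - 1 = ((j : ℤ) : ℂ) * 2 by push_cast; ring]
  exact v_two h (v_int h _)

theorem v_odd (h : V2 V) {k : ℕ} (hk : Odd k) : V k = 1 :=
  v_one h ((v_odd' h hk).trans_lt (by norm_num))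

theorem v_even (h : V2 V) {k : ℕ} (hk : 2 ∣ k) : V k ≤ 1 / 2 := by
  obtain ⟨j, rfl⟩ := hk
  rw [show ((2 * j : ℕ) : ℂ) = ((j : ℤ) : ℂ) * 2 by push_cast; ring]
  exact v_two h (v_int h _)

theorem v_root {n : ℕ} (hn : n ≠ 0) (hx : x ^ n = 1) : V x = 1 :=
  (pow_eq_one_iff_of_nonneg (V.nonneg x) hn).1 (by rw [← V.map_pow, hx, V.map_one])

theorem v_root' {n : ℕ} (hn : n ≠ 0) (hx : x = 0 ∨ x ^ n = 1) : V x ≤ 1 :=
  hx.elim (fun k => by rw [k, V.map_zero]; exact zero_le_one) fun k => (v_root hn k).le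

theorem v_pow (h : V2 V) (h1 : V x ≤ 1) (hx : V (x - 1) ≤ r) (n : ℕ) : V (x ^ n - 1) ≤ r := by
  induction n with
  | zero => simpa using (V.nonneg _).trans hx
  | succ n ih =>
    rw [show x ^ (n + 1) - 1 = x * (x ^ n - 1) + (x - 1) by ring]
    exact v_add h (v_mul h1 ih) hx

theorem v_tp (h : V2 V) (n : ℕ) : ∀ {x : ℂ}, x ^ 2 ^ n = 1 → V (x - 1) < 1 := by
  induction n with
  | zero => intro x hx; rw [pow_zero, pow_one] at hx; simp [hx]
  | succ n ih =>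
    intro x hx
    have h1 : V (x - 1) ≤ 1 := v_sub h (v_root (by positivity) hx).le V.map_one.le
    have h2 := ih (x := x ^ 2) (by rw [← pow_mul, ← pow_succ', hx])
    have h3 := h.1 (x ^ 2 - 1) (-((x - 1) * 2))
    rw [show x ^ 2 - 1 + -((x - 1) * 2) = (x - 1) ^ 2 by ring, V.map_neg, V.map_pow] at h3
    have h4 := h3.trans_lt (max_lt h2 ((v_two h h1).trans_lt (by norm_num)))
    exact (pow_lt_one_iff_of_nonneg (V.nonneg _) two_ne_zero).1 h4

theorem v_cube (h : V2 V) (hx : x ^ 3 = 1) (h1 : x ≠ 1) : V (1 - x) = 1 := by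
  have e : x ^ 2 + x + 1 = 0 :=
    (mul_eq_zero.1 (show (x - 1) * (x ^ 2 + x + 1) = 0 by linear_combination hx)).resolve_left
      (sub_ne_zero.2 h1)
  have h2 := v_root (V := V) three_ne_zero hx
  have h3 : V (1 - x) ≤ 1 := v_sub h V.map_one.le h2.le
  have h4 : V (1 - x ^ 2) ≤ 1 := v_sub h V.map_one.le (by rw [V.map_pow, h2, one_pow])
  have h5 : V (1 - x ^ 2) * V (1 - x) = 1 := by
    rw [← V.map_mul, show (1 - x ^ 2) * (1 - x) = ((3 : ℕ) : ℂ) by
      push_cast; linear_combination hx - e, v_odd h (by decide)]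
  exact le_antisymm h3 (h5.ge.trans (mul_le_of_le_one_left (V.nonneg _) h4))

/-- products of elements which are congruent to one -/
theorem v_mul_lt (h : V2 V) (hx : V (x - 1) < 1) (hy : V (y - 1) < 1) : V (x * y - 1) < 1 := by
  rw [show x * y - 1 = x * (y - 1) + (x - 1) by ring]
  exact (h.1 _ _).trans_lt (max_lt ((v_mul (v_one h hx).le le_rfl).trans_lt hy) hx)

end place

/-! ### characters -/

section chr

variable {f m : ℕ} {ψ : ℤ → ℂ}

/-- the character modulo `m` -/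
def cut (m : ℕ) (ψ : ℤ → ℂ) (d : ℤ) : ℂ := if IsCoprime d (m : ℤ) then ψ d else 0

theorem cr_one : Cr 1 fun _ => 1 :=
  ⟨rfl, fun _ _ => (one_mul _).symm, fun _ _ _ => rfl, fun a => by simp [isCoprime_one_right]⟩

theorem cr_cut (h : Cr f ψ) (hm : f ∣ m) : Cr m (cut m ψ) where
  one := by rw [cut, if_pos isCoprime_one_left, h.one]
  mul a b := by
    simp only [cut, IsCoprime.mul_left_iff, h.mul]
    by_cases k : IsCoprime a (m : ℤ) <;> by_cases k' : IsCoprime b (m : ℤ) <;> simp [k, k']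
  per a b k := by
    obtain ⟨t, ht⟩ := k
    have e : IsCoprime a (m : ℤ) ↔ IsCoprime b (m : ℤ) := by
      rw [show a = b + m * t by linear_combination ht, IsCoprime.add_mul_left_left_iff]
    simp only [cut, e, h.per a b ((Int.natCast_dvd_natCast.2 hm).trans ⟨t, ht⟩)]
  zero a := by
    rw [cut]
    split_ifs with k
    · simp [h.zero, k, k.of_isCoprime_of_dvd_right (Int.natCast_dvd_natCast.2 hm)]
    · simp [k]

theorem cr_conj (h : Cr f ψ) : Cr f fun d => conj (ψ d) :=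
  ⟨by simp [h.one], fun a b => by simp [h.mul], fun a b k => by rw [h.per a b k],
    fun a => by simp [h.zero]⟩

theorem cp_conj (h : Cp f ψ) : Cp f fun d => conj (ψ d) := fun q hq k => by
  obtain ⟨a, h1, h2, h3⟩ := h q hq k
  exact ⟨a, h1, by simpa using h2, fun e => h3 (by simpa using congrArg conj e)⟩

theorem cub_conj (h : ∀ d, ψ d = 0 ∨ ψ d ^ 3 = 1) (d : ℤ) :
    conj (ψ d) = 0 ∨ conj (ψ d) ^ 3 = 1 :=
  (h d).imp (fun k => by simp [k]) fun k => by rw [← map_pow, k, map_one]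

theorem neg_one (h : Cr f ψ) (h3 : ∀ d, ψ d = 0 ∨ ψ d ^ 3 = 1) : ψ (-1) = 1 := by
  have e := h.mul (-1) (-1)
  rw [neg_mul_neg, one_mul, h.one] at e
  rcases h3 (-1) with k | k
  · rw [k, zero_mul] at e; exact absurd e one_ne_zero
  · linear_combination k + ψ (-1) * e

/-- the coefficients of the Eisenstein series -/
def co4 (φ : ℤ → ℂ) (i : ℕ) : ℂ := ∑ x ∈ i.divisorsAntidiagonal, φ x.1 * conj (φ x.2) * x.2 ^ 3

theorem co4_zero {R i : ℕ} (hR : R ∣ m) (hi : ¬ i.Coprime R) : co4 (cut m ψ) i = 0 := by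
  refine Finset.sum_eq_zero fun x hx => ?_
  by_cases k : IsCoprime (x.1 : ℤ) (m : ℤ)
  · by_cases k' : IsCoprime (x.2 : ℤ) (m : ℤ)
    · refine absurd ?_ hi
      rw [← (Nat.mem_divisorsAntidiagonal.1 hx).1]
      exact ((Nat.isCoprime_iff_coprime.1 k).mul_left
        (Nat.isCoprime_iff_coprime.1 k')).coprime_dvd_right hR
    · simp [cut, k']
  · simp [cut, k]

theorem co4_cg (cfc : CFC) {V : AbsoluteValue ℂ ℝ} (hV : V2 V) (h : Cr f ψ) (hm : f ∣ m)
    (h3 : ∀ d, ψ d = 0 ∨ ψ d ^ 3 = 1) {N R : ℕ} {a : ℕ → ℤ} (a1 : a 1 = 1)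
    (te : P004N.TE N a fun n => (a n : ℂ)) (h2 : 2 ∣ R) (hR : R ∣ m)
    (hp : ∀ p : ℕ, p.Prime → ¬ p ∣ R → ¬ p ∣ N ∧ ¬ p ∣ m ∧
      ∃ k : ℤ, ψ p + conj (ψ p) = a p + 2 * k) (s) (hs : P004F.Qx.Cq 2 (P004F.Qx.dp R a) s)
    (i : ℕ) : V (s.coeff i - co4 (cut m ψ) i) ≤ 1 / 2 := by
  have c := cr_cut h hm
  have H := cfc.2.2 (cut m ψ) (fun d => conj (cut m ψ d)) c.one (cr_conj c).one c.mul
    (cr_conj c).mul
  have := cfc.1 V hV N R a _ (co4 (cut m ψ)) (1 / 2) s a1 te h2 (fun p pp k => ?_) le_rfl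
    (by norm_num) ⟨H.one, H.mul, fun p k pp _ => H.pow p k pp pp.not_dvd_one⟩ hs i
  · by_cases k : i.Coprime R
    · rwa [if_pos k] at this
    · rwa [if_neg k, ← co4_zero (ψ := ψ) hR k] at this
  obtain ⟨k1, k2, j, hj⟩ := hp p pp k
  have k3 : IsCoprime (p : ℤ) (m : ℤ) := Nat.isCoprime_iff_coprime.2 (pp.coprime_iff_not_dvd.2 k2)
  have k4 : cut m ψ p = ψ p := if_pos k3
  have k5 : ψ p ^ 3 = 1 := (h3 p).resolve_left fun e => (c.zero p).1 (k4.trans e) k3
  have k6 : V ((p : ℂ) ^ 3 - 1) ≤ 1 / 2 := by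
    exact_mod_cast v_odd' hV (k := p ^ 3) (pp.odd_of_ne_two fun e => k (e ▸ h2)).pow
  refine ⟨k1, ?_, ?_⟩
  · rw [co4, Nat.sum_divisorsAntidiagonal fun a b : ℕ =>
      cut m ψ a * conj (cut m ψ b) * (b : ℂ) ^ 3, pp.sum_divisors, Nat.div_self pp.pos, Nat.div_one,
      Nat.cast_one, c.one, k4, show ψ p * conj 1 * ((1 : ℕ) : ℂ) ^ 3 + 1 * conj (ψ p) * (p : ℂ) ^ 3 -
        a p = conj (ψ p) * ((p : ℂ) ^ 3 - 1) + j * 2 by
        simp only [map_one, Nat.cast_one]; linear_combination hj]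
    exact v_add hV (v_mul (v_root' three_ne_zero (cub_conj h3 p)) k6) (v_two hV (v_int hV j))
  · have k7 : ψ p * conj (ψ p) = 1 := by
      rw [Complex.mul_conj', Complex.norm_eq_one_of_pow_eq_one k5 three_ne_zero]; simp
    simp only [k4, k7, one_mul]
    exact k6

end chr

end Vale.Agent.P004C.Ln.Ac
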