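import Vale.Agent.P004C.Ln.St

/-!
# P004 C, block LN, row EI1, part a: Eisenstein series of weight four with bounded coefficients
-/

open UpperHalfPlane CongruenceSubgroup EisensteinSeries ModularForm Matrix
open scoped Classical MatrixGroups Real ComplexConjugate Manifold

noncomputable section

namespace Vale.Agent.P004C.Ln.Ei

open Vale.Agent.P022.H218.L3

/-- the series with coefficients `c` -/
def Ec (c : (Fin 2 → ℤ) → ℂ) (τ : ℍ) : ℂ := ∑' v, c v * eisSummand 4 v τ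

/-- right multiplication by a matrix -/
def vE (γ : SL(2, ℤ)) : (Fin 2 → ℤ) ≃ (Fin 2 → ℤ) where
  toFun v := v ᵥ* (γ : Matrix (Fin 2) (Fin 2) ℤ)
  invFun v := v ᵥ* ((γ⁻¹ : SL(2, ℤ)) : Matrix (Fin 2) (Fin 2) ℤ)
  left_inv v := by
    change (v ᵥ* _) ᵥ* _ = v
    have h := Matrix.SpecialLinearGroup.coe_mul γ γ⁻¹
    rw [mul_inv_cancel, Matrix.SpecialLinearGroup.coe_one] at h
    rw [vecMul_vecMul]
    exact (congrArg (v ᵥ* ·) h.symm).trans (vecMul_one v)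
  right_inv v := by
    change (v ᵥ* _) ᵥ* _ = v
    have h := Matrix.SpecialLinearGroup.coe_mul γ⁻¹ γ
    rw [inv_mul_cancel, Matrix.SpecialLinearGroup.coe_one] at h
    rw [vecMul_vecMul]
    exact (congrArg (v ᵥ* ·) h.symm).trans (vecMul_one v)

theorem ec_slash (c : (Fin 2 → ℤ) → ℂ) (γ : SL(2, ℤ)) :
    Ec c ∣[(4 : ℤ)] γ = Ec fun v => c ((vE γ).symm v) := by
  ext1 z
  have hd := zpow_ne_zero (4 : ℤ) (denom_ne_zero γ z)
  rw [SL_slash_apply, _root_.zpow_neg, mul_inv_eq_iff_eq_mul₀ hd, Ec, Ec, ← tsum_mul_right,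
    ← (vE γ).tsum_eq fun v => c ((vE γ).symm v) * eisSummand 4 v z * denom γ z ^ (4 : ℤ)]
  refine tsum_congr fun v => ?_
  rw [eisSummand_SL2_apply, Equiv.symm_apply_apply]
  change _ = c v * eisSummand 4 (v ᵥ* (γ : Matrix (Fin 2) (Fin 2) ℤ)) z * _
  ring

theorem sm_norm (z : ℍ) : Summable fun v : Fin 2 → ℤ => ‖eisSummand 4 v z‖ :=
  summable_norm_eisSummand (by norm_num) z

theorem sm_ec {c : (Fin 2 → ℤ) → ℂ} {C : ℝ} (hc : ∀ v, ‖c v‖ ≤ C) (z : ℍ) :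
    Summable fun v => ‖c v * eisSummand 4 v z‖ :=
  ((sm_norm z).mul_left C).of_nonneg_of_le (fun _ => norm_nonneg _) fun v => by
    rw [norm_mul]; exact mul_le_mul_of_nonneg_right (hc v) (norm_nonneg _)

theorem term_le {A B : ℝ} (hB : 0 < B) {z : ℍ} (hz : z ∈ verticalStrip A B) (v : Fin 2 → ℤ) :
    ‖eisSummand 4 v z‖ ≤ r ⟨⟨A, B⟩, hB⟩ ^ (-(4 : ℝ)) * ‖v‖ ^ (-(4 : ℝ)) := by
  have h := summand_bound_of_mem_verticalStrip (k := 4) (by norm_num) v hB hz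
  simp only [eisSummand, norm_zpow]
  exact_mod_cast h

theorem sm_bd (x : ℝ) : Summable fun v : Fin 2 → ℤ => x * ‖v‖ ^ (-(4 : ℝ)) :=
  (summable_one_div_norm_rpow (k := 4) (by norm_num)).mul_left x

theorem ec_le {c : (Fin 2 → ℤ) → ℂ} {C : ℝ} (hc : ∀ v, ‖c v‖ ≤ C) {A B : ℝ} (hB : 0 < B) {z : ℍ}
    (hz : z ∈ verticalStrip A B) :
    ‖Ec c z‖ ≤ ∑' v : Fin 2 → ℤ, C * r ⟨⟨A, B⟩, hB⟩ ^ (-(4 : ℝ)) * ‖v‖ ^ (-(4 : ℝ)) := by
  refine (norm_tsum_le_tsum_norm (sm_ec hc z)).trans ((sm_ec hc z).tsum_le_tsum (fun v => ?_)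
    (sm_bd _))
  rw [norm_mul, mul_assoc]
  exact mul_le_mul (hc v) (term_le hB hz v) (norm_nonneg _) ((norm_nonneg _).trans (hc v))

theorem ec_bdd {c : (Fin 2 → ℤ) → ℂ} {C : ℝ} (hc : ∀ v, ‖c v‖ ≤ C) :
    IsBoundedAtImInfty (Ec c) := by
  rw [UpperHalfPlane.isBoundedAtImInfty_iff]
  refine ⟨∑' v : Fin 2 → ℤ, C * r ⟨⟨(1 : ℕ), 1⟩, one_pos⟩ ^ (-(4 : ℝ)) * ‖v‖ ^ (-(4 : ℝ)), 1,
    fun z hz => ?_⟩
  obtain ⟨n, hn⟩ := ModularGroup_T_zpow_mem_verticalStrip z (N := 1) one_pos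
  set γ : SL(2, ℤ) := ModularGroup.T ^ (((1 : ℕ) : ℤ) * n) with hγ
  have h1 := congrFun (ec_slash c γ⁻¹) (γ • z)
  rw [SL_slash_apply, inv_smul_smul] at h1
  have h2 : denom (γ⁻¹ : SL(2, ℤ)) (γ • z : ℍ) = 1 := by
    rw [ModularGroup.denom_apply, hγ, ← _root_.zpow_neg]
    have h := ModularGroup.coe_T_zpow (-(((1 : ℕ) : ℤ) * n))
    have h0 := congrFun (congrFun h 1) 0
    have h1 := congrFun (congrFun h 1) 1
    rw [h0, h1]
    simp
  rw [h2, _root_.one_zpow, mul_one] at h1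
  rw [h1]
  exact ec_le (fun v => hc _) one_pos (verticalStrip_anti_right _ hz hn)

theorem ec_hol {c : (Fin 2 → ℤ) → ℂ} {C : ℝ} (hc : ∀ v, ‖c v‖ ≤ C) : Ec c ∈ Hol := by
  rw [mem_Hol, UpperHalfPlane.mdifferentiable_iff]
  intro z hz
  have hz : 0 < z.im := hz
  have hB : 0 < z.im / 2 := by linarith
  let U : Set ℂ := {w | |w.re| < |z.re| + 1 ∧ z.im / 2 < w.im}
  have hU : IsOpen U := (isOpen_lt Complex.continuous_re.abs continuous_const).inter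
    (isOpen_lt continuous_const Complex.continuous_im)
  have hzU : z ∈ U := ⟨by linarith, by linarith⟩
  have hd : DifferentiableOn ℂ
      (fun w : ℂ => ∑' v : Fin 2 → ℤ, c v * ((v 0 : ℂ) * w + v 1) ^ (-(4 : ℤ))) U := by
    refine Complex.differentiableOn_tsum_of_summable_norm
      (sm_bd (C * r ⟨⟨|z.re| + 1, z.im / 2⟩, hB⟩ ^ (-(4 : ℝ)))) (fun v => ?_) hU fun v w hw => ?_
    · exact ((div_linear_zpow_differentiableOn 4 v).mono fun w hw => hB.trans hw.2).const_mul _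
    · have hw0 : 0 < w.im := hB.trans hw.2
      have := term_le hB (z := ⟨w, hw0⟩) (A := |z.re| + 1) ⟨hw.1.le, hw.2.le⟩ v
      rw [norm_mul, mul_assoc]
      exact mul_le_mul (hc v) this (norm_nonneg _) ((norm_nonneg _).trans (hc v))
  refine (DifferentiableOn.differentiableAt (hd.congr fun w hw => ?_)
    (hU.mem_nhds hzU)).differentiableWithinAt
  have hw0 : 0 < w.im := hB.trans hw.2
  simp only [Function.comp, ofComplex_apply_of_im_pos hw0, Ec, eisSummand, coe_mk]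

/-- a bounded invariant system of coefficients gives a modular form -/
theorem ec_mf {c : (Fin 2 → ℤ) → ℂ} {C : ℝ} (hc : ∀ v, ‖c v‖ ≤ C) {Γ : Subgroup SL(2, ℤ)}
    (h : ∀ γ ∈ Γ, ∀ v, c (vE γ v) = c v) : IsMF Γ 4 (Ec c) where
  hol := ec_hol hc
  slash γ hγ := by
    rw [ec_slash]
    congr 1
    funext v
    rw [← h γ hγ, Equiv.apply_symm_apply]
  bdd γ := by
    rw [ec_slash]
    exact ec_bdd fun v => hc _

end Vale.Agent.P004C.Ln.Ei
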