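import Vale.Agent.P004C.Ln.Ei1a

/-!
# P004 C, block LN, row EI1, part b: the finite Fourier transform, the law
-/

open UpperHalfPlane CongruenceSubgroup EisensteinSeries ModularForm Matrix
open scoped Classical MatrixGroups Real ComplexConjugate Manifold

noncomputable section

namespace Vale.Agent.P004C.Ln.Ei

open Vale.Agent.P022.H218.L3
open Wa (ee QE)

theorem ee_add (x y : ℂ) : ee (x + y) = ee x * ee y := by
  simp only [ee, mul_add, Complex.exp_add]

theorem ee_int (k : ℤ) : ee k = 1 := by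
  rw [ee, mul_comm]; exact Complex.exp_int_mul_two_pi_mul_I k

theorem ee_pow (x : ℂ) (n : ℕ) : ee (n * x) = ee x ^ n := by
  rw [ee, ee, ← Complex.exp_nat_mul]; congr 1; ring

/-- the Fourier transform of the conjugate character -/
def ph (m : ℕ) (ψ : ℤ → ℂ) (w : ℤ) : ℂ :=
  ∑ d ∈ Finset.range m, conj (ψ d) * ee (-(d * w / m))

variable {m : ℕ} {ψ : ℤ → ℂ}

theorem sum_rz [NeZero m] (F : ℕ → ℂ) : ∑ d ∈ Finset.range m, F d = ∑ t : ZMod m, F t.val := by
  refine Finset.sum_nbij' (fun d => (d : ZMod m)) ZMod.val (fun _ _ => Finset.mem_univ _)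
    (fun t _ => Finset.mem_range.2 (ZMod.val_lt t))
    (fun d hd => ZMod.val_cast_of_lt (Finset.mem_range.1 hd)) (fun t _ => ZMod.natCast_zmod_val t)
    fun d hd => ?_
  rw [ZMod.val_cast_of_lt (Finset.mem_range.1 hd)]

theorem ee_std [NeZero m] (k : ℤ) : ee (k / m) = ZMod.stdAddChar (k : ZMod m) := by
  rw [ZMod.stdAddChar_coe, ee, mul_div_assoc]

theorem cr_eq (h : Cr m ψ) {a b : ℤ} (e : (a : ZMod m) = b) : ψ a = ψ b :=
  h.per a b ((ZMod.intCast_eq_intCast_iff_dvd_sub b a m).1 e.symm)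

theorem ph_eq [NeZero m] (w : ℤ) :
    ph m ψ w = ∑ t : ZMod m, conj (ψ t.val) * ZMod.stdAddChar (-(t * (w : ZMod m))) := by
  rw [ph, sum_rz]
  refine Finset.sum_congr rfl fun t _ => ?_
  have h := ee_std (m := m) (-(t.val * w))
  push_cast at h
  rw [ZMod.natCast_zmod_val] at h
  rw [← h, neg_div]

theorem ph_per [NeZero m] {a b : ℤ} (e : (a : ZMod m) = b) : ph m ψ a = ph m ψ b := by
  rw [ph_eq, ph_eq, e]

theorem ph_mul [NeZero m] (h : Cr m ψ) {a d : ℤ} (e : (a : ZMod m) * d = 1) (w : ℤ) :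
    ph m ψ (w * d) = conj (ψ a) * ph m ψ w := by
  rw [ph_eq, ph_eq, Finset.mul_sum]
  let u : (ZMod m)ˣ := ⟨a, d, e, by rw [mul_comm]; exact e⟩
  rw [← Equiv.sum_comp u.mulRight]
  refine Finset.sum_congr rfl fun t _ => ?_
  have h1 : ψ ((t * (a : ZMod m)).val : ℕ) = ψ a * ψ (t.val : ℕ) := by
    rw [← h.mul]
    refine cr_eq h ?_
    push_cast
    rw [ZMod.natCast_zmod_val, ZMod.natCast_zmod_val, mul_comm]
  change conj (ψ ((t * (a : ZMod m)).val : ℕ)) *
    ZMod.stdAddChar (-(t * (a : ZMod m) * ((w * d : ℤ) : ZMod m))) = _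
  rw [h1, map_mul, mul_assoc]
  congr 3
  push_cast
  linear_combination (-(t * w)) * e

theorem cr_pow (h : Cr m ψ) (a : ℤ) (n : ℕ) : ψ (a ^ n) = ψ a ^ n := by
  induction n with
  | zero => simpa using h.one
  | succ n ih => rw [pow_succ, h.mul, ih, pow_succ]

theorem cr_norm [NeZero m] (h : Cr m ψ) {a d : ℤ} (e : (a : ZMod m) * d = 1) : ‖ψ a‖ = 1 := by
  let u : (ZMod m)ˣ := ⟨a, d, e, by rw [mul_comm]; exact e⟩
  have h1 : ψ a ^ Fintype.card (ZMod m)ˣ = 1 := by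
    rw [← cr_pow h, ← h.one]
    refine cr_eq h ?_
    have h2 := congrArg Units.val (pow_card_eq_one (x := u))
    rw [Units.val_pow_eq_pow_val] at h2
    push_cast
    exact h2
  have h2 := congrArg norm h1
  rw [norm_pow, norm_one] at h2
  exact (pow_eq_one_iff_of_nonneg (norm_nonneg _) Fintype.card_ne_zero).1 h2

theorem cr_le [NeZero m] (h : Cr m ψ) (a : ℤ) : ‖ψ a‖ ≤ 1 := by
  by_cases ha : IsCoprime a (m : ℤ)
  · obtain ⟨x, y, e⟩ := ha
    have e' := congrArg (Int.cast : ℤ → ZMod m) e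
    push_cast at e'
    rw [ZMod.natCast_self, mul_zero, add_zero, mul_comm] at e'
    exact (cr_norm h e').le
  · rw [(h.zero a).2 ha, norm_zero]; exact zero_le_one

theorem cr_conj [NeZero m] (h : Cr m ψ) {a d : ℤ} (e : (a : ZMod m) * d = 1) :
    ψ a * conj (ψ a) = 1 := by
  rw [Complex.mul_conj, Complex.normSq_eq_norm_sq, cr_norm h e]; simp

theorem ph_le [NeZero m] (h : Cr m ψ) (w : ℤ) : ‖ph m ψ w‖ ≤ m := by
  rw [ph_eq]
  refine (norm_sum_le _ _).trans ((Finset.sum_le_card_nsmul _ _ 1 fun t _ => ?_).trans ?_)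
  · rw [norm_mul, Complex.norm_conj, ZMod.stdAddChar_apply, Circle.norm_coe, mul_one]
    exact cr_le h _
  · simp

theorem ph_neg [NeZero m] (h : Cr m ψ) (h1 : ψ (-1) = 1) (w : ℤ) : ph m ψ (-w) = ph m ψ w := by
  have := ph_mul h (a := -1) (d := -1) (by simp) w
  rwa [h1, map_one, one_mul, mul_neg, mul_one] at this

/-- inversion -/
theorem ph_inv [NeZero m] (h : Cr m ψ) (n : ℤ) :
    ∑ r ∈ Finset.range m, ph m ψ r * ee (n * r / m) = m * conj (ψ n) := by
  rw [sum_rz]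
  have h1 : ∀ r : ZMod m, ph m ψ (r.val : ℕ) * ee (n * (r.val : ℕ) / m) =
      ∑ t : ZMod m, conj (ψ t.val) * ZMod.stdAddChar (r * ((n : ZMod m) - t)) := fun r => by
    have h2 := ee_std (m := m) (n * r.val)
    push_cast at h2
    rw [ZMod.natCast_zmod_val] at h2
    rw [ph_eq, h2, Finset.sum_mul]
    refine Finset.sum_congr rfl fun t _ => ?_
    rw [mul_assoc, ← AddChar.map_add_eq_mul]
    congr 2
    push_cast
    rw [ZMod.natCast_zmod_val]
    ring
  rw [Finset.sum_congr rfl fun r _ => h1 r, Finset.sum_comm]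
  simp_rw [← Finset.mul_sum, AddChar.sum_mulShift _ (ZMod.isPrimitive_stdAddChar m)]
  rw [Finset.sum_eq_single (n : ZMod m)]
  · rw [if_pos (sub_self _), ZMod.card, mul_comm]
    congr 2
    refine cr_eq h ?_
    push_cast
    rw [ZMod.natCast_zmod_val]
  · intro t _ ht
    rw [if_neg (sub_ne_zero.2 ht.symm)]
    simp
  · exact fun h => absurd (Finset.mem_univ _) h

/-- the coefficients of the series -/
def cf (m : ℕ) (ψ : ℤ → ℂ) (v : Fin 2 → ℤ) : ℂ :=
  if (m : ℤ) ∣ v 0 then ψ (v 0 / m) * ph m ψ (v 1) else 0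

theorem cf_le [NeZero m] (h : Cr m ψ) (v : Fin 2 → ℤ) : ‖cf m ψ v‖ ≤ m := by
  unfold cf
  split_ifs
  · rw [norm_mul]
    exact (mul_le_mul (cr_le h _) (ph_le h _) (norm_nonneg _) zero_le_one).trans (one_mul _).le
  · simp

theorem cf_inv [NeZero m] (h : Cr m ψ) {γ : SL(2, ℤ)} (hγ : γ ∈ Gamma0 (m ^ 2)) (v : Fin 2 → ℤ) :
    cf m ψ (vE γ v) = cf m ψ v := by
  have hm : (m : ℤ) ≠ 0 := by exact_mod_cast NeZero.ne m
  rw [Gamma0_mem, ZMod.intCast_zmod_eq_zero_iff_dvd] at hγ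
  obtain ⟨c, hc⟩ := hγ
  push_cast at hc
  have hd := γ.det_coe
  rw [Matrix.det_fin_two, hc] at hd
  have h0 : vE γ v 0 = v 0 * γ 0 0 + v 1 * γ 1 0 := by
    simp [vE, vecMul, dotProduct, Fin.sum_univ_two]
  have h1 : vE γ v 1 = v 0 * γ 0 1 + v 1 * γ 1 1 := by
    simp [vE, vecMul, dotProduct, Fin.sum_univ_two]
  have e : ((γ 0 0 : ℤ) : ZMod m) * (γ 1 1 : ℤ) = 1 := by
    have e' := congrArg (Int.cast : ℤ → ZMod m) hd
    push_cast at e'
    rw [ZMod.natCast_self] at e'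
    linear_combination e'
  unfold cf
  rw [h0, h1, hc]
  by_cases hv : (m : ℤ) ∣ v 0
  · obtain ⟨u, hu⟩ := hv
    have h2 : v 0 * γ 0 0 + v 1 * ((m : ℤ) ^ 2 * c) = m * (u * γ 0 0 + m * (v 1 * c)) := by
      rw [hu]; ring
    rw [h2, if_pos (dvd_mul_right _ _), Int.mul_ediv_cancel_left _ hm, hu,
      if_pos (dvd_mul_right _ _), Int.mul_ediv_cancel_left _ hm,
      cr_eq h (a := u * γ 0 0 + m * (v 1 * c)) (b := u * γ 0 0) (by simp),
      ph_per (a := m * u * γ 0 1 + v 1 * γ 1 1) (b := v 1 * γ 1 1) (by simp), ph_mul h e, h.mul]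
    linear_combination (ψ u * ph m ψ (v 1)) * cr_conj h e
  · rw [if_neg hv, if_neg]
    intro h2
    refine hv ?_
    have h3 : v 0 = (v 0 * γ 0 0 + v 1 * ((m : ℤ) ^ 2 * c)) * γ 1 1 -
        m * (m * c * (v 1 * γ 1 1 + v 0 * γ 0 1)) := by
      linear_combination (-v 0) * hd
    rw [h3]
    exact dvd_sub (h2.mul_right _) (dvd_mul_right _ _)

theorem eis_eq [NeZero m] (τ : ℍ) : eis m ψ τ = m ^ 3 * 3 / (2 * π) ^ 4 * Ec (cf m ψ) τ := by
  have hm : (m : ℤ) ≠ 0 := by exact_mod_cast NeZero.ne m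
  have hi : Function.Injective fun x : ℤ × ℤ => (![m * x.1, x.2] : Fin 2 → ℤ) := by
    intro x y e
    have e0 := congrFun e 0
    have e1 := congrFun e 1
    simp only [cons_val_zero, cons_val_one] at e0 e1
    exact Prod.ext (mul_left_cancel₀ hm e0) e1
  rw [eis, Ec, ← hi.tsum_eq (f := fun v => cf m ψ v * eisSummand 4 v τ)]
  · congr 1
    refine tsum_congr fun x => ?_
    simp only [cf, eisSummand, cons_val_zero, cons_val_one, if_pos (dvd_mul_right (m : ℤ) x.1),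
      Int.mul_ediv_cancel_left _ hm, ph, _root_.zpow_neg, div_eq_mul_inv]
    congr 2
    push_cast
    rw [mul_comm (m : ℂ)]
    norm_cast
  · intro v hv
    by_cases h : (m : ℤ) ∣ v 0
    · obtain ⟨u, hu⟩ := h
      refine ⟨(u, v 1), funext fun i => ?_⟩
      fin_cases i
      · exact hu.symm
      · rfl
    · exact absurd (by simp [cf, h]) hv

theorem eis_mf [NeZero m] (h : Cr m ψ) : IsMF (Gamma0 (m ^ 2)) 4 (eis m ψ) := by
  have h1 : eis m ψ = Ec fun v => m ^ 3 * 3 / (2 * π) ^ 4 * cf m ψ v := by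
    funext τ
    rw [eis_eq, Ec, Ec, ← tsum_mul_left]
    simp only [mul_assoc]
  rw [h1]
  refine ec_mf (C := ‖(m ^ 3 * 3 / (2 * π) ^ 4 : ℂ)‖ * m) (fun v => ?_) fun γ hγ v => ?_
  · rw [norm_mul]; exact mul_le_mul_of_nonneg_left (cf_le h v) (norm_nonneg _)
  · rw [cf_inv h hγ]

end Vale.Agent.P004C.Ln.Ei
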