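import Vale.Agent.P004C.Ln.St

/-!
# P004 C, block LN: Gauss sums of characters modulo `f`
-/

open Finset
open scoped Classical Real ComplexConjugate

noncomputable section

namespace Vale.Agent.P004C.Ln.Ea

open Wa (ee)

theorem ee_add (x y : ℂ) : ee (x + y) = ee x * ee y := by
  rw [ee, ee, ee, mul_add, Complex.exp_add]

theorem ee_int (k : ℤ) : ee k = 1 := by
  rw [ee, mul_comm, Complex.exp_int_mul_two_pi_mul_I]

theorem ee_one {x : ℂ} (h : ee x = 1) : ∃ k : ℤ, x = k := by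
  obtain ⟨k, e⟩ := Complex.exp_eq_one_iff.1 h
  exact ⟨k, mul_left_cancel₀ Complex.two_pi_I_ne_zero (by rw [e, mul_comm])⟩

theorem ee_pow (x : ℂ) (n : ℕ) : ee (n * x) = ee x ^ n := by
  rw [ee, ee, mul_left_comm, Complex.exp_nat_mul]

/-- periodic functions -/
def Pe (M : ℕ) (F : ℤ → ℂ) : Prop := ∀ a b, (M : ℤ) ∣ a - b → F a = F b

variable {M f h : ℕ} {F ψ : ℤ → ℂ}

theorem Pe.aff (hM : 0 < M) (p : Pe M F) {k : ℤ} (c : IsCoprime k (M : ℤ)) (j : ℤ) :
    ∑ d ∈ range M, F (d * k + j) = ∑ d ∈ range M, F d := by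
  have : NeZero M := ⟨hM.ne'⟩
  have e : ∀ G : ℤ → ℂ, ∑ d ∈ range M, G d = ∑ x : ZMod M, G x.val := fun G =>
    (sum_bij (fun x _ => x.val) (fun x _ => mem_range.2 x.val_lt)
      (fun _ _ _ _ k => ZMod.val_injective M k)
      (fun d hd => ⟨d, mem_univ _, ZMod.val_cast_of_lt (mem_range.1 hd)⟩) fun _ _ => rfl).symm
  obtain ⟨u, hu⟩ := (ZMod.coe_int_isUnit_iff_isCoprime k M).2 c.symm
  rw [e fun d => F (d * k + j), e F,
    ← ((Units.mulRight u).trans (Equiv.addRight (j : ZMod M))).sum_comp fun x => F x.val]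
  refine sum_congr rfl fun x _ => p _ _ ((ZMod.intCast_zmod_eq_zero_iff_dvd _ _).1 ?_)
  simp [hu]

theorem Pe.mul (p : Pe f F) (h : ℕ) : ∑ d ∈ range (f * h), F d = h * ∑ d ∈ range f, F d := by
  induction h with
  | zero => simp
  | succ h k =>
    rw [Nat.mul_succ, sum_range_add, k, Nat.cast_succ, add_mul, one_mul]
    exact congrArg _ (sum_congr rfl fun d _ => p _ _ ⟨h, by push_cast; ring⟩)

theorem sum_dvd {p : ℕ} (hp : 0 < p) (F : ℤ → ℂ) (M : ℕ) :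
    ∑ d ∈ range (p * M), (if p ∣ d then F d else 0) = ∑ d ∈ range M, F (p * d) := by
  rw [← sum_filter]
  refine (sum_bij (fun d _ => p * d) (fun d hd => ?_) (fun _ _ _ _ k => ?_) (fun d hd => ?_)
    fun _ _ => by simp).symm
  · simpa [hp] using hd
  · exact Nat.eq_of_mul_eq_mul_left hp k
  · obtain ⟨a, d, rfl⟩ := mem_filter.1 hd
    exact ⟨d, by simpa [hp] using a, rfl⟩

theorem cr_pow (c : Cr f ψ) (k : ℤ) (n : ℕ) : ψ (k ^ n) = ψ k ^ n := by
  induction n with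
  | zero => simpa using c.one
  | succ n e => rw [pow_succ, c.mul, e, pow_succ]

theorem cr_root (hf : 0 < f) (c : Cr f ψ) {k : ℤ} (h : ψ k ≠ 0) : ∃ n, n ≠ 0 ∧ ψ k ^ n = 1 := by
  have : NeZero f := ⟨hf.ne'⟩
  obtain ⟨u, hu⟩ := (ZMod.coe_int_isUnit_iff_isCoprime k f).2 (not_not.1 (mt (c.zero k).2 h)).symm
  obtain ⟨n, n0, e⟩ := (isOfFinOrder_of_finite u).exists_pow_eq_one
  refine ⟨n, n0.ne', ?_⟩
  rw [← cr_pow c, ← c.one]
  refine c.per _ _ ((ZMod.intCast_zmod_eq_zero_iff_dvd _ _).1 ?_)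
  simpa [hu, sub_eq_zero] using congrArg Units.val e

theorem root_conj {z : ℂ} {n : ℕ} (n0 : n ≠ 0) (h : z ^ n = 1) : z * conj z = 1 := by
  rw [Complex.mul_conj', Complex.norm_eq_one_of_pow_eq_one h n0]
  simp

theorem cr_conj (hf : 0 < f) (c : Cr f ψ) {k : ℤ} (h : ψ k ≠ 0) : ψ k * conj (ψ k) = 1 :=
  let ⟨_, a, b⟩ := cr_root hf c h
  root_conj a b

/-- the Gauss sum modulo `M`, without the primes of `R` -/
def gs (ψ : ℤ → ℂ) (R : Finset ℕ) (M : ℕ) (w : ℤ) : ℂ :=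
  ∑ d ∈ range M, (if ∀ p ∈ R, ¬ p ∣ d then conj (ψ d) else 0) * ee (-(d * w / M))

theorem gs_zero (ψ : ℤ → ℂ) (M : ℕ) (w : ℤ) :
    gs ψ ∅ M w = ∑ d ∈ range M, conj (ψ d) * ee (-((d : ℤ) * w / M)) := by simp [gs]

theorem ee_per (hM : 0 < M) {a b : ℤ} (h : (M : ℤ) ∣ a - b) : ee (-(a / M)) = ee (-(b / M)) := by
  obtain ⟨k, e⟩ := h
  have : (M : ℂ) ≠ 0 := Nat.cast_ne_zero.2 hM.ne'
  rw [show (-(a / M) : ℂ) = -(b / M) + (-k : ℤ) by
    rw [eq_add_of_sub_eq e]; push_cast; field_simp; ring, ee_add, ee_int, mul_one]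

theorem pe_gs (c : Cr f ψ) (hM : 0 < M) (d : f ∣ M) (w : ℤ) :
    Pe M fun d => conj (ψ d) * ee (-(d * w / M)) := fun a b k => by
  have := ee_per hM (a := a * w) (b := b * w) (sub_mul a b w ▸ k.mul_right w)
  push_cast at this
  simp only [this, c.per a b ((Int.natCast_dvd_natCast.2 d).trans k)]

theorem gs_mul (hf : 0 < f) (c : Cr f ψ) {k : ℤ} (h : ψ k ≠ 0) (w : ℤ) :
    gs ψ ∅ f (k * w) = ψ k * gs ψ ∅ f w := by
  rw [gs_zero, gs_zero, ← (pe_gs c hf dvd_rfl w).aff hf (not_not.1 (mt (c.zero k).2 h)) 0, mul_sum]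
  refine sum_congr rfl fun d _ => ?_
  rw [add_zero, c.mul, map_mul]
  push_cast
  rw [mul_assoc (d : ℂ)]
  linear_combination (-conj (ψ d) * ee (-(d * (k * w) / f))) * cr_conj hf c h

theorem gs_eq (hf : 0 < f) (c : Cr f ψ) (p : Cp f ψ) (w : ℤ) : gs ψ ∅ f w = ψ w * gs ψ ∅ f 1 := by
  by_cases h : ψ w = 0
  · obtain ⟨q, hq, q1, q2⟩ := (Int.isCoprime_iff_gcd_eq_one.not.1 ((c.zero w).1 h) |>
      Nat.Prime.not_coprime_iff_dvd.1 : ∃ q : ℕ, q.Prime ∧ q ∣ w.natAbs ∧ q ∣ f)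
    obtain ⟨k, k1, k2, k3⟩ := p q hq q2
    have e : gs ψ ∅ f (k * w) = gs ψ ∅ f w := by
      rw [gs_zero, gs_zero]
      refine sum_congr rfl fun d _ => ?_
      have := ee_per hf (a := d * (k * w)) (b := d * w) (by
        rw [← mul_sub, ← sub_one_mul, ← Nat.div_mul_cancel q2, Nat.cast_mul]
        exact (mul_dvd_mul k1 (Int.natCast_dvd.2 q1)).mul_left _)
      push_cast at this ⊢
      rw [this]
    rw [gs_mul hf c k2] at e
    rw [h, zero_mul]
    exact by_contra fun n => k3 (mul_right_cancel₀ n (e.trans (one_mul _).symm))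
  · rw [← gs_mul hf c h, mul_one]

theorem gs_lift (hf : 0 < f) (h0 : 0 < h) (c : Cr f ψ) (p : Cp f ψ) (w : ℤ) :
    gs ψ ∅ (f * h) w = gs ψ ∅ f 1 * h * if (h : ℤ) ∣ w then ψ (w / h) else 0 := by
  have f0 : (f : ℂ) ≠ 0 := Nat.cast_ne_zero.2 hf.ne'
  have h1 : (h : ℂ) ≠ 0 := Nat.cast_ne_zero.2 h0.ne'
  split_ifs with k
  · obtain ⟨w, rfl⟩ := k
    rw [Int.mul_ediv_cancel_left _ (by exact_mod_cast h0.ne'), mul_right_comm, mul_comm _ (ψ w),
      ← gs_eq hf c p, gs_zero, gs_zero, mul_comm _ (h : ℂ), ← (pe_gs c hf dvd_rfl w).mul h]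
    refine sum_congr rfl fun d _ => ?_
    congr 3
    push_cast
    field_simp
  · have e := (pe_gs c (Nat.mul_pos hf h0) (dvd_mul_right f h) w).aff (Nat.mul_pos hf h0)
      isCoprime_one_left f
    have e2 : gs ψ ∅ (f * h) w = ee (-(w / h)) * gs ψ ∅ (f * h) w := by
      rw [gs_zero, mul_sum, ← e]
      refine sum_congr rfl fun d _ => ?_
      rw [c.per (d * 1 + f) d (by simp), mul_left_comm, ← ee_add]
      congr 2
      push_cast
      field_simp
      ring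
    rw [mul_zero]
    refine by_contra fun n => k ?_
    obtain ⟨j, hj⟩ := ee_one (mul_right_cancel₀ n (e2.symm.trans (one_mul _).symm))
    refine ⟨-j, ?_⟩
    rw [neg_eq_iff_eq_neg, div_eq_iff h1] at hj
    exact_mod_cast hj.trans (mul_comm _ _)

theorem gs_ins (c : Cr f ψ) {R : Finset ℕ} {p : ℕ} (hp : p.Prime) (hR : ∀ q ∈ R, q.Prime)
    (n : p ∉ R) (M : ℕ) (w : ℤ) :
    gs ψ (insert p R) (p * M) w = gs ψ R (p * M) w - conj (ψ p) * gs ψ R M w := by
  have p0 : (p : ℂ) ≠ 0 := Nat.cast_ne_zero.2 hp.ne_zero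
  have e := sum_dvd hp.pos (fun d => (if ∀ q ∈ R, ¬ (q : ℤ) ∣ d then conj (ψ d) else 0) *
    ee (-(d * w / (p * M : ℕ)))) M
  have e2 : conj (ψ p) * gs ψ R M w = ∑ d ∈ range M, (if ∀ q ∈ R, ¬ (q : ℤ) ∣ (p : ℤ) * (d : ℕ)
      then conj (ψ (p * d)) else 0) * ee (-((p * d : ℤ) * w / (p * M : ℕ))) := by
    rw [gs, mul_sum]
    refine sum_congr rfl fun d _ => ?_
    have : (∀ q ∈ R, ¬ (q : ℤ) ∣ (p : ℤ) * (d : ℕ)) ↔ ∀ q ∈ R, ¬ q ∣ d :=
      forall₂_congr fun q hq => by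
        rw [← Nat.cast_mul, Int.natCast_dvd_natCast, (hR q hq).dvd_mul,
          Nat.prime_dvd_prime_iff_eq (hR q hq) hp, or_iff_right fun k : q = p => n (k ▸ hq)]
    simp only [this, c.mul, map_mul]
    push_cast
    rw [mul_assoc (p : ℂ), mul_div_mul_left _ _ p0]
    split_ifs <;> ring
  rw [e2, ← e, gs, gs, ← sum_sub_distrib]
  refine sum_congr rfl fun d _ => ?_
  simp only [forall_mem_insert, Int.natCast_dvd_natCast, Int.cast_natCast]
  by_cases k : p ∣ d <;> simp [k]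

variable {V : AbsoluteValue ℂ ℝ}

theorem v_root {z : ℂ} {n : ℕ} (n0 : n ≠ 0) (h : z ^ n = 1) : V z = 1 :=
  (pow_eq_one_iff_of_nonneg (V.nonneg z) n0).1 (by rw [← map_pow, h, map_one])

theorem v_sum (v : IsNonarchimedean V) {α : Type} (s : Finset α) {g : α → ℂ}
    (h : ∀ i ∈ s, V (g i) ≤ 1) : V (∑ i ∈ s, g i) ≤ 1 :=
  sum_induction g (fun z => V z ≤ 1) (fun a b x y => (v a b).trans (max_le x y)) (by simp) h

theorem v_nat (v : IsNonarchimedean V) (n : ℕ) : V n ≤ 1 := by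
  simpa using v_sum v (range n) (g := fun _ => 1) (by simp)

theorem v_odd (v : V2 V) {n : ℕ} (h : Odd n) : V n = 1 := by
  obtain ⟨k, rfl⟩ := h
  refine (v_nat v.1 _).antisymm (not_lt.1 fun l => ?_)
  have := v.1 ((2 * k + 1 : ℕ) : ℂ) (-(2 * k))
  have e := v_nat v.1 k
  rw [V.map_neg, map_mul, v.2, show ((2 * k + 1 : ℕ) : ℂ) + -(2 * k) = 1 by push_cast; ring,
    map_one] at this
  exact absurd (max_lt l (by linarith)) (not_lt.2 this)

theorem v_cr (hf : 0 < f) (c : Cr f ψ) {k : ℤ} (h : ψ k ≠ 0) : V (ψ k) = 1 :=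
  let ⟨_, a, b⟩ := cr_root hf c h
  v_root a b

theorem v_gs (v : V2 V) (o : Odd f) (c : Cr f ψ) (p : Cp f ψ) : V (gs ψ ∅ f 1) = 1 := by
  have hf := o.pos
  have f0 : (f : ℂ) ≠ 0 := Nat.cast_ne_zero.2 hf.ne'
  have r : ∀ a : ℤ, V (ee (a / f)) = 1 := fun a =>
    v_root hf.ne' (by rw [← ee_pow, mul_div_cancel₀ _ f0, ee_int])
  have l : ∀ d, V (ψ d) ≤ 1 ∧ V (conj (ψ d)) ≤ 1 := fun d => by
    by_cases h : ψ d = 0
    · simp [h]
    · obtain ⟨n, a, b⟩ := cr_root hf c h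
      exact ⟨(v_root a b).le, (v_root a (by rw [← map_pow, b, map_one])).le⟩
  have e : gs ψ ∅ f 1 * ∑ d ∈ range f, ψ (d : ℕ) * ee ((d : ℤ) / f) = f := by
    have k : ∀ j : ℤ, ∑ d ∈ range f, conj (ψ (j + 1)) * ee (-(d * j / f)) =
        if (f : ℤ) ∣ j then (f : ℂ) else 0 := fun j => by
      have := gs_lift (ψ := fun _ => 1) (f := 1) one_pos hf ⟨rfl, fun _ _ => (one_mul _).symm,
        fun _ _ _ => rfl, fun a => by simp [isCoprime_one_right]⟩
        (fun q hq d => absurd (Nat.dvd_one.1 d) hq.ne_one) j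
      simp only [gs_zero, one_mul, map_one, range_one, sum_singleton, Int.cast_natCast] at this
      rw [← mul_sum, this]
      split_ifs with d
      · rw [c.per (j + 1) 1 (by simpa using d), c.one]
        simp [ee]
      · simp
    have k2 := (show Pe f fun j => if (f : ℤ) ∣ j then (f : ℂ) else 0 from fun a b d => by
      simp only [dvd_iff_dvd_of_dvd_sub d]).aff hf isCoprime_one_left (-1)
    have k3 := sum_dvd hf (fun _ => (f : ℂ)) 1
    simp only [mul_one, Int.natCast_dvd_natCast, range_one, sum_singleton] at k2 k3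
    refine Eq.trans ?_ (((sum_congr rfl fun (a : ℕ) _ => k (a + -1)).trans k2).trans k3)
    rw [mul_sum, sum_comm]
    refine sum_congr rfl fun d _ => ?_
    rw [← mul_assoc, mul_comm _ (ψ _), ← gs_eq hf c p, gs_zero, sum_mul]
    refine sum_congr rfl fun a _ => ?_
    rw [mul_assoc, ← ee_add, neg_add_cancel_right]
    congr 2
    push_cast
    ring
  have a : V (gs ψ ∅ f 1) ≤ 1 := by
    rw [gs_zero]
    refine v_sum v.1 _ fun d _ => ?_
    have := r (-d)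
    push_cast at this ⊢
    rw [map_mul, mul_one, ← neg_div, this, mul_one]
    exact (l d).2
  have b : V (∑ d ∈ range f, ψ (d : ℕ) * ee ((d : ℤ) / f)) ≤ 1 :=
    v_sum v.1 _ fun d _ => by rw [map_mul, r, mul_one]; exact (l d).1
  have := congrArg V e
  rw [map_mul, v_odd v o] at this
  exact a.antisymm (this.ge.trans (mul_le_of_le_one_right (V.nonneg _) b))

/-- removing the primes of `R` one after the other -/
theorem ind (hf : 0 < f) (c : Cr f ψ) (p : Cp f ψ) {m : ℕ} (m0 : 0 < m) {Pr : (ℤ → ℂ) → ℂ → Prop}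
    (lin : ∀ g g' z z' κ κ', Pr g z → Pr g' z' → Pr (fun w => κ * g w + κ' * g' w) (κ * z + κ' * z'))
    {A α : ℕ → ℂ}
    (base : ∀ h, f * h ∣ m → Pr (fun w => if (h : ℤ) ∣ w then ψ (w / h) else 0) (A h))
    (mul : ∀ h q, f * (q * h) ∣ m → A (q * h) = A h * α q) (R : Finset ℕ)
    (hR : ∀ q ∈ R, q.Prime ∧ ψ q ≠ 0 ∧ α q ≠ 0) : ∀ h, ∏ q ∈ R, q ∣ h → f * h ∣ m →
    Pr (gs ψ R (f * h)) (gs ψ ∅ f 1 * h * A h * ∏ q ∈ R, (1 - (q * (ψ q * α q))⁻¹)) := by
  induction R using Finset.induction_on with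
  | empty =>
    intro h _ d
    have := lin _ _ _ _ (gs ψ ∅ f 1 * h) 0 (base h d) (base h d)
    simp only [zero_mul, add_zero,
      ← gs_lift hf (Nat.pos_of_mul_pos_left (Nat.pos_of_dvd_of_pos d m0)) c p] at this
    simpa using this
  | insert q R n ih =>
    intro h d1 d2
    obtain ⟨hq, q1, q2⟩ := hR q (mem_insert_self q R)
    replace hR := fun r hr => hR r (mem_insert_of_mem hr)
    rw [prod_insert n] at d1 ⊢
    obtain ⟨h, rfl⟩ := (dvd_mul_right _ _).trans d1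
    have d3 := Nat.dvd_of_mul_dvd_mul_left hq.pos d1
    have := lin _ _ _ _ 1 (-conj (ψ q)) (ih hR _ (d3.mul_left q) d2)
      (ih hR h d3 ((mul_dvd_mul_left f (dvd_mul_left h q)).trans d2))
    have q0 : (q : ℂ) ≠ 0 := Nat.cast_ne_zero.2 hq.ne_zero
    have e : gs ψ (insert q R) (f * (q * h)) =
        fun w => 1 * gs ψ R (f * (q * h)) w + -conj (ψ q) * gs ψ R (f * h) w := funext fun w => by
      rw [mul_left_comm f, gs_ins c hq (fun r hr => (hR r hr).1) n]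
      ring
    rw [e]
    refine Eq.mp (congrArg _ ?_) this
    rw [mul h q d2, eq_inv_of_mul_eq_one_right (cr_conj hf c q1)]
    push_cast
    field_simp
    ring

end Vale.Agent.P004C.Ln.Ea
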