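import Vale.Agent.P004C.Ln.St
import Vale.Agent.P004C.Wa.Cj

/-!
# P004 C, block LN: classes for the order of conductor `c`
-/

set_option linter.unusedSectionVars false

open NumberField Ideal
open scoped Classical

noncomputable section

namespace Vale.Agent.P004C.Ln.Eb

open P004K (Cop)
open Wa Wa.Cj

variable {K : Type} [Field K] [NumberField K] {J : K →+* ℂ} {θ : 𝓞 K} {s : 𝓞 K ≃+* 𝓞 K}
  {c t : ℕ} {a a' b x y : 𝓞 K} {I I' B B' : Ideal (𝓞 K)} {ξ : Ideal (𝓞 K) → ℂ}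

/-- in the order -/
def Od (c : ℕ) (y : 𝓞 K) : Prop := ∃ (k : ℤ) (x : 𝓞 K), y = k + c * x

/-- in the order and prime to `c` -/
def Un (c : ℕ) (a : 𝓞 K) : Prop := Od c a ∧ Cop c (span {a})

theorem od_int (k : ℤ) : Od c (k : 𝓞 K) := ⟨k, 0, by simp⟩

theorem od_c (x : 𝓞 K) : Od c ((c : 𝓞 K) * x) := ⟨0, x, by simp⟩

theorem Od.add (h : Od c x) (k : Od c y) : Od c (x + y) :=
  let ⟨u, v, e⟩ := h
  let ⟨u', v', e'⟩ := k
  ⟨u + u', v + v', by rw [e, e']; push_cast; ring⟩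

theorem Od.mul (h : Od c x) (k : Od c y) : Od c (x * y) :=
  let ⟨u, v, e⟩ := h
  let ⟨u', v', e'⟩ := k
  ⟨u * u', u * v' + v * y, by rw [e, e']; push_cast; ring⟩

theorem Od.neg (h : Od c x) : Od c (-x) := by simpa using (od_int (-1)).mul h

theorem cop_mul : Cop c (I * I') ↔ Cop c I ∧ Cop c I' := by
  simp only [Cop, ← isCoprime_iff_sup_eq, IsCoprime.mul_left_iff, ne_eq, mul_eq_bot]
  tauto

theorem cop_of (h : Cop (c * t) I) : Cop c I ∧ Cop t I := by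
  simp only [Cop, ← isCoprime_iff_sup_eq, Nat.cast_mul, ← span_singleton_mul_span_singleton,
    IsCoprime.mul_right_iff] at h ⊢
  tauto

theorem cop_el : Cop c (span {a}) ↔ a ≠ 0 ∧ IsCoprime a c := by
  rw [Cop, ← isCoprime_iff_sup_eq, isCoprime_span_singleton_iff, ne_eq, span_singleton_eq_bot]

theorem cop_map (h : Cop c I) : Cop c (I.map s) :=
  ⟨fun k => h.1 ((map_eq_bot_iff_of_injective s.injective).1 k), by
    have := congrArg (map s) h.2
    rwa [Ideal.map_sup, map_span, Set.image_singleton, map_natCast, Ideal.map_top] at this⟩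

theorem Un.mul (h : Un c a) (k : Un c b) : Un c (a * b) :=
  ⟨h.1.mul k.1, span_singleton_mul_span_singleton a b ▸ cop_mul.2 ⟨h.2, k.2⟩⟩

theorem un_one : Un c (1 : 𝓞 K) :=
  ⟨by simpa using od_int 1, cop_el.2 ⟨one_ne_zero, isCoprime_one_left⟩⟩

theorem un_nm (g : Cg J θ s) (h : Cop c I) : Un c (absNorm I : 𝓞 K) :=
  ⟨by simpa using od_int (absNorm I), g.nm I ▸ cop_mul.2 ⟨h, cop_map h⟩⟩

theorem eo_iff : Eo c I I' ↔ ∃ a a', Un c a ∧ Un c a' ∧ span {a} * I = span {a'} * I' :=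
  ⟨fun ⟨k, k', x, y, p, q, e⟩ => ⟨_, _, ⟨⟨k, x, rfl⟩, p⟩, ⟨⟨k', y, rfl⟩, q⟩, e⟩,
    fun ⟨_, _, ⟨⟨k, x, p⟩, p'⟩, ⟨⟨k', y, q⟩, q'⟩, e⟩ => ⟨k, k', x, y, p ▸ p', q ▸ q', p ▸ q ▸ e⟩⟩

theorem cop_int (g : Cg J θ s) {k l : ℤ} (h : IsCoprime (k : 𝓞 K) l) : IsCoprime k l :=
  Int.isCoprime_iff_gcd_eq_one.2 (Nat.dvd_one.1 (Int.natCast_dvd_natCast.1 (g.int_dvd (by
    simpa using isUnit_iff_dvd_one.1 (h.isUnit_of_dvd' (x := ((k.gcd l : ℤ) : 𝓞 K))
      (map_dvd (Int.castRingHom _) (Int.gcd_dvd_left k l))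
      (map_dvd (Int.castRingHom _) (Int.gcd_dvd_right k l)))))))

theorem Un.inv (g : Cg J θ s) (h : Un c a) :
    ∃ (k : ℤ) (x : 𝓞 K), IsCoprime k (c : ℤ) ∧ k * a = 1 + c * x := by
  obtain ⟨⟨k, x, rfl⟩, h⟩ := h
  obtain ⟨u, v, e⟩ := cop_int g (k := k) (l := c)
    (by simpa using (cop_el.1 h).2.of_add_mul_left_left)
  refine ⟨u, u * x - v, ⟨k, v, by rw [mul_comm k, e]⟩, ?_⟩
  have := congrArg (Int.cast : ℤ → 𝓞 K) e
  push_cast at this
  linear_combination this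

theorem Un.div (g : Cg J θ s) (h : Un c a) (k : Od c (a * y)) : Od c y := by
  obtain ⟨u, x, -, e⟩ := h.inv g
  rw [show y = u * (a * y) + c * (-x * y) by linear_combination -y * e]
  exact ((od_int u).mul k).add (od_c _)

theorem xi_span (h : Rg c ξ) (a : 𝓞 K) (I : Ideal (𝓞 K)) : ξ (span {a} * I) = ξ (span {a}) * ξ I :=
  h.rc.mul _ _

theorem xi_un (g : Cg J θ s) (h : Rg c ξ) (u : Un c a) : ξ (span {a}) = 1 := by
  obtain ⟨k, x, p, e⟩ := u.inv g
  have a0 := (cop_el.1 u.2).1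
  by_cases k0 : k = 0
  · exact h.rc.prn a a0 (mem_span_singleton'.2 ⟨-x * (a - 1), by
      rw [k0] at e; linear_combination (a - 1) * e⟩)
  have := h.rc.prn (k * a) (mul_ne_zero (by exact_mod_cast k0) a0)
    (mem_span_singleton'.2 ⟨x, by linear_combination -e⟩)
  rwa [← span_singleton_mul_span_singleton, xi_span h, h.rat k k0 p, one_mul] at this

theorem xi_eo (g : Cg J θ s) (h : Rg c ξ) (e : Eo c I I') : ξ I = ξ I' := by
  obtain ⟨a, a', u, u', e⟩ := eo_iff.1 e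
  simpa only [xi_span h, xi_un g h u, xi_un g h u', one_mul] using congrArg ξ e

theorem xi_ne (h : Rg c ξ) : ξ I ≠ 0 ↔ Cop c I := by
  rw [ne_eq, h.rc.zero, not_or, not_not, Cop]

/-- `I = x B` with `x` in the lattice of `B` -/
def Rl (c : ℕ) (B I : Ideal (𝓞 K)) : Prop :=
  ∃ y b, Od c y ∧ Un c b ∧ span {y} * B = span {b} * I

theorem rl_iff (g : Cg J θ s) (h : Cop c B) :
    Rl c B I ↔ ∃ y, Od c y ∧ span {y} = B.map s * I := by
  refine ⟨fun ⟨y, b, p, q, e⟩ => ?_, fun ⟨y, p, e⟩ => ⟨y, _, p, un_nm g h, by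
    rw [e, ← g.nm]; ring⟩⟩
  have e2 : span {y * absNorm B} = span {b} * (B.map s * I) := by
    rw [← span_singleton_mul_span_singleton, ← g.nm, ← mul_assoc, e]; ring
  obtain ⟨z, hz⟩ := mem_span_singleton.1 (mul_le_left (e2 ▸ mem_span_singleton_self _ :))
  refine ⟨z, q.div g (hz ▸ p.mul (un_nm g h).1), mul_left_cancel₀ q.2.1 ?_⟩
  rw [← e2, hz, span_singleton_mul_span_singleton]

theorem rl_tr (e : span {a'} * B' = span {a} * B) (u : Un c a')
    (o : ∀ y b, Od c y → span {y} * B' = span {b} * I → Od c (y * a)) (h : Rl c B' I) :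
    Rl c B I :=
  let ⟨y, b, p, q, k⟩ := h
  ⟨_, _, o y b p k, u.mul q, by
    rw [← span_singleton_mul_span_singleton, ← span_singleton_mul_span_singleton, mul_assoc, ← e,
      mul_left_comm, k, mul_assoc]⟩

theorem ex_prime {Q : Ideal (𝓞 K)} (hQ : Q.IsPrime) (c0 : 0 < c) (m : (c : 𝓞 K) ∈ Q) :
    ∃ q : ℕ, q.Prime ∧ q ∣ c ∧ (q : 𝓞 K) ∈ Q := by
  induction c using induction_on_primes with
  | zero => exact absurd c0 (lt_irrefl 0)
  | one => exact absurd ((eq_top_iff_one _).2 (by simpa using m)) hQ.ne_top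
  | prime_mul p a hp ih =>
    rw [Nat.cast_mul] at m
    refine (hQ.mem_or_mem m).elim (fun k => ⟨p, hp, dvd_mul_right p a, k⟩) fun k => ?_
    obtain ⟨q, x, y, z⟩ := ih (Nat.pos_of_mul_pos_left c0) k
    exact ⟨q, x, y.mul_left p, z⟩

/-- **the character kills the ideals which are not prime to `c`** -/
theorem sum_rl (g : Cg J θ s) (h : Rg c ξ) (c0 : 0 < c) {κ : Type} [Fintype κ]
    {B : κ → Ideal (𝓞 K)} (R : Ro c t B) (I0 : I ≠ ⊥) :
    ∑ i, (if Rl c (B i) I then ξ (B i) else 0) = ξ I := by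
  have cB := fun i => (cop_of (R.cop i)).1
  by_cases hI : Cop c I
  · obtain ⟨i, p, q⟩ := R.ex I hI
    obtain ⟨a, a', u, u', e⟩ := eo_iff.1 p
    rw [Finset.sum_eq_single i (fun j _ n => if_neg fun ⟨y, b, o, v, e⟩ => n (q j (eo_iff.2
      ⟨b, y, v, ⟨o, (cop_mul.1 (e ▸ cop_mul.2 ⟨v.2, hI⟩ :)).1⟩, e.symm⟩))) (by simp),
      if_pos ⟨a', a, u'.1, u, e.symm⟩, xi_eo g h p]
  obtain ⟨Q, hQ, l⟩ := exists_le_maximal _ fun k => hI ⟨I0, k⟩
  obtain ⟨q, hq, q1, q2⟩ : ∃ q : ℕ, q.Prime ∧ q ∣ c ∧ (q : 𝓞 K) ∈ Q := by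
    exact ex_prime hQ.isPrime c0 (l (mem_sup_right (mem_span_singleton_self _)))
  obtain ⟨x, x1, x2, x3⟩ := h.ram q hq q1
  have cx := (xi_ne h).1 x2
  have o : ∀ x : 𝓞 K, x - 1 ∈ span {((c / q : ℕ) : 𝓞 K)} → ∀ i y b, Od c y →
      span {y} * B i = span {b} * I → Od c (y * x) := fun x hx i y b o e => by
    obtain ⟨k, z, rfl⟩ := id o
    have m : k + c * z ∈ Q := (span_singleton_le_iff_mem _).1 ((hQ.isPrime.mul_le.1
      (e.le.trans (mul_le_right.trans (le_sup_left.trans l)))).resolve_right fun k =>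
        hQ.ne_top (top_unique ((cB i).2 ▸ sup_le k (le_sup_right.trans l))))
    obtain ⟨r, rfl⟩ := q1
    obtain ⟨j, rfl⟩ : (q : ℤ) ∣ k := by_contra fun n => by
      obtain ⟨u, v, e⟩ := (Nat.prime_iff_prime_int.1 hq).irreducible.coprime_iff_not_dvd.2 n
      have := congrArg (Int.cast : ℤ → 𝓞 K) e
      push_cast at this m
      refine hQ.ne_top ((eq_top_iff_one _).2 ?_)
      rw [show (1 : 𝓞 K) = (u - v * r * z) * q + v * (k + q * r * z) by linear_combination -this]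
      exact add_mem (mul_mem_left _ _ q2) (mul_mem_left _ _ m)
    rw [Nat.mul_div_cancel_left _ hq.pos] at hx
    obtain ⟨w, hw⟩ := mem_span_singleton'.1 hx
    have := o.add (od_c (((j : 𝓞 K) + (r : 𝓞 K) * z) * w))
    rwa [show ((q * j : ℤ) : 𝓞 K) + (q * r : ℕ) * z + (q * r : ℕ) * ((j + r * z) * w) =
      ((q * j : ℤ) + (q * r : ℕ) * z) * x by push_cast; linear_combination (q : 𝓞 K) * ((j : 𝓞 K) + (r : 𝓞 K) * z) * hw]
      at this
  choose σ hσ _ using fun i => R.ex _ (cop_mul.2 ⟨cx, cB i⟩)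
  have inj : Function.Injective σ := fun i j e => by
    obtain ⟨a, a', u, u', p⟩ := eo_iff.1 (hσ i)
    obtain ⟨b, b', v, v', p'⟩ := eo_iff.1 (hσ j)
    refine (R.ex _ (cB i)).unique (eo_iff.2 ⟨1, 1, un_one, un_one, rfl⟩)
      (eo_iff.2 ⟨_, _, v'.mul u, u'.mul v, mul_left_cancel₀ cx.1 ?_⟩)
    rw [← span_singleton_mul_span_singleton, ← span_singleton_mul_span_singleton]
    rw [e] at p
    calc _ = span {b'} * (span {a} * (span {x} * B i)) := by ring
      _ = span {a'} * (span {b'} * B (σ j)) := by rw [p]; ring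
      _ = _ := by rw [← p']; ring
  have k : ∀ i, Rl c (B (σ i)) I ↔ Rl c (B i) I := fun i => by
    obtain ⟨a, a', u, u', p⟩ := eo_iff.1 (hσ i)
    refine ⟨rl_tr (a := x * a) (by rw [← p, ← span_singleton_mul_span_singleton]; ring) u'
      fun y b p e => mul_assoc y x a ▸ (o x x1 _ y b p e).mul u.1,
      rl_tr (a := s x * a') ?_ (u.mul (un_nm g cx)) fun y b p e =>
        mul_assoc y _ a' ▸ (o (s x) ?_ _ y b p e).mul u'.1⟩
    · rw [← span_singleton_mul_span_singleton, ← span_singleton_mul_span_singleton, ← g.nm,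
        map_span, Set.image_singleton, mul_assoc _ _ (B (σ i)), ← p]
      ring
    · have := mem_map_of_mem s x1
      rwa [map_span, Set.image_singleton, map_natCast, map_sub, map_one] at this
  have e := (Equiv.ofBijective σ (Finite.injective_iff_bijective.1 inj)).sum_comp
    fun i => if Rl c (B i) I then ξ (B i) else 0
  simp only [Equiv.ofBijective_apply, k, ← xi_eo g h (hσ _), xi_span h] at e
  rw [not_not.1 ((xi_ne h).not.2 hI)]
  refine by_contra fun n => x3 (mul_right_cancel₀ n ?_)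
  rw [one_mul, Finset.mul_sum, ← e]
  simp

end Vale.Agent.P004C.Ln.Eb
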