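import Vale.Agent.P004C.Ln.Ei2b
import Vale.Agent.P004C.Wa.Per0
import Vale.Agent.P004C.Wa.Cms1

/-!
# P004 C, block LN: adapted bases of the lattices of conductor `c`
-/

set_option linter.unusedSectionVars false

open NumberField Ideal UpperHalfPlane
open scoped Classical ComplexConjugate

noncomputable section

namespace Vale.Agent.P004C.Ln.Eb

open P004K (Cop st Oc)
open Wa Wa.Cj

variable {K : Type} [Field K] [NumberField K] {J : K →+* ℂ} {θ : 𝓞 K} {s : 𝓞 K ≃+* 𝓞 K}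
  {D c m h f : ℕ} {a p q y ν : 𝓞 K} {I A B C n n' : Ideal (𝓞 K)} {z : ℂ}

theorem mem_oc : z ∈ Oc (Jo J) c ↔ ∃ a : 𝓞 K, Od c a ∧ J a = z :=
  ⟨fun ⟨k, x, e⟩ => ⟨_, ⟨k, x, rfl⟩, by rw [e]; simp [Jo]⟩,
    fun ⟨_, ⟨k, x, e⟩, e'⟩ => ⟨k, x, by rw [← e', e]; simp [Jo]⟩⟩

theorem end_oc : (∀ w ∈ Oc (Jo J) c, Jo J a * w ∈ Oc (Jo J) c) ↔ Od c a := by
  refine ⟨fun h => ?_, fun h w hw => ?_⟩
  · obtain ⟨b, o, e⟩ := mem_oc.1 (h 1 (mem_oc.2 ⟨1, un_one.1, by simp⟩))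
    exact jinj J (e.trans (mul_one _)) ▸ o
  · obtain ⟨b, o, rfl⟩ := mem_oc.1 hw
    exact mem_oc.2 ⟨_, h.mul o, by simp [Jo]⟩

theorem nm_ne (h : Cop c B) : (absNorm B : ℂ) ≠ 0 := by simpa [absNorm_eq_zero_iff] using h.1

theorem mem_st (g : Cg J θ s) (h : Cop c B) : z ∈ st (Jo J) B (Oc (Jo J) c) ↔
    ∃ y : 𝓞 K, (y ∈ B.map s ∧ Od c y) ∧ J y = absNorm B * z := by
  have u := un_nm g h
  refine ⟨fun k => ?_, fun ⟨y, ⟨m, o⟩, e⟩ a ha k => ?_⟩
  · obtain ⟨y, o, e⟩ := mem_oc.1 (k _ (absNorm_mem B) (end_oc.2 u.1))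
    obtain ⟨w, m, e'⟩ := (g.iv h.1 z).1 fun x hx => by
      obtain ⟨y', -, e'⟩ := mem_oc.1 (k _ (mul_mem_left _ (c : 𝓞 K) hx) (end_oc.2 (od_c x)))
      obtain ⟨r, t, e2⟩ := (cop_el.1 u.2).2
      have := congrArg (Jo J) e2
      refine ⟨r * x * y + t * y', ?_⟩
      simp only [Jo, map_add, map_mul, map_natCast, map_one, RingHom.comp_apply,
        RingOfIntegers.coe_eq_algebraMap] at e e' this ⊢
      rw [e, e']
      linear_combination -J (algebraMap _ K x) * z * this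
    exact ⟨w, ⟨m, jinj J (e.trans (by rw [e']; simp)) ▸ o⟩, e'⟩
  · obtain ⟨t, ht⟩ := mem_span_singleton.1 (g.nm B ▸ mul_mem_mul ha m :)
    refine mem_oc.2 ⟨t, u.div g (ht ▸ (end_oc.1 k).mul o), mul_left_cancel₀ (nm_ne h) ?_⟩
    have := congrArg (Jo J) ht
    rw [map_mul, map_mul, map_natCast] at this
    rw [mul_left_comm, ← e]
    exact this.symm

theorem sp_symm (g : Cg J θ s) (h : Sp m n n') : Sp m n' n :=
  ⟨h.pos, sup_comm n n' ▸ h.cop, mul_comm n n' ▸ h.mul, h.cn', h.cn, g.sp_nm h⟩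

theorem int_sup (g : Cg J θ s) (S : Sp m n n') (d : h ∣ m) {j : ℤ}
    (k : (j : 𝓞 K) ∈ n' ⊔ span {(h : 𝓞 K)}) : (h : ℤ) ∣ j := by
  obtain ⟨x, hx, y, hy, e⟩ := Submodule.mem_sup.1 k
  obtain ⟨r, rfl⟩ := mem_span_singleton'.1 hy
  obtain ⟨l, hl⟩ := S.cn' r
  have := (g.sp_int S (j - l * h)).1 (by
    rw [show ((j - l * h : ℤ) : 𝓞 K) = x + (r - l) * h by push_cast; linear_combination -e]
    exact add_mem hx (mul_mem_right _ _ hl))
  simpa using ((Int.natCast_dvd_natCast.2 d).trans this).add (dvd_mul_left (h : ℤ) l)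

theorem mem_of {x : 𝓞 K} (h : Cop c A) (k : c * x ∈ A) : x ∈ A := by
  obtain ⟨a, ha, y, hy, e⟩ := Submodule.mem_sup.1 ((eq_top_iff_one _).1 h.2)
  obtain ⟨r, rfl⟩ := mem_span_singleton'.1 hy
  rw [show x = a * x + r * (c * x) by linear_combination -x * e]
  exact add_mem (mul_mem_right _ _ ha) (mul_mem_left _ _ k)

theorem cop_nat {a b : ℕ} (h : a.Coprime b) : IsCoprime (a : 𝓞 K) b := h.cast

/-- an adapted basis of `N B` times the lattice -/
structure Gb (s : 𝓞 K ≃+* 𝓞 K) (θ : 𝓞 K) (c m : ℕ) (B : Ideal (𝓞 K)) (ν p q : 𝓞 K) : Prop where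
  mem : ∀ y, y ∈ B.map s ∧ Od c y ↔ ∃ u v : ℤ, y = u * q + v * p
  cov : q * s p - p * s q = c * θ * absNorm B
  ad : (m : 𝓞 K) ^ 2 ∣ p - absNorm B * (c * ν)

theorem ex_gb (k : Kd J D θ) (g : Cg J θ s) (S : Sp m n n') (c0 : 0 < c) (cm : c.Coprime (m * D))
    (h1 : ν - 1 ∈ n) (hB : Cop (c * m) B) :
    ∃ (p q : 𝓞 K) (τ : ℍ), Gb s θ c m B ν p q ∧ p ≠ 0 ∧ J q = J p * τ := by
  have cN := (cop_el.1 (un_nm g hB).2).2
  have cm1 := Nat.Coprime.coprime_mul_right_right cm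
  obtain ⟨a, b, e⟩ := (cop_nat (K := K) cm1.symm).pow_left (m := 2)
  obtain ⟨ω, τ, b0, ad⟩ := Pe.adapt k hB.1 (a * m ^ 2 + b * c * (c * ν))
    (Nat.mul_pos c0 (pow_pos S.pos 2)) fun r hr d1 d2 => by
      have d3 : r ∣ c * m := (hr.dvd_mul.1 d1).elim (·.mul_right m)
        fun d => (hr.dvd_of_dvd_pow d).mul_left c
      have d4 := (cN.of_isCoprime_of_dvd_right (Nat.cast_dvd_cast d3)).symm.dvd_of_dvd_mul_left d2
      refine hr.ne_one (Nat.dvd_one.1 (Int.natCast_dvd_natCast.1 ?_))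
      rcases hr.dvd_mul.1 d3 with ⟨j, rfl⟩ | d
      · refine g.int_dvd (by
          simpa using (dvd_iff_dvd_of_dvd_sub ⟨b * j * ((r * j : ℕ) * ν - 1), by
            push_cast at e ⊢; linear_combination e⟩).1 d4)
      · obtain ⟨j, hj⟩ := d4
        obtain ⟨l, hl⟩ := Nat.cast_dvd_cast (α := 𝓞 K) d
        have m : ν ∈ span {(r : 𝓞 K)} := mem_span_singleton.2
          ((cop_nat (cm1.coprime_dvd_right d).symm).dvd_of_dvd_mul_left
            ⟨j + a * l * m * (c * ν - 1), by linear_combination hj - c * ν * e +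
              a * m * (c * ν - 1) * hl⟩)
        simpa using int_sup g (sp_symm g S) d (j := 1)
          (by simpa using sub_mem (mem_sup_right m) (mem_sup_left h1))
  obtain ⟨p, q, ba⟩ := g.ex_ba k hB.1 b0
  obtain ⟨y, hy⟩ := ad _ (absNorm_mem B)
  have ep : p = absNorm B * (a * m ^ 2 + b * c * (c * ν)) + (c * m ^ 2 : ℕ) * y :=
    jinj J (by rw [← hy, ba.hp]; simp)
  push_cast at ep
  obtain ⟨t, pc⟩ : ∃ t, p = (absNorm B : ℤ) + c * t :=
    ⟨absNorm B * b * (c * ν - 1) + m ^ 2 * y, by push_cast; linear_combination ep + absNorm B * e⟩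
  refine ⟨p, c * q, ⟨c * τ, by simpa using mul_pos (Nat.cast_pos.2 c0 : (0 : ℝ) < c) τ.im_pos⟩,
    ⟨fun z => ⟨fun ⟨m, o⟩ => ?_, fun ⟨u, v, e⟩ => ⟨(ba.mem z).2 ⟨u * c, v, by
      rw [e]; push_cast; ring⟩, ?_⟩⟩, by
        rw [map_mul, map_natCast]; linear_combination c * ba.cov,
      ⟨absNorm B * a * (1 - c * ν) + c * y, by linear_combination ep + absNorm B * c * ν * e⟩⟩,
    ba.ne, by simp [ba.hq, mul_left_comm]⟩
  · obtain ⟨u, v, e⟩ := (ba.mem z).1 m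
    obtain ⟨j, x, e2⟩ := o.add ((od_int v).mul ⟨_, _, pc⟩).neg
    rw [e, add_neg_cancel_right] at e2
    have e3 := congrArg s e2
    have e4 := congrArg s pc
    simp only [map_add, map_mul, map_intCast, map_natCast] at e3 e4
    have d := g.int_dvd (m := c) (k := u * (D * absNorm B))
      ⟨-θ * (j * (s t - t) + x * s p - p * s x), by
        push_cast at pc e4 ⊢
        linear_combination u * absNorm B * k.sq + u * θ * ba.cov - θ * s p * e2 + θ * p * e3 -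
          θ * j * e4 + θ * j * pc⟩
    obtain ⟨w, rfl⟩ := (show IsCoprime (c : ℤ) (D * absNorm B) from
      (Nat.isCoprime_iff_coprime.2 (Nat.Coprime.coprime_mul_left_right cm)).mul_right
        (cop_int g (by simpa using (cop_el.1 (un_nm g (cop_of hB).1).2).2.symm))).dvd_of_dvd_mul_right d
    exact ⟨w, v, by rw [e]; push_cast; ring⟩
  · rw [e, mul_left_comm]
    exact (od_c _).add ((od_int v).mul ⟨_, _, pc⟩)

/-- the value at the lattice -/
theorem ex_lf (k : Kd J D θ) (g : Cg J θ s) (S : Sp m n n') (c0 : 0 < c) (cm : c.Coprime (m * D))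
    (h1 : ν - 1 ∈ n) (hB : Cop (c * m) B) :
    ∃ (p q : 𝓞 K) (τ : ℍ), Gb s θ c m B ν p q ∧ p ≠ 0 ∧ J q = J p * τ ∧ ∀ l G,
      lf l (m ^ 2) G (st (Jo J) B (Oc (Jo J) c)) (c * J ν / (m ^ 2 : ℕ)) =
        G τ * (absNorm B / J p) ^ l := by
  obtain ⟨p, q, τ, G, p0, e⟩ := ex_gb k g S c0 cm h1 hB
  obtain ⟨hc, hm⟩ := cop_of hB
  have N0 := nm_ne hc
  have m0 : (m : ℂ) ≠ 0 := Nat.cast_ne_zero.2 S.pos.ne'
  have ne : ∀ x : 𝓞 K, J x ≠ 0 ↔ x ≠ 0 := fun x => by simp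
  have b : Bs (st (Jo J) B (Oc (Jo J) c)) (J p / absNorm B) τ :=
    ⟨div_ne_zero ((ne p).2 p0) N0, fun z => (mem_st g hc).trans
      ⟨fun ⟨y, m, e2⟩ => by
        obtain ⟨u, v, rfl⟩ := (G.mem y).1 m
        refine ⟨u, v, mul_left_cancel₀ N0 ?_⟩
        rw [← e2]
        simp only [RingOfIntegers.coe_eq_algebraMap, map_add, map_mul, map_intCast] at e ⊢
        rw [e]
        field_simp,
      fun ⟨u, v, e2⟩ => ⟨_, (G.mem _).2 ⟨u, v, rfl⟩, by
        simp only [RingOfIntegers.coe_eq_algebraMap, map_add, map_mul, map_intCast] at e e2 ⊢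
        rw [e2, e]
        field_simp⟩⟩⟩
  have ex : ∃ x : ℂ × ℍ, Bs (st (Jo J) B (Oc (Jo J) c)) x.1 x.2 ∧ x.1 / (m ^ 2 : ℕ) -
      c * J ν / (m ^ 2 : ℕ) ∈ (st (Jo J) B (Oc (Jo J) c) : Set ℂ) := by
    obtain ⟨y, hy⟩ := G.ad
    obtain ⟨m1, m2⟩ := (G.mem p).2 ⟨0, 1, by simp⟩
    have u : Un c (m : 𝓞 K) := ⟨by simpa using od_int (m : ℤ), cop_el.2 ⟨by simpa using S.pos.ne',
      cop_nat (Nat.Coprime.coprime_mul_right_right cm).symm⟩⟩
    refine ⟨(_, τ), b, (mem_st g hc).2 ⟨y, ⟨mem_of (cop_map hm) (mem_of (cop_map hm) ?_),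
      u.div g (u.div g ?_)⟩, ?_⟩⟩
    · rw [← mul_assoc, ← sq, ← hy]
      exact sub_mem m1 (mul_mem_right _ _ (Cj.absNorm_map s B ▸ absNorm_mem _))
    · rw [← mul_assoc, ← sq, ← hy, sub_eq_add_neg]
      exact m2.add ((un_nm g hc).1.mul (od_c ν)).neg
    · have := congrArg (Jo J) hy
      simp only [Jo, map_sub, map_mul, map_pow, map_natCast, RingHom.comp_apply,
        RingOfIntegers.coe_eq_algebraMap] at this ⊢
      push_cast
      field_simp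
      linear_combination -this
  obtain ⟨b', a'⟩ := ex.choose_spec
  simp only [lf, dif_pos ex]
  generalize ex.choose = x at b' a'
  obtain ⟨γ, e1, e2⟩ := b.uq b'
  have e3 := Pe.jj_smul γ τ
  have hd : (γ 0 0 : 𝓞 K) * γ 1 1 - γ 0 1 * γ 1 0 = 1 := by
    have := γ.det_coe
    rw [Matrix.det_fin_two] at this
    exact_mod_cast congrArg (Int.cast : ℤ → 𝓞 K) this
  have hp : J (γ 1 0 * q + γ 1 1 * p : 𝓞 K) = absNorm B * x.1 := by
    simp only [RingOfIntegers.coe_eq_algebraMap, map_add, map_mul, map_intCast] at e e2 ⊢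
    rw [e2, e, jj]
    field_simp
  have hq : J (γ 0 0 * q + γ 0 1 * p : 𝓞 K) = absNorm B * x.1 * x.2 := by
    simp only [RingOfIntegers.coe_eq_algebraMap, map_add, map_mul, map_intCast] at e e2 ⊢
    rw [e2, e1, e, mul_assoc, mul_assoc, e3]
    field_simp
  refine ⟨_, _, x.2, ⟨fun y => (G.mem y).trans ⟨fun ⟨u, v, e⟩ => ⟨u * γ 1 1 - v * γ 1 0,
    v * γ 0 0 - u * γ 0 1, by push_cast; linear_combination e - (u * q + v * p) * hd⟩,
    fun ⟨u, v, e⟩ => ⟨u * γ 0 0 + v * γ 1 0, u * γ 0 1 + v * γ 1 1, by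
      push_cast; linear_combination e⟩⟩, ?_, ?_⟩, (ne _).1 (hp ▸ mul_ne_zero N0 b'.1),
    hp ▸ hq, fun l G => by rw [hp, ← div_div, div_self N0, div_pow, one_pow, mul_one_div]⟩
  · simp only [map_add, map_mul, map_intCast]
    linear_combination G.cov + (q * s p - p * s q) * hd
  · obtain ⟨y, -, e⟩ := (mem_st g hc).1 a'
    refine ⟨y, jinj J ?_⟩
    simp only [RingOfIntegers.coe_eq_algebraMap, map_sub, map_mul, map_pow, map_natCast] at e hp ⊢
    rw [hp, e]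
    push_cast
    field_simp

/-- sums over an ideal -/
theorem lat2 (g : Cg J θ s) (hu : ∀ u : (𝓞 K)ˣ, u = 1 ∨ u = -1) (hB : Cop c B)
    {F : Ideal (𝓞 K) → ℂ} (hF : Summable fun I => ‖F I‖) (F0 : F ⊥ = 0) {ι : Type}
    {Y : ι → 𝓞 K} (inj : Function.Injective Y) {t : ι → ℂ}
    (h1 : ∀ i, Y i ∈ B.map s ∧ Od c (Y i)) (h2 : ∀ i I, span {Y i} = B.map s * I → t i = F I)
    (h3 : ∀ y I, Od c y → span {y} = B.map s * I → F I ≠ 0 → ∃ i, Y i = y) :
    HasSum t (2 * ∑' I, if Rl c B I then F I else 0) := by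
  have N0 := (cop_el.1 (un_nm g hB).2).1
  have L := (Lt.lat hu hB.1 (fun I => if Rl c B I then F I else 0)
    (hF.of_nonneg_of_le (fun _ => norm_nonneg _) fun I => by split_ifs <;> simp)).2
  have e : ∀ w hw, span {w} = B.map s * Lt.id B (Cms.toLv (g.nm B) N0 w hw) := fun w hw =>
    mul_left_cancel₀ hB.1 (by
      rw [← mul_assoc, g.nm, mul_comm B]
      exact (Lt.mul_id _ (mul_div_cancel₀ _ (by exact_mod_cast N0))).symm)
  have e2 : ∀ I, (if I ≠ ⊥ ∧ cl I = cl B then if Rl c B I then F I else 0 else 0) =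
      if Rl c B I then F I else 0 := fun I => by
    by_cases I0 : I = ⊥
    · simp [I0, F0]
    by_cases r : Rl c B I
    · obtain ⟨y, b, -, u, e⟩ := id r
      exact if_pos ⟨I0, (Lt.cl_iff I0 hB.1).2 ⟨b, y, (cop_el.1 u.2).1, fun k =>
        mul_ne_zero u.2.1 I0 (by rw [← e, k]; simp), e.symm⟩⟩
    · simp [r]
  simp only [e2, F0, ite_self, zero_add] at L
  refine ((Function.Injective.hasSum_iff (g := fun i => Cms.toLv (g.nm B) N0 (Y i) (h1 i).1)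
    (fun i j k => inj (Cms.toLv_inj _ _ k)) fun y hy => ?_).2 L).congr_fun fun i => ?_
  · obtain ⟨w, hw, rfl⟩ := Cms.toLv_surj (g.nm B) N0 y
    refine by_contra fun n => hy ?_
    obtain ⟨r, n⟩ := ite_ne_right_iff.1 n
    obtain ⟨y, o, e3⟩ := (rl_iff g hB).1 r
    obtain ⟨u, rfl⟩ := span_singleton_eq_span_singleton.1 (e3.trans (e w hw).symm)
    obtain ⟨i, k⟩ := h3 (y * u) _ (by rcases hu u with rfl | rfl <;> simp [o, o.neg]) (e _ hw) n
    exact ⟨i, by simp only [k]⟩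
  · exact (h2 i _ (e _ _)).trans (if_pos ((rl_iff g hB).2 ⟨_, (h1 i).2, e _ _⟩)).symm

end Vale.Agent.P004C.Ln.Eb
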