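import Vale.Agent.P004C.Ln.St
import Vale.Agent.P004K.Rc.R1
import Vale.Agent.P004K.Gm.Jh
import Vale.Agent.P004K.Hg.At
import Vale.Agent.P004R.Qf

/-! # P004 C, block LN: conjugates of Heegner points -/

set_option autoImplicit false
set_option linter.all false

namespace Vale.Agent.P004C.Ln

open Vale.Agent.P004K Vale.Agent.P004K.Hg

theorem hga (h1 : RC1) : HGA := fun K _ _ j q N c I A g σ τ τ' hN hc co hn hA ar ex hp h => by
  obtain ⟨ω, B⟩ := bs Rc.iq q j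
  obtain ⟨s, d⟩ := Rc.ex_qd B.inj B.bas B.im
  obtain ⟨ψ, t⟩ := tp_of_j jh (σ := σ) (B.lat hc) (At.lat h) (by rw [ar_j h1 q hc ex, ar.2])
  refine (st_cj hN hp t (ex.JJ ar.1)).1 ?_
  rwa [d.st_mul (d.kl_Oc hc) (P004R.Qf.cop_mem (by simpa using (hn.1 N).2 dvd_rfl) hN co.symm)
    (Rc.cop_dvd hA), mul_comm]

end Vale.Agent.P004C.Ln
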