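import Vale.Agent.P004C.Ln.Hga
import Vale.Agent.P004C.Lk.Has0
import Vale.Agent.P004C.Wa.Per0

/-! # P004 C, block LN: values of forms at lattices against values of modular functions -/

set_option autoImplicit false
set_option linter.all false

open NumberField UpperHalfPlane CongruenceSubgroup ModularForm
open scoped Classical MatrixGroups Real ComplexConjugate

noncomputable section

namespace Vale.Agent.P004C.Ln

open Vale.Agent.P022 (Qb GQ GK below)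
open Vale.Agent.P027H Vale.Agent.P027M.M Vale.Agent.P022.H218.L3 Vale.Agent.P022.H236.L3
open Vale.Agent.P004K Vale.Agent.P004K.Hg Vale.Agent.P004F.Qx Vale.Agent.P004C.Lk
open P004Z.EF (Val)
open Wa (jj MW QE Kd lf)

namespace Lg

variable {V : AbsoluteValue ℂ ℝ}

theorem V2.ov (h : V2 V) : P004Z.Fin.Ov V 2 :=
  ⟨Nat.prime_two, h.1, by rw [Nat.cast_ofNat, h.2]; norm_num⟩

/-- roots in characteristic two -/
theorem root (h : P004Z.Fin.Ov V 2) {a b : ℂ} (ha : V a ≤ 1) (hb : V b ≤ 1) {δ : ℝ} (d0 : 0 ≤ δ)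
    (d1 : δ ≤ 1) (i : ℕ) (h2 : V 2 ≤ δ ^ 2 ^ i) (k : V (a ^ 2 ^ i - b ^ 2 ^ i) ≤ δ ^ 2 ^ i) :
    V (a - b) ≤ δ := by
  induction i with
  | zero => simpa using k
  | succ i ih =>
    have p0 : 0 ≤ δ ^ 2 ^ i := pow_nonneg d0 _
    have p1 : δ ^ 2 ^ i ≤ 1 := pow_le_one₀ d0 d1
    have a1 : V (a ^ 2 ^ i) ≤ 1 := by rw [map_pow]; exact pow_le_one₀ (V.nonneg _) ha
    have b1 : V (b ^ 2 ^ i) ≤ 1 := by rw [map_pow]; exact pow_le_one₀ (V.nonneg _) hb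
    simp only [pow_succ, pow_mul] at h2 k
    simp only [← sq, pow_zero, one_mul] at h2 k
    refine ih (h2.trans (by nlinarith)) 
      ((pow_le_pow_iff_left₀ (V.nonneg _) p0 two_ne_zero).1 ?_)
    generalize a ^ 2 ^ i = x at *
    generalize b ^ 2 ^ i = y at *
    rw [← map_pow, show (x - y) ^ 2 = x ^ 2 - y ^ 2 - 2 * (y * (x - y)) by ring]
    refine h.sub_le k (le_trans ?_ h2)
    rw [map_mul, map_mul]
    exact mul_le_of_le_one_right (V.nonneg _)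
      (mul_le_one₀ b1 (V.nonneg _) (h.sub_le a1 b1))

theorem ex_pi (h : V2 V) {ρ : ℝ} (h0 : 0 ≤ ρ) (h1 : ρ < 1) {R : ℕ} (R0 : 0 < R) :
    ∃ z : ℂ, V z < 1 ∧ V 2 ≤ V z ^ R ∧ ρ ≤ V z ^ R := by
  obtain ⟨i, hi⟩ := exists_pow_lt_of_lt_one (show (0 : ℝ) < 1 / 2 by norm_num) h1
  have i0 : i ≠ 0 := by
    rintro rfl
    norm_num at hi
  obtain ⟨z, hz⟩ := IsAlgClosed.exists_pow_nat_eq (2 : ℂ) (n := R * i) (by positivity)
  have e : (V z ^ R) ^ i = 1 / 2 := by rw [← pow_mul, ← map_pow, hz, h.2]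
  have z1 : V z < 1 := not_le.1 fun k => by
    have := one_le_pow₀ (n := i) (one_le_pow₀ (n := R) k)
    rw [e] at this
    norm_num at this
  refine ⟨z, z1, ?_, (pow_le_pow_iff_left₀ h0 (pow_nonneg (V.nonneg _) _) i0).1 (e ▸ hi.le)⟩
  rw [h.2, ← e]
  exact pow_le_of_le_one (pow_nonneg (V.nonneg _) _) (pow_le_one₀ (V.nonneg _) z1.le) i0

theorem rl_pow (h : P004Z.Fin.Ov V 2) {x y : ℂ} (k : Rl V x y) (e : ℕ) : Rl V (x ^ e) (y ^ e) := by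
  induction e with
  | zero => simpa using Rl.refl 1
  | succ e ih =>
    have := ih.mul y
    rw [mul_comm y, mul_comm y] at this
    rw [pow_succ, pow_succ]
    exact (k.mul _).trans h this

theorem bdd_pow {k : ℤ} {G : ℍ → ℂ} (h : Bdd k G) (n : ℕ) : Bdd (n * k) (G ^ n) := by
  induction n with
  | zero =>
    rw [pow_zero, Nat.cast_zero, zero_mul]
    exact Bdd.const 1
  | succ n ih =>
    rw [pow_succ, Nat.cast_succ, add_mul, one_mul]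
    exact ih.mul h

theorem cop_d {m : ℕ} {γ : SL(2, ℤ)} (h : γ ∈ Gamma0 (m ^ 2)) : IsCoprime (γ 1 1) (m : ℤ) := by
  obtain ⟨c, hc⟩ := mem_G0.1 h
  have hd := γ.det_coe
  rw [Matrix.det_fin_two, hc] at hd
  exact ⟨γ 0 0, -(γ 0 1 * m * c), by push_cast at hd; linear_combination hd⟩

theorem law_iff {k : ℕ} {G : ℍ → ℂ} {γ : SL(2, ℤ)} :
    G ∣[(k : ℤ)] γ = G ↔ ∀ τ, G (γ • τ) = jj γ τ ^ k * G τ := by
  rw [funext_iff]
  refine forall_congr' fun τ => ?_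
  rw [SL_slash_apply, ModularGroup.denom_apply, zpow_neg, zpow_natCast, ← div_eq_mul_inv,
    div_eq_iff (pow_ne_zero _ (den_ne γ τ)), mul_comm, jj]

section

variable {K : Type} [Field K] [NumberField K] {j : K →+* Qb} {D m : ℕ} {θ : 𝓞 K}
  {n n' : Ideal (𝓞 K)}

theorem iq (h : Kd (Jc j) D θ) : Iq K := ⟨h.two, ⟨fun f => by
  have e := congrArg (fun x : 𝓞 K => f x) h.sq
  have d : (0 : ℝ) < D := by exact_mod_cast Nat.pos_of_ne_zero h.sqf.ne_zero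
  simp only [map_pow, map_neg, map_natCast, RingOfIntegers.coe_eq_algebraMap] at e
  nlinarith [sq_nonneg (f (algebraMap (𝓞 K) K θ))]⟩⟩

theorem sp_symm {J : K →+* ℂ} (h : Kd J D θ) (s : Wa.Sp m n n') : Wa.Sp m n' n :=
  ⟨s.pos, sup_comm n n' ▸ s.cop, mul_comm n n' ▸ s.mul, s.cn', s.cn,
    mul_left_cancel₀ s.pos.ne' (by
      rw [← sq, ← Wa.Pe.nm_nat h.two, ← s.mul, map_mul, s.nm])⟩

theorem sp_cn (s : Wa.Sp m n n') : Cn m n :=
  ⟨fun _ => ⟨Wa.Pe.int_mem s, fun ⟨a, e⟩ => by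
    rw [e, Int.cast_mul, Int.cast_natCast]
    exact n.mul_mem_right _ (Wa.Pe.M_mem s).1⟩, s.cn⟩

theorem sp_sq (s : Wa.Sp m n n') : P004F.Qx.Sp (m ^ 2) (n ^ 2) (n' ^ 2) := by
  have : P004F.Qx.Sp m n n' := ⟨sp_cn s, s.cop, s.mul⟩
  simpa only [sq] using P004R.Qf.sp_mul s.pos this this (sup_comm n n' ▸ s.cop) s.cop

theorem lk_eq (j : K →+* Qb) : Lk (Jc j) = Oc (JJ j) 1 := by
  ext z
  exact ⟨fun ⟨a, e⟩ => ⟨0, a, by rw [← e]; simp; rfl⟩, fun ⟨k, a, e⟩ => ⟨k + a, by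
    rw [e, Nat.cast_one, one_mul, ← map_intCast (JJ j), ← map_add]; rfl⟩⟩

variable {P : Ideal (𝓞 Qb)}

theorem v_lt (hP : P.IsPrime) (hV : Vp V P) {x : 𝓞 K} : V (JJ j x) < 1 ↔ x ∈ below j P :=
  hV.lt hP (x := RingOfIntegers.mapRingHom j x)

/-- the ring of integers is an ordinary lattice -/
theorem ord (hP : P.IsPrime) (h2 : (2 : 𝓞 Qb) ∈ P) (hV : Vp V P) (h : Kd (Jc j) D θ)
    (s : Wa.Sp m n n') (le : n ≤ below j P) {ν : 𝓞 K} (h1 : ν ∈ n') (h3 : ν - 1 ∈ n) :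
    2 ∣ m ∧ V (JJ j ν) = 1 ∧ V (conj (JJ j ν)) < 1 := by
  have o := hV.ov hP Nat.prime_two (by simpa using h2)
  have d : 2 ∣ m := two_dvd hP h2 (by simpa [below] using le (Wa.Pe.M_mem s).1)
  have v : V (JJ j ν) = 1 := by
    have := o.add_eq (y := 1) (((v_lt hP hV).2 (le h3)).trans_eq V.map_one.symm)
    rwa [map_sub, map_one, sub_add_cancel, map_one] at this
  refine ⟨d, v, ?_⟩
  obtain ⟨t, a, b⟩ := Wa.Pe.ex_cj h
  have e := o.of_dvd ((Int.natCast_dvd_natCast.2 d).trans (Wa.Pe.int_mem (sp_symm h s)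
    (k := (Ideal.absNorm (Ideal.span {ν}) : ℕ)) (by
      rw [Int.cast_natCast, ← b]; exact n'.mul_mem_right _ h1)))
  rwa [Int.cast_natCast, Wa.Pe.nm_eq h, map_mul, show V (Jc j ν) = 1 from v, one_mul] at e

end

/-- ordinary lattices have a unit invariant -/
theorem j_one (h : P004Z.Fin.Ov V 2) {Λ : Submodule ℤ ℂ} (hΛ : IsLat Λ) {β : ℂ} (h1 : V β = 1)
    (h2 : V (conj β) < 1) (h3 : ∀ z ∈ Λ, β * z ∈ Λ) : V (jL Λ) = 1 := by
  obtain ⟨ω, τ, D, k, H⟩ := ex_ty h hΛ h1 h2 h3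
  rw [jL_hom k (isLat τ), jL_lat, j_unit h dvd_rfl H]

/-- the size of the period -/
theorem om_eq {K : Type} [Field K] [NumberField K] {ι : ℂ →+* ℂ_[2]} {J : K →+* ℂ} {Ω : ℝ}
    (hV : ∀ z, V z = ‖ι z‖) (b : Base ι J Ω) (h : V (jL (Lk J)) = 1) {w : ℂ}
    (e : w ^ 4 = 12 * g2 (Lk J)) : V w = Ω := by
  rw [jL, map_div₀] at h
  refine (pow_left_inj₀ (V.nonneg _) b.pos.le (n := 12) (by norm_num)).1 ?_
  rw [b.per, ← hV, ← eq_of_div_eq_one h, ← map_pow]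
  congr 1
  linear_combination (w ^ 8 + w ^ 4 * (12 * g2 (Lk J)) + (12 * g2 (Lk J)) ^ 2) * e

end Lg

open Lg

theorem lkg (h1 : P004K.RC1) : LKG := fun V P hP hV2 hV M' m k r m0 dM u hu s hs hz ε G A ρ cr er hG hq
    ρ1 hc => by
  obtain ⟨-, hP, h2⟩ := hP
  have h2 : (2 : 𝓞 Qb) ∈ P := by simpa using h2
  have o := V2.ov hV2
  have M0 : 0 < m ^ 2 := pow_pos m0 2
  have M1 : 0 < M' := Nat.pos_of_dvd_of_pos dM M0
  have ρ0 : 0 ≤ ρ := (V.nonneg _).trans (hc 0)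
  obtain ⟨z, z1, z2, z3⟩ := ex_pi hV2 ρ0 ρ1 (R := 2 ^ (r + 2)) (by positivity)
  have law : Bdd k G ∧ ∀ γ ∈ Gamma0 (m ^ 2), ∀ τ, G (γ • τ) = ε (γ 1 1) * jj γ τ ^ k * G τ := by
    rcases hG with ⟨rfl, h⟩ | ⟨rfl, h, h'⟩
    · exact ⟨⟨h.hol, h.bdd⟩, fun γ m τ => by rw [h.law γ m, pow_one]⟩
    · exact ⟨h.toBdd, fun γ m τ => by
        rw [(h' _).resolve_left fun e => (cr.zero _).1 e (cop_d m), one_mul]
        exact law_iff.1 (h.slash γ m) τ⟩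
  have e1 : ∀ d, IsCoprime d (m : ℤ) → ε d ^ 2 ^ (r + 2) = 1 := fun d h => by
    rw [pow_add, pow_mul, (er d).resolve_left fun e => (cr.zero _).1 e h, one_pow]
  have eR : k * 2 ^ (r + 2) = k * 2 ^ r * 4 := by ring
  have hg : IsMF (Gamma0 (m ^ 2)) ((k * 2 ^ r : ℕ) * 4) (G ^ 2 ^ (r + 2)) := by
    have e : ((k * 2 ^ r : ℕ) * 4 : ℤ) = (2 ^ (r + 2) * k : ℕ) := by push_cast; ring
    rw [e]
    refine Bdd.isMF (by rw [Nat.cast_mul]; exact bdd_pow law.1 _) fun γ h => law_iff.2 fun τ => ?_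
    rw [Pi.pow_apply, Pi.pow_apply, law.2 γ h, mul_pow, mul_pow, e1 _ (cop_d h), one_mul, ← pow_mul,
      mul_comm k]
  have hu' : u ∈ MF (Gamma0 (m ^ 2)) := MF_mono (fun γ h => mem_G0.2
    ((Int.natCast_dvd_natCast.2 dM).trans (mem_G0.1 h))) hu
  have hi := fun i => hz.le Nat.prime_two hP (by simpa using h2) hV i
  obtain ⟨T, hT⟩ := lnk V P _ hP h2 hV M0 u hu' s hs hi G _ _ _ (z ^ 2 ^ (r + 2)) hg
    (exL_of_hasSum (a := A) fun τ => (hq τ).congr_fun fun n => by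
      rw [Function.Periodic.qParam, ← Complex.exp_nat_mul, Wa.ee]
      congr 2
      push_cast
      ring) (by rwa [map_pow]) (by rw [map_pow]; exact pow_le_one₀ (V.nonneg _) z1.le) fun i => by
    rcases lt_or_ge i 0 with hn | hn
    · rw [hz.1 i hn, PowerSeries.coeff_coe, if_pos hn, sub_zero, map_zero]
      exact V.nonneg _
    lift i to ℕ using hn
    rw [LaurentSeries.coeff_coe_powerSeries, PowerSeries.coeff_mk, map_pow]
    exact (hc i).trans z3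
  obtain ⟨T', hT'⟩ := mpc V P _ hP (fun z => two_ne_zero (by simpa [z] using h2 : (2 : 𝓞 Qb) = 0))
    hV M0 u hu' s hs hi
  refine ⟨max T T', V z, z1, fun D le K _ _ j θ kd n n' I ν Ω sp ln cn lI ν1 ν2 hΩ => ?_⟩
  have q := iq kd
  have sq2 := sp_sq sp
  have l2 : n ^ 2 ≤ n := Ideal.pow_le_self two_ne_zero
  obtain ⟨d2, b1, b2⟩ := ord hP h2 hV kd sp ln (Ideal.pow_le_self two_ne_zero ν1) (l2 ν2)
  obtain ⟨t₀, B₀⟩ := bs Rc.iq q j
  obtain ⟨t₁, ht₁, B₁⟩ := B₀.ex sq2.cn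
  obtain ⟨t, N, et⟩ := B₁.sq
  obtain ⟨cj, qd⟩ := Rc.ex_qd B₁.inj B₁.bas B₁.im
  have b3 : ∀ z ∈ Oc (JJ j) 1, JJ j ν * z ∈ Oc (JJ j) 1 := by simpa using kl_Oc (c := 1) ν
  rw [lk_eq] at hΩ ⊢
  have j1 := j_one o (B₁.lat one_pos) b1 b2 b3
  refine ⟨j1, fun c B g σ τ τ' y c0 co cB ar ex hp cj0 vy => ?_⟩
  have cP : (c : 𝓞 Qb) ∉ P := nm_cop (p := 2) hP (by simpa using h2) (co.coprime_dvd_right d2)
  obtain ⟨τ₁, -, hom⟩ := B₁.hom c0 t
  have p1 : Hp (JJ j) (m ^ 2) (n ^ 2) c τ₁ := at_iff.2 ⟨_, hom, B₁.st_Oc c0 M0 et sq2.cn ht₁⟩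
  have p2 : Hp (JJ j) M' I c τ₁ := at_iff.2 ⟨_, hom, B₁.st_Oc c0 M1 et cn (lI ht₁)⟩
  obtain ⟨τ₂, c2⟩ := ex_cj0 σ M0 τ₁
  have c3 : Cj0 σ M' τ₁ τ₂ := by
    obtain ⟨ψ, tp, a, h⟩ := c2
    obtain ⟨w, hw⟩ := dM
    have w0 : (w : ℂ) ≠ 0 := fun z => M0.ne' (by rw [hw, Nat.cast_eq_zero.1 z, mul_zero])
    have : (M' : ℂ) ≠ 0 := Nat.cast_ne_zero.2 M1.ne'
    refine ⟨ψ, tp, a, mem_of_eq (add_mem (tp.int w (1 / (m ^ 2 : ℕ))) (int_mul_mem w h)) ?_⟩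
    rw [hw, show ((w : ℤ) : ℂ) * (1 / (M' * w : ℕ)) = 1 / M' by push_cast; field_simp]
    push_cast
    field_simp
    ring
  have vy' : Val τ₂ u y := tr0 1 M' τ' τ₂ M1 ((cj0_one M1).2 ((c3.tgt M1).1
    ((cj0.src M1).2 ((at_uq P004K.cj0 M1 hp).1 p2)))) u hu s hs (fun i => by
      rcases lt_or_ge i 0 with hn | hn
      · exact ⟨0, by rw [hz.1 i hn, Rat.cast_zero]⟩
      lift i to ℕ using hn
      obtain ⟨a, d, d0, e⟩ := hz.2 i
      have : (d : ℂ) ≠ 0 := Nat.cast_ne_zero.2 fun z => d0 (z ▸ dvd_zero _)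
      exact ⟨a / d, by push_cast; rw [← e]; field_simp⟩) y vy
  obtain ⟨v1, v2⟩ := hT D (le_of_max_le_left le) kd.sqf K j q c θ _ _ kd.sq sq2 (l2.trans ln) cP g
    ar.1 σ τ₁ τ₂ ex p1 c2
  obtain ⟨y', y1, y2⟩ := hT' D (le_of_max_le_right le) kd.sqf K j q c θ _ _ kd.sq sq2 (l2.trans ln)
    cP g ar.1 σ τ₁ τ₂ ex p1 c2
  obtain rfl := Vl.uniq vy' y2
  refine ⟨y1, ?_⟩
  have v3 := v2 y vy'
  have kl := qd.kl_st (qd.kl_Oc c0) cB.1
  obtain ⟨ψ, tp⟩ := tp_of_j jh (σ := σ) (B₁.lat c0) kl.lat (by rw [ar_j h1 q c0 ex, ar.2])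
  obtain ⟨ω, hω, hst⟩ := (st_cj M0 p1 tp (ex.JJ ar.1)).2 c2
  have mC : ((m ^ 2 : ℕ) : ℂ) ≠ 0 := Nat.cast_ne_zero.2 M0.ne'
  obtain ⟨d, hd⟩ := (hst (c * JJ j ν / (m ^ 2 : ℕ))).1 fun a ha _ => by
    obtain ⟨b, hb⟩ := Ideal.mem_span_singleton'.1 (sq2.mul ▸ Ideal.mul_mem_mul ha ν1)
    have := congrArg (JJ j) hb
    rw [map_mul, map_mul, map_natCast] at this
    exact le_st (mem_of_eq (c_Oc (c := c) b) (by
      rw [mul_div_assoc', div_eq_iff mC]; linear_combination -c * this))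
  obtain ⟨x, hx, b, ex1⟩ := Rc.cop_ex cB
  have rx : Rc.Rc c x := Rc.rc_u (b := m * b) (by rw [← ex1]; push_cast; ring)
  have xs : ∀ z ∈ st (JJ j) B (Oc (JJ j) c), JJ j x * z ∈ Oc (JJ j) c := fun z h =>
    h x hx fun _ => rx.oc
  have mn := (Wa.Pe.M_mem sp).1
  have cd : IsCoprime d (m : ℤ) := P004Z.Hd.cop_of fun p hp ⟨d', e1⟩ ⟨m', e2⟩ => by
    have p0 : (p : ℂ) ≠ 0 := Nat.cast_ne_zero.2 hp.ne_zero
    have e2' : (m : ℂ) = p * m' := by exact_mod_cast e2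
    have m1 : (m' : ℂ) ≠ 0 := fun z => by simp [e2', z] at mC
    obtain ⟨l, a, e⟩ := xs (c * JJ j ν / p) (mem_of_eq (add_mem (int_mul_mem (m * m') hd)
      (int_mul_mem d' ((hω.2 1).1 Hg.one_lat))) (by
        rw [e1]; push_cast; rw [e2']; field_simp; ring))
    have e3 : x * (c * ν) = p * (l + c * a) := B₁.inj (by
      simp only [map_mul, map_add, map_natCast, map_intCast]
      rw [← e]
      field_simp)
    obtain ⟨a', ha'⟩ := sp.cn a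
    have e4 := Wa.Pe.int_mem sp (k := c - p * (l + c * a')) (by
      have := add_mem (add_mem (n.mul_mem_left (p * c) ha') (n.mul_mem_left (-(c * x)) (l2 ν2)))
        (n.mul_mem_left (c * c * b) mn)
      push_cast at ex1 ⊢
      rwa [show (c : 𝓞 K) - p * (l + c * a') = p * c * (a - a') + -(c * x) * (ν - 1) +
        c * c * b * m by linear_combination e3 - c * ex1])
    have e5 : (p : ℤ) ∣ c := by
      have := dvd_add ((Dvd.intro _ e2.symm).trans e4) (dvd_mul_right (p : ℤ) (l + c * a'))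
      rwa [sub_add_cancel] at this
    exact hp.one_lt.ne' (Nat.eq_one_of_dvd_coprimes co (Int.natCast_dvd_natCast.1 e5)
      (Int.natCast_dvd_natCast.1 (Dvd.intro _ e2.symm)))
  have lfe := Wa.Pe.lf_eq M0 law.2 (Λ := st (JJ j) B (Oc (JJ j) c)) (ω := ω) (τ := τ₂) (d := d)
    (P := c * Jc j ν / (m ^ 2 : ℕ)) ⟨hω.1, fun z => by
      rw [SetLike.mem_coe, hω.symm.2, mem_lat]
      exact exists₂_congr fun a b => by rw [eq_inv_mul_iff_mul_eq₀ hω.1, eq_comm]⟩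
    (by rw [Nat.cast_pow]; exact cd.pow_right)
    (fun a b h => cr.per a b ((Dvd.intro _ (by push_cast; ring)).trans h))
    (mem_of_eq (neg_mem hd) (by rw [neg_sub, mul_div_assoc]; rfl))
  obtain ⟨w, hw⟩ := qd.nm x
  have ow : Odd w := Int.not_even_iff_odd.1 fun ev => by
    obtain ⟨m', rfl⟩ := d2
    obtain ⟨w', rfl⟩ := ev
    have e := congrArg cj ex1
    simp only [map_add, map_mul, map_natCast, map_one] at e
    push_cast at e ex1 hw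
    have := qd.dvd_int (n := 2) (k := 1) ⟨w' + c * m' * (b + x * cj b), by
      push_cast; linear_combination -ex1 - x * e + hw⟩
    norm_num at this
  have oc : Odd (c : ℤ) := (Nat.coprime_two_right.1 (co.coprime_dvd_right d2)).natCast
  have rl := (has0 o (B₁.lat one_pos) kl.lat b1 b2 b3 (oc.mul ow) (fun z ⟨l, a, e⟩ => le_st
    (mem_of_eq (c_Oc (c := c) (w * (l + a))) (by
      simp only [e, map_mul, map_add, map_intCast]; push_cast; ring))) fun z h => by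
    obtain ⟨l, a, e⟩ := st_int (I := B) (m := w) (hw ▸ B.mul_mem_right _ hx) h
    exact ⟨c * l, c * c * a, by
      simp only [map_mul, map_natCast]; push_cast; linear_combination c * e⟩).1
  have g0 : 12 * g2 (Oc (JJ j) 1) ≠ 0 := fun z => by
    simp [jL, (mul_eq_zero.1 z).resolve_left (by norm_num)] at j1
  have Ω0 : Ω ≠ 0 := fun z => g0 (by rw [← hΩ, z]; norm_num)
  have E0 : E₄ τ₂ ≠ 0 := fun z => by simp [jf, z] at v1
  rw [g2_hom hω, ← hΩ] at rl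
  obtain ⟨W, hW⟩ : ∃ W, W = (2 * π) ^ k * (ε d * G τ₂ / ω ^ k) / Ω ^ k := ⟨_, rfl⟩
  obtain ⟨Z, hZ⟩ : ∃ Z, Z = G τ₂ ^ 2 ^ (r + 2) / E₄ τ₂ ^ (k * 2 ^ r) := ⟨_, rfl⟩
  have r2 : Rl V (W ^ 2 ^ (r + 2)) Z := by
    have := (rl_pow o rl (k * 2 ^ r)).mul (Z / (Ω ^ 4) ^ (k * 2 ^ r))
    rw [div_mul_cancel₀ _ (pow_ne_zero _ (pow_ne_zero _ Ω0))] at this
    have w0 := hω.1
    rwa [hW, div_pow, mul_pow, div_pow, mul_pow (ε d), e1 d cd, ← pow_mul, ← pow_mul, ← pow_mul, eR,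
      show (2 * π : ℂ) ^ (k * 2 ^ r * 4) * (1 * G τ₂ ^ 2 ^ (r + 2) / ω ^ (k * 2 ^ r * 4)) /
        Ω ^ (k * 2 ^ r * 4) = Z / (Ω ^ 4) ^ (k * 2 ^ r) * ((2 * π / ω) ^ 4 * E₄ τ₂) ^ (k * 2 ^ r) by
      rw [hZ, mul_pow _ (E₄ τ₂), ← pow_mul, ← pow_mul, mul_comm 4, div_pow]
      field_simp]
  rw [← hZ, map_pow] at v3
  have p1' : V z ^ 2 ^ (r + 2) ≤ 1 := pow_le_one₀ (V.nonneg _) z1.le
  have Z1 : V Z ≤ 1 := by
    have := o.sub_le (x := y ^ 2 ^ (r + 2)) (by rw [map_pow]; exact pow_le_one₀ (V.nonneg _) y1)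
      (v3.trans p1')
    rwa [sub_sub_cancel] at this
  have W1 : V W ≤ 1 := (pow_le_one_iff_of_nonneg (V.nonneg _) (n := 2 ^ (r + 2)) (by positivity)).1
    (by rw [← map_pow, r2.eq o]; exact Z1)
  have fin := root o W1 y1 (V.nonneg z) z1.le (r + 2) z2 (by
    have := o.sub_le ((le_trans r2 (mul_le_of_le_one_right (V.nonneg _) Z1)).trans z2) v3
    rwa [show W ^ 2 ^ (r + 2) - Z - (y ^ 2 ^ (r + 2) - Z) = _ from sub_sub_sub_cancel_right _ _ _]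
      at this)
  rw [lfe, show (2 * π : ℂ) ^ k * (ε d * G τ₂ / ω ^ k) - Ω ^ k * y = (W - y) * Ω ^ k by
    rw [hW]; field_simp, map_mul, map_pow]
  exact mul_le_mul_of_nonneg_right fin (by positivity)

end Vale.Agent.P004C.Ln
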