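import Vale.Agent.P004C.Ln.St
import Vale.Agent.P004C.Wa.Rse
import Vale.Agent.P004C.Wa.Per0
import Vale.Agent.P004C.Wa.Cj
import Vale.Agent.P004C.Al.Hc

/-! # P004 C, block LN: the Hecke character of `K` in the period formula -/

open NumberField Module Ideal UpperHalfPlane
open scoped Classical ComplexConjugate

noncomputable section

namespace Vale.Agent.P004C.Ln.Pw

open Wa

section

variable {F : Type} [Field F] [NumberField F]

omit [NumberField F] in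
theorem sup_top {I I' : Ideal (𝓞 F)} {a b : ℕ} (h : a.Coprime b) (ha : (a : 𝓞 F) ∈ I)
    (hb : (b : 𝓞 F) ∈ I') : I ⊔ I' = ⊤ := by
  obtain ⟨u, v, e⟩ : IsCoprime (a : 𝓞 F) b := by
    simpa using (Nat.isCoprime_iff_coprime.2 h).intCast (R := 𝓞 F)
  exact (eq_top_iff_one _).2 (e ▸ add_mem (mem_sup_left (I.mul_mem_left _ ha))
    (mem_sup_right (I'.mul_mem_left _ hb)))

theorem cop_iff (I : Ideal (𝓞 F)) (t : ℕ) : I ⊔ span {(t : 𝓞 F)} = ⊤ ↔ (absNorm I).Coprime t := by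
  refine ⟨fun h => Nat.coprime_of_dvd fun p hp d ⟨e, d'⟩ => ?_,
    fun h => sup_top h (absNorm_mem I) (mem_span_singleton_self _)⟩
  obtain ⟨Q, q, m, k⟩ := Co.ex_max hp d
  exact q.ne_top (top_le_iff.1 (h.ge.trans (sup_le (le_of_dvd k)
    ((span_singleton_le_iff_mem _).2 (by rw [d', Nat.cast_mul]; exact Q.mul_mem_right _ m)))))

end

/-! ### characters, absolute values -/

variable {V : AbsoluteValue ℂ ℝ} {N : ℕ} {χ : ℤ → ℂ}

theorem v_root {z : ℂ} {k : ℕ} (hk : k ≠ 0) (h : z ^ k = 1) : V z = 1 :=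
  (pow_eq_one_iff_of_nonneg (V.nonneg z) hk).1 (by rw [← map_pow, h, map_one])

theorem v_int (hV : V2 V) (k : ℤ) : V k ≤ 1 := hV.1.apply_intCast_le_one_of_isNonarchimedean

theorem v_odd (hV : V2 V) {d : ℕ} (hd : Odd d) : V d = 1 := by
  obtain ⟨k, rfl⟩ := hd
  refine le_antisymm (by exact_mod_cast v_int hV (2 * k + 1 : ℕ)) (not_lt.1 fun h => ?_)
  have h3 := hV.1 ((2 * k + 1 : ℕ) : ℂ) (-(2 * k))
  have h4 := v_int hV k
  rw [show ((2 * k + 1 : ℕ) : ℂ) + -(2 * k) = 1 by push_cast; ring, V.map_one, V.map_neg, V.map_mul,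
    hV.2] at h3
  rw [Int.cast_natCast] at h4
  exact absurd h3 (not_le.2 (max_lt h (by linarith)))

theorem cr (h : Chr N χ) : Cr N χ := ⟨h.one, h.mul, h.per, h.zero⟩

theorem cr_root (h : Cr N χ) (hN : 0 < N) {a : ℤ} (e : χ a ≠ 0) : χ a ^ N.totient = 1 := by
  have p : ∀ k : ℕ, χ (a ^ k) = χ a ^ k := fun k => by
    induction k with
    | zero => simpa using h.one
    | succ k ih => rw [pow_succ, h.mul, ih, pow_succ]
  have := congrArg Units.val (ZMod.pow_totient (ZMod.unitOfIsCoprime a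
    (not_not.1 ((h.zero a).not.1 e))))
  rw [← p, ← h.one]
  refine h.per _ _ ((ZMod.intCast_zmod_eq_zero_iff_dvd _ _).1 ?_)
  push_cast
  exact sub_eq_zero.2 ((Units.val_pow_eq_pow_val _ _).symm.trans this)

theorem cj_root {z : ℂ} {k : ℕ} (hk : k ≠ 0) (h : z ^ k = 1) : conj z * z = 1 := by
  rw [Complex.conj_mul', Complex.norm_eq_one_of_pow_eq_one h hk]
  simp

theorem cr_cj (h : Cr N χ) (hN : 0 < N) {a : ℤ} (e : χ a ≠ 0) : conj (χ a) * χ a = 1 :=
  cj_root (Nat.totient_pos.2 hN).ne' (cr_root h hN e)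

theorem ext_p {f g : ℤ → ℂ} (hf : ∀ a b, f (a * b) = f a * f b) (hg : ∀ a b, g (a * b) = g a * g b)
    (h0 : f 0 = g 0) (h1 : f 1 = g 1) (h2 : f (-1) = g (-1)) (hp : ∀ p : ℕ, p.Prime → f p = g p)
    (d : ℤ) : f d = g d := by
  have k : ∀ n : ℕ, f n = g n := fun n => by
    induction n using induction_on_primes with
    | zero => exact h0
    | one => exact h1
    | prime_mul p a q ih => rw [Nat.cast_mul, hf, hg, hp p q, ih]
  obtain ⟨n, rfl | rfl⟩ := d.eq_nat_or_neg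
  · exact k n
  · rw [← neg_one_mul, hf, hg, h2, k]

theorem hs_up {u g : ℕ → ℂ} {t : ℕ} (ht : 0 < t) {z : ℂ}
    (h : HasSum (fun k => u k * g (t * k)) z) :
    HasSum (fun k => (if t ∣ k then u (k / t) else 0) * g k) z := by
  refine ((mul_right_injective₀ ht.ne').hasSum_iff fun k hk => ?_).1 ?_
  · rw [if_neg fun ⟨j, e⟩ => hk ⟨j, e.symm⟩, zero_mul]
  · simpa [Function.comp_def, ht] using h

/-! ### the field `K` -/

variable {K : Type} [Field K] [NumberField K] {J : K →+* ℂ} {D : ℕ} {θ : 𝓞 K}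
  {s : 𝓞 K ≃+* 𝓞 K} {m c : ℕ} {n n' w w' : Ideal (𝓞 K)}

theorem kd_im (h : Kd J D θ) : IsEmpty (K →+* ℝ) := ⟨fun σ => by
  have := congrArg (fun x : 𝓞 K => σ x) h.sq
  have p : (0 : ℝ) < D := Nat.cast_pos.2 (by have := h.md; omega)
  simp only [map_pow, map_neg, map_natCast, RingOfIntegers.coe_eq_algebraMap] at this
  nlinarith [sq_nonneg (σ (algebraMap _ K θ))]⟩

theorem v_le (hV : V2 V) (k : Cj.Cg J θ s) (x : 𝓞 K) : V (J x) ≤ 1 := by
  obtain ⟨T, hT⟩ := k.fix (x + s x) (by rw [map_add, k.ss, add_comm])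
  obtain ⟨U, hU⟩ := k.fix (x * s x) (by rw [map_mul, k.ss, mul_comm])
  have e := congrArg (fun y : 𝓞 K => J y)
    (show x * x = T * x + -U by linear_combination x * hT - hU)
  simp only [map_mul, map_add, map_neg, map_intCast] at e
  have := hV.1 (T * J x) (-U)
  rw [RingOfIntegers.coe_eq_algebraMap, ← e, V.map_neg, map_mul, map_mul] at this
  have a := v_int hV T
  have b := v_int hV U
  by_contra l
  rw [RingOfIntegers.coe_eq_algebraMap] at l
  rcases le_max_iff.1 this with r | r <;> nlinarith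

theorem sp_mul (hs : Sp m n n') (hw : Sp c w w') (cm : c.Coprime m) :
    Sp (m * c) (n * w) (n' * w') := by
  obtain ⟨a, a'⟩ := Cj.sp_m hs
  obtain ⟨b, b'⟩ := Cj.sp_m hw
  have i := fun {I I' : Ideal (𝓞 K)} => (isCoprime_iff_sup_eq (I := I) (J := I'))
  have crt : ∀ A B : Ideal (𝓞 K), (m : 𝓞 K) ∈ A → (c : 𝓞 K) ∈ B →
      (∀ x : 𝓞 K, ∃ k : ℤ, x - k ∈ A) → (∀ x : 𝓞 K, ∃ k : ℤ, x - k ∈ B) →
      ∀ x : 𝓞 K, ∃ k : ℤ, x - k ∈ A * B := fun A B p q k k' x => by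
    obtain ⟨d, hd⟩ := k x
    obtain ⟨e, he⟩ := k' x
    obtain ⟨u, v, r⟩ := Nat.isCoprime_iff_coprime.2 cm
    have r' : (u : 𝓞 K) * c + v * m = 1 := by exact_mod_cast r
    refine ⟨u * c * d + v * m * e, ?_⟩
    rw [show x - (u * c * d + v * m * e : ℤ) = (x - d) * (u * c) + v * m * (x - e) by
      push_cast; linear_combination -x * r']
    exact add_mem (mul_mem_mul hd (B.mul_mem_left _ q)) (mul_mem_mul (A.mul_mem_left _ p) he)
  exact ⟨mul_pos hs.pos hw.pos, i.1 (((i.2 hs.cop).mul_left (i.2 (sup_top cm b a'))).mul_right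
      ((i.2 (sup_top cm.symm a b')).mul_left (i.2 hw.cop))),
    by rw [mul_mul_mul_comm, hs.mul, hw.mul, span_singleton_mul_span_singleton, Nat.cast_mul],
    crt _ _ a b hs.cn hw.cn, crt _ _ a' b' hs.cn' hw.cn', by rw [map_mul, hs.nm, hw.nm]⟩

theorem va (hV : V2 V) (k : Cj.Cg J θ s) {a : Ideal (𝓞 K) → ℂ} (ha : HC J 1 n' a) (h0 : n' ≠ ⊥)
    {I : Ideal (𝓞 K)} (hI : I ⊔ n' = ⊤) {y : 𝓞 K} (hy : s y ∈ I) (e : V (J y) = 1) :
    V (a I) * V (absNorm I) = 1 := by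
  have I0 : I ≠ ⊥ := fun z => by
    rw [z, mem_bot, EmbeddingLike.map_eq_zero_iff] at hy
    simp [hy] at e
  obtain ⟨j, j0, x, x0, x1, hx⟩ := ex_gen h0 I0 hI
  obtain ⟨z, hz⟩ := mem_span_singleton.1 (hx.ge (pow_mem_pow hy j))
  have e1 := congrArg (fun u => V (J (s u))) hz
  have e2 := congrArg (fun u : ℝ => V u) (k.ab x)
  simp only [map_pow, map_mul, k.ss] at e1
  rw [RingOfIntegers.coe_eq_algebraMap] at e
  rw [e, one_pow] at e1
  have e3 : V (J (s x)) = 1 := le_antisymm (v_le hV k _) (e1.le.trans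
    (mul_le_of_le_one_right (V.nonneg _) (v_le hV k _)))
  rw [Complex.ofReal_pow, ← Complex.mul_conj', ← k.cj, map_mul, e3, hx, map_pow] at e2
  refine (pow_eq_one_iff_of_nonneg (by positivity) j0.ne').1 ?_
  push_cast at e2
  rw [mul_pow, ← map_pow, ← map_pow, ← ha.cm.pow, ← hx, ha.prn x x0 x1, e2, Algebra.norm_self,
    pow_one, map_inv₀, mul_one]
  exact inv_mul_cancel₀ (by simpa using x0)

theorem ex_a (hX : HEX) (h : Kd J D θ) (hs : Sp m n n') (hw : Sp c w w') (cm : c.Coprime m)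
    (m1 : 1 < m) {ε ε' : ℤ → ℂ} (hε : Chr m ε) (hχ : Cr c χ) {ξ b : Ideal (𝓞 K) → ℂ} (hξ : Rg c ξ)
    (rel : ∀ (x : 𝓞 K) (k k' : ℤ), x ≠ 0 → x - k ∈ w → x - k' ∈ w' →
      ξ (span {x}) = χ k * conj (χ k')) (hb : Hb J 1 n (fun d => conj (ε d)) b)
    (e' : ∀ d, ε' d = ε d * conj (χ d) ^ 2) : ∃ a, Ha J (n' * w') ε' a ∧
      ∀ I, (absNorm I).Coprime (m * c) →
        a I = b I * ξ I * ε (absNorm I) * conj (χ (absNorm I)) := by
  have S := sp_mul hs hw cm
  obtain ⟨s, g⟩ := Cj.ex_cg h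
  have nz : ∀ I : Ideal (𝓞 K), I ⊔ span {((m * c : ℕ) : 𝓞 K)} = ⊤ ↔
      ε (absNorm I) ≠ 0 ∧ χ (absNorm I) ≠ 0 := fun I => by
    rw [cop_iff, Nat.coprime_mul_iff_right, Ne, Ne, hε.zero, hχ.zero, not_not, not_not,
      Nat.isCoprime_iff_coprime, Nat.isCoprime_iff_coprime]
  have key : ∀ (x : 𝓞 K) (k : ℤ), x ≠ 0 → x - k ∈ n' * w' →
      span {x} ⊔ span {((m * c : ℕ) : 𝓞 K)} = ⊤ → b (span {x}) * ξ (span {x}) *
        ε (absNorm (span {x})) * conj (χ (absNorm (span {x}))) = (J x)⁻¹ * ε' k := by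
    intro x k x0 hk p
    obtain ⟨d, hd⟩ := hs.cn x
    obtain ⟨d', hd'⟩ := hw.cn x
    obtain ⟨p, q⟩ := (nz _).1 p
    rw [hε.per _ _ (Pe.nm_cong h hs hd (mul_le_left hk)), hε.mul] at p ⊢
    rw [hχ.per _ _ (Pe.nm_cong h hw hd' (mul_le_right hk)), hχ.mul] at q ⊢
    rw [hb.fin x d x0 hd, rel x d' k x0 hd' (mul_le_right hk), e', map_mul]
    have p := cr_cj (cr hε) hs.pos (left_ne_zero_of_mul p)
    have q := cr_cj hχ hw.pos (left_ne_zero_of_mul q)
    linear_combination (J x)⁻¹ * ε k * conj (χ k) ^ 2 * (conj (χ d') * χ d' * p + q)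
  have e1 : ε' 1 = 1 := by simp [e', hε.one, hχ.one]
  have le : span {((m * c : ℕ) : 𝓞 K)} ≤ n' * w' := (span_singleton_le_iff_mem _).2 (Cj.sp_m S).2
  obtain ⟨a, ra, ea⟩ := ((hX K).2 (fun x => (J x)⁻¹) (fun x y => by rw [map_mul, mul_inv])
    (fun x z => by simpa using z) (span {((m * c : ℕ) : 𝓞 K)})
    (fun I => b I * ξ I * ε (absNorm I) * conj (χ (absNorm I))) ⟨by simpa using S.pos.ne', by
      simp [hb.hc.one, hξ.rc.one, hε.one, hχ.one, -one_eq_top], fun I I' => by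
      simp only [map_mul, Nat.cast_mul, hb.hc.mul, hξ.rc.mul, hε.mul, hχ.mul]; ring, fun I => by
      rw [Ne, nz, mul_eq_zero, mul_eq_zero, mul_eq_zero, hb.hc.zero, hξ.rc.zero, map_eq_zero, Ne, Ne,
        Ne, Ne, hε.zero, hχ.zero, cop_iff, Nat.isCoprime_iff_coprime, Nat.isCoprime_iff_coprime]
      have := fun q => sup_top q (absNorm_mem I) (Cj.sp_m hs).1
      tauto, fun x x0 k => by
      rw [key x 1 x0 (by simpa using le k) ((eq_top_iff_one _).2 (by
        simpa using sub_mem (mem_sup_left (mem_span_singleton_self x)) (mem_sup_right k))), e1,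
        mul_one]⟩).1 _ le fun x x0 k p => by rw [key x 1 x0 (by simpa using k) p, e1, mul_one]
  refine ⟨a, ⟨⟨ra.one, ra.mul, ra.zero, fun x x0 k => by
    rw [ra.prn x x0 k, Algebra.norm_self, pow_one]; rfl⟩, fun x k x0 hk => ?_⟩,
    fun I p => ea I ((cop_iff _ _).2 p)⟩
  by_cases p : IsCoprime k (m * c : ℕ)
  · obtain ⟨u, v, r⟩ := p
    have r' : (u : 𝓞 K) * k + v * (m * c : ℕ) = 1 := by exact_mod_cast r
    have u0 : (u : 𝓞 K) ≠ 0 := fun z => by
      rw [Int.cast_eq_zero.1 z, zero_mul, zero_add, Nat.cast_mul, mul_left_comm] at r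
      exact m1.ne' (by exact_mod_cast Int.eq_one_of_mul_eq_one_right (by positivity) r)
    have p : span {(u : 𝓞 K)} ⊔ span {((m * c : ℕ) : 𝓞 K)} = ⊤ := (eq_top_iff_one _).2 (r' ▸ add_mem
      (mem_sup_left (mul_mem_right _ _ (mem_span_singleton_self _)))
      (mem_sup_right (mul_mem_left _ _ (mem_span_singleton_self _))))
    have e2 := ra.prn (x * u) (mul_ne_zero x0 u0) (by
      rw [show x * u - 1 = u * (x - k) - v * (m * c : ℕ) by linear_combination r']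
      exact sub_mem (mul_mem_left _ _ hk) (mul_mem_left _ _ (Cj.sp_m S).2))
    rw [← span_singleton_mul_span_singleton, ra.mul, ea _ p, key u u u0 (by simp) p, e',
      show ((x * u : 𝓞 K) : K) = x * (u : 𝓞 K) from rfl, map_mul, mul_inv] at e2
    have q1 : ε u * ε k = 1 := by
      rw [← hε.mul, hε.per _ 1 ⟨-v * c, by push_cast at r; linear_combination r⟩, hε.one]
    have q2 : conj (χ u) * conj (χ k) = 1 := by
      rw [← map_mul, ← hχ.mul, hχ.per _ 1 ⟨-v * m, by push_cast at r; linear_combination r⟩, hχ.one,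
        map_one]
    refine mul_left_cancel₀ (a := (J (u : 𝓞 K))⁻¹) (by simpa using u0) ?_
    rw [e']
    linear_combination ε k * conj (χ k) ^ 2 * e2 - a (span {x}) * (J (u : 𝓞 K))⁻¹ *
      ((conj (χ u) * conj (χ k)) ^ 2 * q1 + (conj (χ u) * conj (χ k) + 1) * q2)
  · have : ε' k = 0 := by
      rw [Nat.cast_mul, IsCoprime.mul_right_iff, not_and_or, ← hε.zero, ← hχ.zero] at p
      rcases p with p | p <;> simp [e', p]
    rw [this, mul_zero, ra.zero]
    refine .inr fun t => p ?_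
    obtain ⟨_, hy, z, hz, r⟩ := Submodule.mem_sup.1 ((eq_top_iff_one _).1 t)
    obtain ⟨y, rfl⟩ := mem_span_singleton'.1 hy
    obtain ⟨j, hj⟩ := S.cn' y
    obtain ⟨i, hi⟩ := (g.sp_int S (1 - j * k)).1 (by
      rw [show ((1 - j * k : ℤ) : 𝓞 K) = (y - j) * x + j * (x - k) + z by
        push_cast; linear_combination -r]
      exact add_mem (add_mem (mul_mem_right _ _ hj) (mul_mem_left _ _ hk)) hz)
    exact ⟨j, i, by linear_combination -hi⟩

end Vale.Agent.P004C.Ln.Pw
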