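import Vale.Agent.P004C.Ln.Pv3b

/-! # P004 C, block LN: the period formula at one level, as a value of a Hecke series -/

open NumberField Module Ideal UpperHalfPlane
open scoped Classical ComplexConjugate Real

noncomputable section

namespace Vale.Agent.P004C.Ln.Pw

open Wa Wa.Co Wa.Re0 Wa.Re1

theorem co_of {F : Type} [Field F] [NumberField F] {c c' : Ideal (𝓞 F) → ℂ} {k : ℕ} {y : ℂ}
    (h : ∀ I, absNorm I = k → c I = c' I * y) : co c k = co c' k * y := by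
  rw [co_eq, co_eq, Finset.sum_mul]
  exact Finset.sum_congr rfl fun I hI => h I (mem_fs.1 hI)

theorem ana {ι : Type} (T : Finset ι) (κ : ℂ) (x α : ι → ℂ) {t : ι → ℕ} (ht : ∀ E ∈ T, 0 < t E)
    {u v : ℕ → ℂ} (hv : ∀ E ∈ T, ∀ k, v (t E * k) = α E * v k) {s : ℂ}
    (su : Summable fun k : ℕ => u k * v k * (k : ℂ) ^ s) :
    ∑' k : ℕ, (κ * ∑ E ∈ T, x E * if t E ∣ k then u (k / t E) else 0) * v k * (k : ℂ) ^ s =
      (κ * ∑ E ∈ T, x E * (α E * (t E : ℂ) ^ s)) * ∑' k : ℕ, u k * v k * (k : ℂ) ^ s := by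
  simp only [mul_assoc κ, Finset.sum_mul, mul_assoc (x _), mul_assoc (ite _ _ _)]
  refine ((hasSum_sum fun E hE => (hs_up (g := fun k => v k * (k : ℂ) ^ s) (ht E hE) ?_).mul_left
    _).mul_left κ).tsum_eq
  refine cast (congrArg (HasSum · _) (funext fun k => ?_)) (su.hasSum.mul_left _)
  rw [hv E hE, Nat.cast_mul, Complex.natCast_mul_natCast_cpow]
  ring

variable {K L M : Type} [Field K] [NumberField K] [Field L] [NumberField L] [Field M]
  [NumberField M] [Algebra K M] [Algebra L M] {J : K →+* ℂ} {D m₀ m : ℕ} {θ ν : 𝓞 K}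
  {n n' : Ideal (𝓞 K)} {V : AbsoluteValue ℂ ℝ} {sg : L → ℂ} {g : Ideal (𝓞 L)}
  {ψ : Ideal (𝓞 L) → ℂ} {ε : ℤ → ℂ} {a : Ideal (𝓞 K) → ℂ}

theorem unq (B : Bq K L M) (S : Sp m n n') {Q Q' : Ideal (𝓞 M)} (q : Q.IsMaximal)
    (q' : Q'.IsMaximal) (e : Q'.under (𝓞 L) = Q.under (𝓞 L)) (l : n.map (algebraMap _ _) ≤ Q)
    (l' : n.map (algebraMap _ _) ≤ Q') : Q = Q' := by
  obtain ⟨p, p1, d, pP⟩ := ex_p (IsMaximal.under (𝓞 L) Q).isPrime m S.pos
    (mem_und (by simpa using l (mem_map_of_mem _ (Cj.sp_m S).1)))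
  obtain ⟨A, A', s, -, k'⟩ := spl_m B.k S p1 d
  obtain ⟨U, U', k⟩ := B.ab s inferInstance pP
  have : ∀ R : Ideal (𝓞 M), R.IsMaximal → R.under (𝓞 L) = Q.under (𝓞 L) →
      n.map (algebraMap _ _) ≤ R → R = U := fun R r x y => (k.two r x).resolve_right fun z =>
    not_both S.cop s.m' ((map_le_iff_le_comap.1 y).trans (z ▸ k.k'.le)) k'
  rw [this Q q rfl l, this Q' q' e l']

omit [NumberField L] in
theorem rc_bar (hS : Sg sg) (r : RC sg g ψ) : RC sg g fun I => conj (ψ I) :=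
  ⟨r.ne, by rw [r.one, map_one], fun I I' => by rw [r.mul, map_mul],
    fun I => by rw [map_eq_zero, r.zero], fun x x0 k => by
      rw [r.prn x x0 k]; rcases hS with ⟨-, e⟩ | ⟨σ, e⟩ <;> simp [e]⟩

theorem core (hW : WALD) (hT : THG) (hF : FRK) (hK : THK) (hV : V2 V) (h : Kd J D θ)
    (B : Bq K L M) (hS : Sg sg) (r : RC sg g ψ) (g1 : g ≠ ⊤) (pm : Pm sg g ψ) (a2 : At2 g)
    (m0 : (m₀ : 𝓞 L) ∈ g) (pr : ∀ p : ℕ, p.Prime → p ∣ m → p ∣ m₀)
    (dv : (discr L).natAbs * m₀ ∣ m) (m1 : 1 < m) (hs : Sp m n n') (dm : D.Coprime m) {y : 𝓞 K}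
    (y0 : y ∈ n') (y1 : V (J y) = 1) (hε : Chr m ε) (mw : MW (m ^ 2) ε (tg (dp m ψ)))
    (hk : ∀ k, k.Coprime m → Hk ε (tg (dp m ψ)) k (co ψ k))
    (pp : ∀ p : ℕ, p.Prime → p.Coprime m →
      ε p = (if (span {(p : 𝓞 L)}).IsPrime then -1 else 1) * ψ (span {(p : 𝓞 L)}) ∧
      ∃ x y : ℂ, ‖x‖ = 1 ∧ ‖y‖ = 1 ∧ x * y = ε p ∧ x + y = co ψ p) (ha : Ha J n' ε a)
    (n1 : ν ∈ n' ^ 2) (n2 : ν - 1 ∈ n ^ 2) {R : ClassGroup (𝓞 K) → Ideal (𝓞 K)} (hR : Rc m R)
    {F : Ideal (𝓞 M)} (F1 : F ≤ g.map (algebraMap _ _)) (F2 : F ≤ n'.map (algebraMap _ _))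
    (hc : HC J 1 F (cM M (fun I => conj (ψ I)) a)) :
    ∃ z, AC (cM M (fun I => conj (ψ I)) a) z ∧
      V (2 * π * per J (m ^ 2) ε (tg (dp m ψ)) a ν R) ^ 2 =
        √(V ((discr L).natAbs * absNorm g : ℕ)) * Ef V m F (cM M (fun I => conj (ψ I)) a) * V z := by
  obtain ⟨s, c⟩ := Cj.ex_cg h
  have rφ := rc_bar hS r
  obtain ⟨o, q, -⟩ := hT L B.l sg g ψ hS r g1
  have qφ := (hT L B.l sg g _ hS rφ g1).2.1 1
  set φ := fun I => conj (ψ I) with hφ
  rw [show dp 1 φ = φ from funext fun I => by simp [dp]] at qφ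
  have cj : ∀ I, ψ I ≠ 0 → φ I * ψ I = 1 := fun I e =>
    ((o I).resolve_left e).elim fun k k' => cj_root k'.1.ne' k'.2
  have nφ : ∀ I, ψ I ≠ 0 → ‖φ I‖ = 1 := fun I e => ((o I).resolve_left e).elim fun k k' =>
    (Complex.norm_conj _).trans (Complex.norm_eq_one_of_pow_eq_one k'.2 k'.1.ne')
  have lφ : ∀ I, ‖φ I‖ ≤ 1 := fun I => by
    by_cases e : ψ I = 0
    · simp [hφ, e]
    · exact (nφ I e).le
  have φ0 : φ ⊥ = 0 := (rφ.zero _).2 (.inl rfl)
  have na := ((hK K J D θ h).2.2 m n n' ε a hs hε ha).1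
  obtain ⟨C, C0, bφ⟩ := co_eps B.l ⟨rφ.one, rφ.mul⟩ φ0 lφ (ε := 1 / 8) (by norm_num)
  have la : ∀ I, ‖a I * √(absNorm I)‖ ≤ 1 := fun I => (na I).elim (fun e => by simp [e]) fun e => by
    rw [← sq_le_one_iff₀ (norm_nonneg _), norm_mul, mul_pow, Complex.norm_real,
      Real.norm_eq_abs, sq_abs, Real.sq_sqrt (by positivity), e]
  obtain ⟨C', C1, ba⟩ := co_eps h.two (c := fun I => a I * √(absNorm I))
    ⟨by simp [ha.hc.one, -one_eq_top], fun I I' => by simp [ha.hc.mul, mul_mul_mul_comm]⟩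
    (by simp) la (ε := 3 / 8) (by norm_num)
  have mm : (m : 𝓞 L) ∈ g := by
    obtain ⟨e, rfl⟩ := (dvd_mul_left _ _).trans dv
    exact Nat.cast_mul (α := 𝓞 L) _ _ ▸ g.mul_mem_right _ m0
  obtain ⟨T, hT⟩ : ∃ T : Finset (Ideal (𝓞 L)),
      ∀ P, P ∈ T ↔ P.IsMaximal ∧ (m : 𝓞 L) ∈ P ∧ P ⊔ g = ⊤ :=
    ⟨((Al.Eu.fin_dvd (I₀ := span {(m : 𝓞 L)}) (by simpa using hs.pos.ne')).subset
      (t := {P | P.IsMaximal ∧ (m : 𝓞 L) ∈ P ∧ P ⊔ g = ⊤})
      fun P e => dvd_span_singleton.2 e.2.1).toFinset, fun P => Set.Finite.mem_toFinset _⟩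
  have dT : ∀ E ∈ T.powerset, (discr L).natAbs * absNorm (g * ∏ P ∈ E, P) ∣ m ^ 2 := fun E hE => by
    have e := fun P x => (hT P).1 (Finset.mem_powerset.1 hE x)
    refine .trans ?_ (pow_dvd_pow_of_dvd dv 2)
    rw [mul_pow, ← nm_span B.l m₀]
    refine mul_dvd_mul (dvd_pow_self _ two_ne_zero) (map_dvd _ (IsCoprime.mul_dvd
      (.prod_right fun P x => (isCoprime_iff_sup_eq.2 (e P x).2.2).symm) (dvd_span_singleton.2 m0)
      (Finset.prod_dvd_of_coprime (fun P x P' x' u => isCoprime_iff_sup_eq.2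
        ((e P x).1.coprime_of_ne (e P' x').1 u)) fun P x => dvd_span_singleton.2 ?_)))
    obtain ⟨p, p1, d, pP⟩ := ex_p (e P x).1.isPrime m hs.pos (e P x).2.1
    obtain ⟨j, rfl⟩ := pr p p1 d
    exact Nat.cast_mul (α := 𝓞 L) _ _ ▸ P.mul_mem_right _ pP
  obtain ⟨κ, vκ, fk⟩ := hF L B.l sg g ψ hS r g1 pm
  replace vκ := vκ V hV.1 (by rw [hV.2]; norm_num) a2
  replace fk := fk m T hs.pos mm hT (dT T (Finset.mem_powerset_self T))
  obtain ⟨t, ht⟩ : ∃ t : Finset (Ideal (𝓞 L)) → ℕ,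
    ∀ E, m ^ 2 / ((discr L).natAbs * absNorm (g * ∏ P ∈ E, P)) = t E := ⟨_, fun _ => rfl⟩
  have t1 : ∀ E ∈ T.powerset, m ^ 2 = t E * ((discr L).natAbs * absNorm (g * ∏ P ∈ E, P)) :=
    fun E hE => by rw [← ht, Nat.div_mul_cancel (dT E hE)]
  have t0 : ∀ E ∈ T.powerset, 0 < t E := fun E hE =>
    Nat.pos_of_mul_pos_right (t1 E hE ▸ pow_pos hs.pos 2)
  obtain ⟨x, hx⟩ : ∃ x : Finset (Ideal (𝓞 L)) → ℂ,
    ∀ E, (-1) ^ E.card * (ψ (∏ P ∈ E, P) / absNorm (∏ P ∈ E, P)) = x E := ⟨_, fun _ => rfl⟩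
  simp only [ht, hx] at fk
  have cd : ∀ k, k.Coprime m → co (dp m ψ) k = co ψ k := fun k e =>
    (co_of fun I u => by rw [dp, u, if_pos e, mul_one]).trans (mul_one _)
  obtain ⟨Lf, u, u4, dL, eL, eW⟩ := hW K J D θ h m n n' ε a _ _
    (fun k => κ * ∑ E ∈ T.powerset, x E * if t E ∣ k then co φ (k / t E) else 0) ν R m1 hs dm hε ha
    mw (q m) (fun k e => (co_of (c' := ψ) fun I u => by rw [dp, u, if_neg e, mul_zero]).trans
      (mul_zero _)) (fun k e => (cd k e).symm ▸ hk k e)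
    (fun p p1 d => (cd p (dm.coprime_dvd_left d)).symm ▸ (pp p p1 (dm.coprime_dvd_left d)).2)
    (fun τ => by
      simp only [fk, mul_assoc κ, Finset.sum_mul, mul_assoc (x _)]
      refine (hasSum_sum fun E hE => (hs_up (g := fun k => ee (k * τ)) (t0 E hE) ?_).mul_left
        _).mul_left κ
      have := qφ (ofComplex (t E * τ))
      rw [ofComplex_apply_of_im_pos (by simpa using mul_pos (Nat.cast_pos.2 (t0 E hE)) τ.im_pos)]
        at this
      simpa [up, mul_left_comm, mul_assoc, ofComplex_apply_of_im_pos (show 0 < ((t E : ℂ) * τ).im by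
        simpa using mul_pos (Nat.cast_pos.2 (t0 E hE)) τ.im_pos)] using this)
    ⟨‖κ‖ * ∑ E ∈ T.powerset, ‖x E‖ * C, fun k => by
      rw [norm_mul, mul_assoc, Finset.sum_mul]
      refine mul_le_mul_of_nonneg_left (norm_sum_le_of_le _ fun E hE => ?_) (norm_nonneg _)
      rw [norm_mul, mul_assoc]
      gcongr
      split_ifs
      · exact (bφ _).trans (by gcongr; exact Nat.div_le_self _ _)
      · rw [norm_zero]; positivity⟩ n1 n2 hR
  obtain ⟨r1, r2, r3⟩ := rse K J D θ h L B.l M B.km (fun x y e => (B.int x y e).imp fun _ k => k.1)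
    m n n' φ a hs dm ((dvd_mul_right _ _).trans dv) rφ.one φ0 rφ.mul lφ ha.hc (fun I =>
      (na I).elim (fun e => by simp [e]) fun e => by
        have : (1 : ℝ) ≤ absNorm I := Nat.one_le_cast.2 (Nat.pos_of_ne_zero fun z => by simp [z] at e)
        nlinarith [norm_nonneg (a I), sq_nonneg (‖a I‖ - 1), sq_nonneg ‖a I‖]) fun p p1 d => by
      have e := (pp p p1 d).1
      have z := cj _ (right_ne_zero_of_mul (e ▸ (hε.zero p).not.2
        (not_not.2 (Nat.isCoprime_iff_coprime.2 d))))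
      have p0 : (p : ℂ) ≠ 0 := Nat.cast_ne_zero.2 p1.ne_zero
      rw [ha.fin p p (Nat.cast_ne_zero.2 p1.ne_zero) (by simp), e, show J (p : 𝓞 K) = p by simp]
      field_simp
      split_ifs <;> simpa using z
  obtain ⟨α, hα⟩ : ∃ α : ℕ → ℂ, ∀ j : ℕ, a (n ^ 2 ⊔ span {(j : 𝓞 K)}) = α j := ⟨_, fun _ => rfl⟩
  simp only [hα] at r1
  have vα : ∀ j, j ∣ m ^ 2 → V (α j) * V j = 1 := fun j d => by
    rw [← hα, ← va hV c ha.hc (Cj.sp_ne hs).2 (I := n ^ 2 ⊔ span {(j : 𝓞 K)}) (y := y ^ 2)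
      (top_le_iff.1 ((isCoprime_iff_sup_eq.1 (isCoprime_iff_sup_eq.2 hs.cop).pow_left).ge.trans
        (sup_le_sup_right le_sup_left _))) (mem_sup_left (map_pow s y 2 ▸ pow_mem_pow
          ((c.sp_mem hs).1.2 y0) 2)) (by simpa using .inl y1), nm_sup h.two hs d]
  have α0 : ∀ j, j ∣ m ^ 2 → α j ≠ 0 := fun j d z => by simpa [z] using vα j d
  have nP : ∀ P ∈ T, absNorm P ∣ m ^ 2 := fun P x =>
    nm_span B.l m ▸ map_dvd _ (dvd_span_singleton.2 ((hT P).1 x).2.1)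
  have ψ0 : ∀ P ∈ T, ψ P ≠ 0 := fun P x => (r.zero P).not.2 (not_or.2
    ⟨(Al.Eu.prime_iff.2 ((hT P).1 x).1).ne_zero, not_not.2 ((hT P).1 x).2.2⟩)
  have E0 : ∑ E ∈ T.powerset, x E * (α (t E) * (t E : ℂ) ^ (-(0 : ℂ))) =
      α (t ∅) * ∏ P ∈ T, (1 + -(absNorm P * (φ P * α (absNorm P)))⁻¹) := by
    rw [Finset.prod_one_add, Finset.mul_sum]
    refine Finset.sum_congr rfl fun E hE => ?_
    have e : E ⊆ T := Finset.mem_powerset.1 hE
    have k : ∀ U ⊆ T, co a (∏ P ∈ U, absNorm P) = ∏ P ∈ U, α (absNorm P) := fun U l => by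
      induction U using Finset.induction_on with
      | empty => simpa using co_one ha.hc.cm
      | insert P U i ih => rw [Finset.prod_insert i, Finset.prod_insert i, r1 _ _ (nP P (l (by simp))),
          ih ((Finset.subset_insert _ _).trans l)]
    have k1 : t ∅ = t E * ∏ P ∈ E, absNorm P := by
      have := t1 ∅ (by simp)
      refine mul_right_cancel₀ (Nat.pos_of_mul_pos_left (this ▸ pow_pos hs.pos 2)).ne' ?_
      rw [← this, t1 E hE, map_mul, map_prod, Finset.prod_empty, mul_one]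
      ring
    have k2 := r1 (t ∅) 1 (Dvd.intro _ (t1 ∅ (by simp)).symm)
    rw [mul_one, co_one ha.hc.cm, mul_one] at k2
    rw [← k2, k1, r1 _ _ (Dvd.intro _ (t1 E hE).symm), k E e, ← hx, Finset.prod_neg, neg_zero,
      Complex.cpow_zero, Al.Cm.prod ⟨r.one, r.mul⟩, map_prod, Nat.cast_prod,
      ← Finset.prod_div_distrib, mul_mul_mul_comm (α _), ← Finset.prod_mul_distrib, mul_one,
      mul_right_comm, mul_comm _ (α _)]
    refine congrArg _ (Finset.prod_congr rfl fun P i => ?_)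
    have := α0 _ (nP P (e i))
    rw [eq_inv_of_mul_eq_one_left (cj P (ψ0 P (e i)))]
    field_simp
  have val : ∀ {P : Ideal (𝓞 L)} {Q : Ideal (𝓞 M)}, relNorm (𝓞 L) Q = P →
      relNorm (𝓞 K) Q = n ^ 2 ⊔ span {(absNorm P : 𝓞 K)} → cM M φ a Q = φ P * α (absNorm P) :=
    fun e e' => by rw [cM, e, e', hα]
  have hw : ∀ w : Ideal (𝓞 M), w.IsMaximal ∧ (m : 𝓞 M) ∈ w ∧ w ⊔ F = ⊤ → relNorm (𝓞 L) w ∈ T ∧
      n.map (algebraMap _ _) ≤ w ∧ relNorm (𝓞 L) w = w.under (𝓞 L) ∧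
      relNorm (𝓞 K) w = n ^ 2 ⊔ span {(absNorm (relNorm (𝓞 L) w) : 𝓞 K)} := fun w ⟨i, j, k⟩ => by
    have nF : ¬ F ≤ w := fun l => i.ne_top (by rw [← k, sup_eq_left.2 l])
    have l : n.map (algebraMap _ _) ≤ w := (i.isPrime.mul_le.1 (by
      rw [← Ideal.map_mul, hs.mul, map_p, span_singleton_le_iff_mem]; exact j)).resolve_right
        fun l => nF (F2.trans l)
    obtain ⟨Q, ⟨b1, b2, b3, b4⟩, -⟩ := r2 (w.under (𝓞 L)) inferInstance (mem_und j)
    obtain rfl := unq B hs i b1 (und b1 inferInstance (map_le_iff_le_comap.2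
      (b3.ge.trans (relNorm_le_comap _ _)))) l b2
    rw [b3]
    exact ⟨(hT _).2 ⟨inferInstance, mem_und j, not_not.1 fun z => nF (F1.trans
      (map_le_iff_le_comap.2 (le_sup_right.trans ((IsMaximal.under (𝓞 L) w).eq_of_le z
        le_sup_left).ge)))⟩, l, rfl, b4⟩
  have ef : Ef V m F (cM M φ a) = ∏ P ∈ T, V (1 + -(absNorm P * (φ P * α (absNorm P)))⁻¹) := by
    rw [← finprod_mem_coe_finset]
    refine finprod_mem_eq_of_bijOn (relNorm (𝓞 L)) ⟨fun w i => (hw w i).1, fun w i w' i' e => ?_,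
      fun P i => ?_⟩ fun w i => ?_
    · exact unq B hs i.1 i'.1 (by rw [← (hw w i).2.2.1, ← (hw w' i').2.2.1, e]) (hw w i).2.1
        (hw w' i').2.1
    · obtain ⟨Q, ⟨b1, b2, b3, b4⟩, -⟩ := r2 P ((hT P).1 i).1 ((hT P).1 i).2.1
      refine ⟨Q, ⟨b1, by simpa using b2 (mem_map_of_mem _ (Cj.sp_m hs).1), not_not.1 fun z => ?_⟩, b3⟩
      have := (hc.zero Q).2 (.inr z)
      rw [val b3 b4] at this
      exact mul_ne_zero ((map_ne_zero _).2 (ψ0 P i)) (α0 _ (nP P i)) this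
    · rw [val rfl (hw w i).2.2.2, absNorm_relNorm, sub_eq_add_neg]
  have W0 := t1 ∅ (by simp)
  rw [Finset.prod_empty, mul_one] at W0
  have E1 : κ * ∑ E ∈ T.powerset, x E * (α (t E) * (t E : ℂ) ^ (-(0 : ℂ))) ≠ 0 := by
    rw [E0]
    refine mul_ne_zero (fun z => by simp [z] at vκ) (mul_ne_zero (α0 _ (Dvd.intro _ W0.symm))
      (Finset.prod_ne_zero_iff.2 fun P i z => ?_))
    have k := congrArg norm (inv_eq_one.1 (add_neg_eq_zero.1 z).symm)
    have k' := (na _).resolve_left (hα _ ▸ α0 _ (nP P i))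
    have : (1 : ℝ) < absNorm P := Nat.one_lt_cast.2 (one_lt ((hT P).1 i).1)
    rw [norm_mul, norm_mul, nφ P (ψ0 P i), Complex.norm_natCast, norm_one] at k
    rw [hα, nm_sup h.two hs (nP P i)] at k'
    nlinarith [norm_nonneg (α (absNorm P))]
  refine ⟨Lf 0 / _, ⟨1 / 2, one_half_pos, Lf, fun s =>
    κ * ∑ E ∈ T.powerset, x E * (α (t E) * (t E : ℂ) ^ (-s)), dL, ?_, E1,
    (mul_div_cancel₀ _ E1).symm, fun s e => ?_⟩, ?_⟩
  · exact ((Differentiable.fun_sum fun E hE => ((differentiable_id.neg.const_cpow (.inl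
      (Nat.cast_ne_zero.2 (t0 E hE).ne'))).const_mul _).const_mul _).const_mul _).differentiableOn
  · rw [eL s e, ana _ κ x (fun E => α (t E)) t0
      (fun E hE k => r1 _ k (Dvd.intro _ (t1 E hE).symm)), mul_left_comm, ← (r3 s e).tsum_eq]
    · rfl
    refine .of_norm_bounded ((Real.summable_nat_rpow.2 (neg_lt_neg e)).mul_left (C * C')) fun k => ?_
    rw [norm_mul, Complex.norm_natCast_cpow_of_re_ne_zero _ (by rw [Complex.neg_re]; linarith),
      Complex.neg_re]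
    gcongr
    rcases k.eq_zero_or_pos with rfl | k0
    · rw [co_zero φ0, zero_mul, norm_zero]; positivity
    have k1 : (0 : ℝ) < k := Nat.cast_pos.2 k0
    have b := ba k
    rw [co_of (c' := a) (y := √k) fun I u => by rw [u], norm_mul, Complex.norm_real,
      Real.norm_of_nonneg (by positivity)] at b
    refine le_of_mul_le_mul_right ?_ (Real.sqrt_pos.2 k1)
    rw [norm_mul, mul_assoc]
    refine (mul_le_mul (bφ k) b (by positivity) (by positivity)).trans_eq ?_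
    rw [mul_mul_mul_comm, ← Real.rpow_add k1, Real.sqrt_eq_rpow]
    norm_num
  · have vD := v_odd hV (Nat.odd_iff.2 (show D % 2 = 1 by have := h.md; omega))
    have k1 := va hV c ha.hc (Cj.sp_ne hs).2 hs.cop ((c.sp_mem hs).1.2 y0) y1
    have k2 := va hV c ha.hc (Cj.sp_ne hs).2 (I := span {θ}) (y := D) (sup_top dm
      (Pe.nm_θ h ▸ absNorm_mem _) (Cj.sp_m hs).2) (by
        rw [map_natCast, ← Pe.nm_θ h]; exact absNorm_mem _) (by simpa using vD)
    have k3 := vα _ (Dvd.intro _ W0.symm)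
    have k4 := congrArg (fun j : ℕ => V j) W0
    have k5 := congrArg V eW
    have k6 : V √D = 1 := (pow_eq_one_iff_of_nonneg (V.nonneg _) two_ne_zero).1 (by
      rw [← map_pow, ← Complex.ofReal_pow, Real.sq_sqrt (by positivity), Complex.ofReal_natCast, vD])
    rw [hs.nm] at k1
    rw [Pe.nm_θ h, vD, mul_one] at k2
    rw [Nat.cast_pow, map_pow, Nat.cast_mul, map_mul] at k4
    generalize 2 * π * per J _ _ _ _ _ _ = X at k5 ⊢
    simp only [map_mul, map_pow] at k5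
    rw [k2, k6, v_root four_ne_zero u4, v_root (Nat.totient_pos.2 hs.pos).ne' (cr_root (cr hε) hs.pos
        ((hε.zero D).not.2 (not_not.2 (Nat.isCoprime_iff_coprime.2 dm)))),
      ← mul_div_cancel₀ (Lf 0) E1, map_mul] at k5
    generalize V (Lf 0 / _) = Z at k5 ⊢
    rw [E0, map_mul, map_mul, map_prod, ← ef] at k5
    have W1 := V.nonneg ((discr L).natAbs * absNorm g : ℕ)
    generalize V ((discr L).natAbs * absNorm g : ℕ) = W at *
    rw [show √W = W * V κ from (Real.sqrt_eq_iff_eq_sq W1 (by positivity)).2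
      (by linear_combination -W * vκ)]
    linear_combination V m ^ 2 * k5 - V X ^ 2 * (V (a n) * V m + 1) * k1 +
      V κ * Ef V m F (cM M φ a) * Z * (V (α (t ∅)) * k4 + W * k3)

end Vale.Agent.P004C.Ln.Pw
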