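import Vale.Agent.P004C.Ln.Pv3a

/-!
# P004 C, block LN, row PV3: the character of the biquadratic field, any modulus
-/

set_option autoImplicit false
set_option linter.all false

open NumberField Module Ideal
open scoped Classical ComplexConjugate

noncomputable section

namespace Vale.Agent.P004C.Ln.Pv

open Wa (Kd Sp Sg RC Pm)

variable {K : Type} [Field K] [NumberField K] {J : K →+* ℂ} {D : ℕ} {θ : 𝓞 K}
  {L : Type} [Field L] [NumberField L] {M : Type} [Field M] [NumberField M] [Algebra K M]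
  [Algebra L M]

theorem hcm' (h : Kd J D θ) (h2 : finrank ℚ L = 2) (hM : finrank K M = 2)
    (hd : ∀ x : L, ∀ y : K, algebraMap L M x = algebraMap K M y → ∃ q : ℚ, x = q)
    {sg : L → ℂ} {g : Ideal (𝓞 L)} {φ : Ideal (𝓞 L) → ℂ} {t : Ideal (𝓞 K)}
    {a : Ideal (𝓞 K) → ℂ} (hs : Sg sg) (r : RC sg g φ) (ha : HC J 1 t a) {F : Ideal (𝓞 M)}
    (l : F ≤ g.map (algebraMap (𝓞 L) (𝓞 M))) (l' : F ≤ t.map (algebraMap (𝓞 K) (𝓞 M)))
    (e : ∀ I, I ⊔ g.map (algebraMap (𝓞 L) (𝓞 M)) = ⊤ → I ⊔ t.map (algebraMap (𝓞 K) (𝓞 M)) = ⊤ →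
      I ⊔ F = ⊤) : HC J 1 F fun I => φ (relNorm (𝓞 L) I) * a (relNorm (𝓞 K) I) where
  one := (hcm h h2 hM hd hs r ha).one
  mul := (hcm h h2 hM hd hs r ha).mul
  zero I := ((hcm h h2 hM hd hs r ha).zero I).trans (or_congr_right (not_congr (cop_mul.trans
    ⟨fun u => e I u.1 u.2, fun u => ⟨eq_top_iff.2 (u ▸ sup_le_sup_left l I),
      eq_top_iff.2 (u ▸ sup_le_sup_left l' I)⟩⟩)))
  prn x x0 x1 := by
    have hL := rk2 h h2 hM
    have z : ∀ y : K, Algebra.norm K y = y := fun y => by simp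
    rw [relNorm_singleton, relNorm_singleton, r.prn _ (nm0 x0) (nm1 hL (l x1)),
      ha.prn _ (nm0 x0) (nm1 hM (l' x1)), coe_nm, coe_nm, z (Algebra.norm K (x : M))]
    rcases hs with ⟨-, e⟩ | ⟨σ, e⟩
    · rw [e, one_mul]
    · rw [e, sign_pos (pos h hL hd σ (by simpa using x0))]
      simp

end Vale.Agent.P004C.Ln.Pv
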