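import Vale.Agent.P004C.St
import Vale.Agent.P004C.Wa.St
import Vale.Agent.P004F.Defs

/-!
# P004 C, block LN: from the Hecke series to the analytic side of the anchor (words and rows)
-/

open NumberField Module UpperHalfPlane CongruenceSubgroup
open scoped Classical MatrixGroups Real ComplexConjugate

noncomputable section

namespace Vale.Agent.P004C.Ln

open Vale.Agent.P022 (Qb GQ GK below)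
open Vale.Agent.P027H Vale.Agent.P027M.M Vale.Agent.P022.H218.L3 Vale.Agent.P022.H236.L3
open P004K (Ex Cj0 At st Oc Cn Cop Hp Iq JJ jL Ar Hc Ip Zp)
open Vale.Agent.P027M.S (Inert)
open Vale.Agent.P022E.GW (Ov)
open P004Z.EF (Val)
open P004M.TE (ga)
open P004F (Crv Fld)
open P004F.Qx (Vp Zq Cq zf dep)
open Wa (ee Chr jj MW QE co Kd Sp Ha lf Rc per Sg RC Pm tg dp)

/-! ### words -/

/-- the complex embedding -/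
def Jc {K : Type} [Field K] (j : K →+* Qb) : K →+* ℂ := (io : Qb →+* ℂ).comp j

/-- the embedding of the integers -/
def Jo {K : Type} [Field K] (J : K →+* ℂ) : 𝓞 K →+* ℂ := J.comp (algebraMap (𝓞 K) K)

/-- a place of `ℂ` above two -/
def V2 (V : AbsoluteValue ℂ ℝ) : Prop := IsNonarchimedean V ∧ V 2 = 1 / 2

/-- `ι` induces `V`, which lies over `P` -/
structure Pl (ι : ℂ →+* ℂ_[2]) (V : AbsoluteValue ℂ ℝ) (P : Ideal (𝓞 Qb)) : Prop where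
  bij : Function.Bijective ι
  eq : ∀ z, V z = ‖ι z‖
  vp : Vp V P

/-- character modulo `m` -/
structure Cr (m : ℕ) (χ : ℤ → ℂ) : Prop where
  one : χ 1 = 1
  mul : ∀ a b, χ (a * b) = χ a * χ b
  per : ∀ a b, (m : ℤ) ∣ a - b → χ a = χ b
  zero : ∀ a, χ a = 0 ↔ ¬ IsCoprime a (m : ℤ)

/-- primitive -/
def Cp (m : ℕ) (χ : ℤ → ℂ) : Prop := ∀ q : ℕ, q.Prime → q ∣ m →
  ∃ k : ℤ, ((m / q : ℕ) : ℤ) ∣ k - 1 ∧ χ k ≠ 0 ∧ χ k ≠ 1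

/-- Hecke relations outside `R` -/
structure Hm (R : ℕ) (e A : ℕ → ℂ) : Prop where
  one : A 1 = 1
  mul : ∀ a b, a.Coprime b → A (a * b) = A a * A b
  pow : ∀ p k : ℕ, p.Prime → ¬ p ∣ R → A (p ^ (k + 2)) = A p * A (p ^ (k + 1)) - e p * A (p ^ k)

/-- depletion at an ideal -/
def Dp {M : Type} [Field M] (t : Ideal (𝓞 M)) (a : Ideal (𝓞 M) → ℂ) (I : Ideal (𝓞 M)) : ℂ :=
  if I ⊔ t = ⊤ then a I else 0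

section

variable {K : Type} [Field K] [NumberField K]

/-- ring class character of conductor `c`, ramified at all primes of `c` -/
structure Rg (c : ℕ) (ξ : Ideal (𝓞 K) → ℂ) : Prop where
  rc : RC (fun _ => 1) (Ideal.span {(c : 𝓞 K)}) ξ
  rat : ∀ k : ℤ, k ≠ 0 → IsCoprime k (c : ℤ) → ξ (Ideal.span {(k : 𝓞 K)}) = 1
  ram : ∀ q : ℕ, q.Prime → q ∣ c → ∃ x : 𝓞 K, x - 1 ∈ Ideal.span {((c / q : ℕ) : 𝓞 K)} ∧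
    ξ (Ideal.span {x}) ≠ 0 ∧ ξ (Ideal.span {x}) ≠ 1

/-- the same class for the order of conductor `c` -/
def Eo (c : ℕ) (I I' : Ideal (𝓞 K)) : Prop := ∃ (k k' : ℤ) (x y : 𝓞 K),
  Cop c (Ideal.span {k + c * x}) ∧ Cop c (Ideal.span {k' + c * y}) ∧
    Ideal.span {k + c * x} * I = Ideal.span {k' + c * y} * I'

/-- representatives, prime to `c t` -/
structure Ro (c t : ℕ) {κ : Type} (B : κ → Ideal (𝓞 K)) : Prop where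
  cop : ∀ i, Cop (c * t) (B i)
  ex : ∀ I, Cop c I → ∃! i, Eo c I (B i)

/-- the period of conductor `c` -/
def pc (J : K →+* ℂ) (k M c : ℕ) (G : ℍ → ℂ) (β : Ideal (𝓞 K) → ℂ) (ν : 𝓞 K) {κ : Type}
    [Fintype κ] (B : κ → Ideal (𝓞 K)) : ℂ :=
  ∑ i, β (B i) * lf k M G (st (Jo J) (B i) (Oc (Jo J) c)) (c * J ν / M)

/-- Hecke character of weight `k` with finite part `ε` at `n` -/
structure Hb (J : K →+* ℂ) (k : ℕ) (n : Ideal (𝓞 K)) (ε : ℤ → ℂ) (b : Ideal (𝓞 K) → ℂ) : Prop where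
  hc : HC J k n b
  fin : ∀ (x : 𝓞 K) (d : ℤ), x ≠ 0 → x - d ∈ n → b (Ideal.span {x}) = (J x)⁻¹ ^ k * ε d

/-- `ξ = ζ ^ χ` on Artin symbols -/
def Xi (j : K →+* Qb) (c : ℕ) (χ : GQ → ℕ) (ζ : ℂ) (ξ : Ideal (𝓞 K) → ℂ) : Prop :=
  (∀ I g, Cop c I → Ar j c I g → ξ I = ζ ^ χ g) ∧ ∀ I, ¬ Cop c I → ξ I = 0

end

/-- the local factors at the primes which are not removed -/
def Ef (V : AbsoluteValue ℂ ℝ) {M : Type} [Field M] [NumberField M] (m : ℕ) (F : Ideal (𝓞 M))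
    (a : Ideal (𝓞 M) → ℂ) : ℝ :=
  ∏ᶠ w ∈ {w : Ideal (𝓞 M) | w.IsMaximal ∧ (m : 𝓞 M) ∈ w ∧ w ⊔ F = ⊤},
    V (1 - (Ideal.absNorm w * a w)⁻¹)

/-- the conductor at two: trivial, or two is inert and the conductor is tame -/
def At2 {L : Type} [Field L] (f : Ideal (𝓞 L)) : Prop :=
  f ⊔ Ideal.span {2} = ⊤ ∨ ((Ideal.span {(2 : 𝓞 L)}).IsPrime ∧
    ∃ f' : Ideal (𝓞 L), f = Ideal.span {2} * f' ∧ f' ⊔ Ideal.span {2} = ⊤)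

/-! ### places, characters -/

/-- the place `v` -/
def IOT : Prop := ∀ P : Ideal (𝓞 Qb), Ov 2 P → (∃ ι V, Pl ι V P) ∧ ∀ ι V, Pl ι V P → V2 V ∧
  ∀ (K : Type) [Field K] [NumberField K] (j : K →+* Qb) (D : ℕ) (θ : 𝓞 K), Kd (Jc j) D θ →
    (∃ Ω, Base ι (Jc j) Ω) ∧ (∀ x : 𝓞 K, V (Jc j x) ≤ 1 ∧ (V (Jc j x) < 1 ↔ x ∈ below j P) ∧
      (V (Jc j x) = 1 → V (Jc j x - 1) ≤ 1 / 2)) ∧ Lk (Jc j) = Oc (JJ j) 1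

/-- smaller moduli, primitive characters, products -/
def HEX : Prop := ∀ (M : Type) [Field M] [NumberField M],
  (∀ f I t : Ideal (𝓞 M), f ≠ ⊥ → I ≠ ⊥ → I ⊔ f = ⊤ → t ≠ ⊥ →
    ∃ (I' : Ideal (𝓞 M)) (x y : 𝓞 M), I' ≠ ⊥ ∧ I' ⊔ t = ⊤ ∧ x ≠ 0 ∧ y ≠ 0 ∧ x - 1 ∈ f ∧ y - 1 ∈ f ∧
      Ideal.span {x} * I = Ideal.span {y} * I') ∧
  ∀ s : M → ℂ, (∀ x y, s (x * y) = s x * s y) → (∀ x, x ≠ 0 → s x ≠ 0) → ∀ f ψ, RC s f ψ →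
  (∀ f', f ≤ f' → (∀ x : 𝓞 M, x ≠ 0 → x - 1 ∈ f' → Ideal.span {x} ⊔ f = ⊤ →
      ψ (Ideal.span {x}) = s x) → ∃ ψ', RC s f' ψ' ∧ ∀ I, I ⊔ f = ⊤ → ψ' I = ψ I) ∧
  (∃ f' ψ', f ≤ f' ∧ RC s f' ψ' ∧ Pm s f' ψ' ∧ ∀ I, I ⊔ f = ⊤ → ψ' I = ψ I) ∧
  (∀ I, ψ I ≠ 0 → ∃ (h : ℕ) (x : 𝓞 M), 0 < h ∧ x ≠ 0 ∧ x - 1 ∈ f ∧ I ^ h = Ideal.span {x}) ∧
  ∀ (s' : M → ℂ) f' ψ', (∀ x y, s' (x * y) = s' x * s' y) → (∀ x, x ≠ 0 → s' x ≠ 0) →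
    RC s' f' ψ' → f ⊔ f' = ⊤ → RC (fun x => s x * s' x) (f * f') (fun I => ψ I * ψ' I) ∧
    (Pm s f ψ → Pm s' f' ψ' → Pm (fun x => s x * s' x) (f * f') fun I => ψ I * ψ' I)

/-- characters which are congruent to one -/
def BEX : Prop := ∀ V, V2 V → ∀ (K : Type) [Field K] [NumberField K] (J : K →+* ℂ) (D : ℕ)
  (θ : 𝓞 K), Kd J D θ → ∀ (k m t : ℕ) (n : Ideal (𝓞 K)) (ε : ℤ → ℂ), 0 < m → Cn m n → Cr m ε →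
  ε (-1) = (-1) ^ k → (∀ d, ε d = 0 ∨ ε d ^ 2 ^ t = 1) → ∃ (b : Ideal (𝓞 K) → ℂ) (δ : ℝ), δ < 1 ∧
    Hb J k n ε b ∧ ∀ I, b I ≠ 0 → (∃ s ∈ I, V (J s) = 1) → V (b I - 1) ≤ δ

/-- an auxiliary character of two power order -/
def EPS : Prop := ∀ (L : Type) [Field L] [NumberField L], finrank ℚ L = 2 → ∀ t : ℕ, 0 < t →
  ∃ (sg : L → ℂ) (l r : ℕ) (w : Ideal (𝓞 L)) (ε : Ideal (𝓞 L) → ℂ), Sg sg ∧ l.Prime ∧ l.Coprime t ∧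
    Ideal.absNorm w = l ∧ RC sg w ε ∧ Pm sg w ε ∧ ∀ I, ε I = 0 ∨ ε I ^ 2 ^ r = 1

/-- ring class characters from the Galois side, their Dirichlet components -/
def XI : Prop := (∀ (e : Crv) (b : Fld e) (n c : ℕ) (χ : GQ → ℕ) (ζ : ℂ), b.Ad n c χ → Squarefree c →
    ζ ^ 2 ^ n = 1 → (∃ ξ, Xi b.j c χ ζ ξ) ∧ (∀ ξ, Xi b.j c χ ζ ξ →
      (∀ I, ξ I = 0 ∨ ξ I ^ 2 ^ n = 1) ∧ ((∀ q : ℕ, q.Prime → q ∣ c → ∃ P, Ov q P ∧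
        ∃ g ∈ b.Γ, Inert P g ∧ ζ ^ χ g ≠ 1) → Rg c ξ)) ∧
    ∀ T t, 0 < t → b.Tv c T → ∃ B : T → Ideal (𝓞 b.K), Ro c t B ∧ ∀ g, Ar b.j c (B g) g) ∧
  ∀ (K : Type) [Field K] [NumberField K] (c : ℕ) (w w' : Ideal (𝓞 K)) (ξ : Ideal (𝓞 K) → ℂ),
    Sp c w w' → Squarefree c → Rg c ξ → ∃ χ, Cr c χ ∧ Cp c χ ∧ ∀ (x : 𝓞 K) (k k' : ℤ), x ≠ 0 →
      x - k ∈ w → x - k' ∈ w' → ξ (Ideal.span {x}) = χ k * conj (χ k')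

/-- the discriminant at `v` of the biquadratic field -/
def DVL : Prop := ∀ (K : Type) [Field K] [NumberField K] (ι : ℂ →+* ℂ_[2]) (J : K →+* ℂ) (Ω : ℝ),
  Base ι J Ω → (∃ b : Basis (Fin 1) K K, Vb ι J b ∧ dv ι J b = 1) ∧
  ∀ (L : Type) [Field L] [NumberField L], finrank ℚ L = 2 →
  ∀ (M : Type) [Field M] [NumberField M] [Algebra K M] [Algebra L M], finrank K M = 2 →
  (∀ x : L, ∀ y : K, algebraMap L M x = algebraMap K M y → ∃ q : ℚ, x = q) →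
  (∃ b : Basis (Fin 2) K M, Vb ι J b ∧ dv ι J b = ‖(discr L : ℂ_[2])‖) ∧
  ((Ideal.span {(2 : 𝓞 L)}).IsPrime → Odd (discr L) ∧ ∀ v : Ideal (𝓞 K), Av ι J v →
    (∀ Q : Ideal (𝓞 M), Av ι J Q ↔ Q = v.map (algebraMap (𝓞 K) (𝓞 M))) ∧
      Ideal.absNorm (v.map (algebraMap (𝓞 K) (𝓞 M))) = 4)

/-! ### the link with the modular function -/

/-- conjugates of Heegner points -/
def HGA : Prop := ∀ (K : Type) [Field K] [NumberField K] (j : K →+* Qb), Iq K →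
  ∀ (N c : ℕ) (I A : Ideal (𝓞 K)) g σ (τ τ' : ℍ), 0 < N → 0 < c → c.Coprime N → Cn N I →
  Cop (c * N) A → Ar j c A g → Ex σ g → Hp (JJ j) N I c τ →
  At N (st (JJ j) A (Oc (JJ j) c)) (st (JJ j) (A * I) (Oc (JJ j) c)) τ' → Cj0 σ N τ τ'

/-- `c₄` is invariant under odd isogenies modulo eight -/
def HAS : Prop := (∀ τ : ℍ, 12 * g2 (P027M.M.lat τ) = (2 * π) ^ 4 * ModularForm.E₄ τ ∧
    jL (P027M.M.lat τ) = jf τ) ∧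
  ∀ V, V2 V → ∀ Λ Λ' : Submodule ℤ ℂ, IsLat Λ → IsLat Λ' → Λ ≤ Λ' → ∀ n : ℕ, Odd n →
    (∀ z ∈ Λ', n * z ∈ Λ) → V (jL Λ) ≤ 1 →
    V (12 * g2 Λ' - 12 * g2 Λ) ^ 3 ≤ V 8 ^ 3 * V (g2 Λ ^ 3 - 27 * g3 Λ ^ 2)

/-- **values of the form at lattices against values of the function** -/
def LKG : Prop := ∀ V (P : Ideal (𝓞 Qb)), Ov 2 P → V2 V → Vp V P → ∀ (M' m k r : ℕ), 0 < m →
  M' ∣ m ^ 2 → ∀ u ∈ MF (Gamma0 M'), ∀ s, ExM 1 s u → Zq 2 s → ∀ (ε : ℤ → ℂ) (G : ℍ → ℂ)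
  (A : ℕ → ℂ) (ρ : ℝ), Cr m ε → (∀ d, ε d = 0 ∨ ε d ^ 2 ^ r = 1) →
  ((k = 1 ∧ MW (m ^ 2) ε G) ∨
    (k = 4 ∧ IsMF (Gamma0 (m ^ 2)) 4 G ∧ ∀ d, ε d = 0 ∨ ε d = 1)) → QE G A → ρ < 1 →
  (∀ i : ℕ, V (s.coeff i - A i) ≤ ρ) → ∃ (T : ℕ) (δ : ℝ), δ < 1 ∧ ∀ D, T ≤ D →
  ∀ (K : Type) [Field K] [NumberField K] (j : K →+* Qb) (θ : 𝓞 K), Kd (Jc j) D θ →
  ∀ (n n' I : Ideal (𝓞 K)) (ν : 𝓞 K) (Ω₀ : ℂ), Sp m n n' → n ≤ below j P → Cn M' I → n ^ 2 ≤ I →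
  ν ∈ n' ^ 2 → ν - 1 ∈ n ^ 2 → Ω₀ ^ 4 = 12 * g2 (Lk (Jc j)) → V (jL (Lk (Jc j))) = 1 ∧
  ∀ (c : ℕ) (B : Ideal (𝓞 K)) g σ τ τ' y, 0 < c → c.Coprime m → Cop (c * m) B → Ar j c B g →
    Ex σ g → Hp (JJ j) M' I c τ → Cj0 σ M' τ τ' → Val τ' u y → V y ≤ 1 ∧
    V ((2 * π) ^ k * lf k (m ^ 2) G (st (JJ j) B (Oc (JJ j) c)) (c * Jc j ν / (m ^ 2 : ℕ)) -
      Ω₀ ^ k * y) ≤ δ * V Ω₀ ^ k

/-- the values which enter the anchor -/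
def hh {e : Crv} (b : Fld e) (c : ℕ) (g : GQ) : Qb :=
  zf (ga g (dep e.N e.w e.a e.S b.φ (b.Y c))) / (e.S.prod ^ 2 : ℕ)

/-- divisibility by `T ^ (l + 1)` gives small sums -/
def SUM : Prop := ∀ (e : Crv) (b : Fld e) (V : AbsoluteValue ℂ ℝ), V2 V → Vp V (e.P 2) →
  ∀ (c l : ℕ) (χ : GQ → ℕ) (ζ : ℂ) (T : Finset GQ), 0 < c → c.Coprime (e.N * e.S.prod) →
  V (ζ - 1) ≤ 1 → (∀ g ∈ T, g ∈ b.Γ ∧ Ip (e.P 2) (hh b c g)) →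
  (∀ i ≤ l, Zp (e.P 2) (∑ g ∈ T, ((χ g).choose i : Qb) * hh b c g)) →
  V (∑ g ∈ T, ζ ^ χ g * io (hh b c g)) ≤ max (1 / 2) (V (ζ - 1) ^ (l + 1))

/-- congruences of coefficients -/
def CFC : Prop := (∀ V, V2 V → ∀ (N R : ℕ) (a : ℕ → ℤ) (e A : ℕ → ℂ) (ρ : ℝ) s, a 1 = 1 →
    P004N.TE N a (fun n => (a n : ℂ)) → 2 ∣ R → (∀ p : ℕ, p.Prime → ¬ p ∣ R → ¬ p ∣ N ∧
      V (A p - a p) ≤ ρ ∧ V (e p - 1) ≤ ρ) → 1 / 2 ≤ ρ → ρ ≤ 1 → Hm R e A →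
    Cq 2 (P004F.Qx.dp R a) s → ∀ i : ℕ, V (s.coeff i - if i.Coprime R then A i else 0) ≤ ρ) ∧
  (∀ (L : Type) [Field L] [NumberField L], finrank ℚ L = 2 → ∀ φ : Ideal (𝓞 L) → ℂ, φ 1 = 1 →
    (∀ I I', φ (I * I') = φ I * φ I') → Hm (discr L).natAbs (fun p =>
      (if (Ideal.span {(p : 𝓞 L)}).IsPrime then -1 else 1) * φ (Ideal.span {(p : 𝓞 L)})) (co φ) ∧
      ∀ m i, co (dp m φ) i = if i.Coprime m then co φ i else 0) ∧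
  ∀ φ φ' : ℤ → ℂ, φ 1 = 1 → φ' 1 = 1 → (∀ a b, φ (a * b) = φ a * φ b) →
    (∀ a b, φ' (a * b) = φ' a * φ' b) → Hm 1 (fun p => φ p * φ' p * p ^ 3)
      fun i => ∑ x ∈ i.divisorsAntidiagonal, φ x.1 * φ' x.2 * x.2 ^ 3

/-! ### periods -/

/-- **twisting** -/
def TWI : Prop := ∀ (K : Type) [Field K] [NumberField K] (J : K →+* ℂ) (D : ℕ) (θ : 𝓞 K),
  Kd J D θ → ∀ (m c : ℕ) (n n' w w' : Ideal (𝓞 K)) (ε ε' χ : ℤ → ℂ) (A : ℕ → ℂ) (g G : ℍ → ℂ)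
  (ξ b a : Ideal (𝓞 K) → ℂ) (ν ν' : 𝓞 K) R, Sp m n n' → Sp c w w' → Squarefree c →
  c.Coprime (2 * m * D) → D.Coprime m → Chr m ε → MW (m ^ 2) ε g → QE g A → Rg c ξ → Cr c χ →
  Cp c χ → (∀ (x : 𝓞 K) (k k' : ℤ), x ≠ 0 → x - k ∈ w → x - k' ∈ w' →
    ξ (Ideal.span {x}) = χ k * conj (χ k')) → (∀ d, ε' d = ε d * conj (χ d) ^ 2) →
  MW ((m * c) ^ 2) ε' G → QE G (fun i => A i * conj (χ i)) → Hb J 1 n (fun d => conj (ε d)) b →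
  Ha J (n' * w') ε' a → (∀ I, (Ideal.absNorm I).Coprime (m * c) →
    a I = b I * ξ I * ε (Ideal.absNorm I) * conj (χ (Ideal.absNorm I))) →
  ν ∈ n' ^ 2 → ν - 1 ∈ n ^ 2 → ν' ∈ (n' * w') ^ 2 → ν' - 1 ∈ (n * w) ^ 2 → Rc (m * c) R →
  ∃ κ : ℂ, (∀ V, V2 V → V κ = 1) ∧ ∀ (β : Type) [Fintype β] (B : β → Ideal (𝓞 K)), Ro c m B →
    per J ((m * c) ^ 2) ε' G a ν' R = κ * pc J 1 (m ^ 2) c g (fun I => ξ I * b I) ν B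

/-- **the square of the period is the value of a Hecke series of the biquadratic field** -/
def PV3 : Prop := ∀ V, V2 V → ∀ (K : Type) [Field K] [NumberField K] (J : K →+* ℂ) (D : ℕ)
  (θ : 𝓞 K), Kd J D θ → ∀ (L : Type) [Field L] [NumberField L], finrank ℚ L = 2 →
  ∀ (M : Type) [Field M] [NumberField M] [Algebra K M] [Algebra L M], finrank K M = 2 →
  (∀ x : L, ∀ y : K, algebraMap L M x = algebraMap K M y → ∃ q : ℚ, x = q) →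
  ∀ (sg : L → ℂ) (f : Ideal (𝓞 L)) (ψ : Ideal (𝓞 L) → ℂ), Sg sg → RC sg f ψ → f ≠ ⊤ → Pm sg f ψ →
  At2 f → ∀ (m₀ m c : ℕ) (n n' w w' : Ideal (𝓞 K)) (ε : ℤ → ℂ) (ξ b : Ideal (𝓞 K) → ℂ) (ν : 𝓞 K),
  (m₀ : 𝓞 L) ∈ f → 2 ∣ m₀ → (∀ p : ℕ, p.Prime → p ∣ m → p ∣ m₀) → (discr L).natAbs * m₀ ∣ m →
  Sp m n n' → Sp c w w' → Squarefree c → c.Coprime (m * D) → D.Coprime m →
  (∃ s ∈ n', V (J s) = 1) → Chr m ε → MW (m ^ 2) ε (tg (dp m ψ)) →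
  (∀ p : ℕ, p.Prime → p.Coprime m →
    ε p = (if (Ideal.span {(p : 𝓞 L)}).IsPrime then -1 else 1) * ψ (Ideal.span {(p : 𝓞 L)})) →
  Rg c ξ → Hb J 1 n (fun d => conj (ε d)) b → ν ∈ n' ^ 2 → ν - 1 ∈ n ^ 2 →
  ∀ F : Ideal (𝓞 M), F = f.map (algebraMap (𝓞 L) (𝓞 M)) * n'.map (algebraMap (𝓞 K) (𝓞 M)) *
    Ideal.span {(c : 𝓞 M)} → ∃ (a : Ideal (𝓞 M) → ℂ) (z : ℂ), HC J 1 F a ∧ AC a z ∧
    (∀ I, (Ideal.absNorm I).Coprime (m * c) → a I = conj (ψ (Ideal.relNorm (𝓞 L) I)) *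
      (ξ (Ideal.relNorm (𝓞 K) I) * b (Ideal.relNorm (𝓞 K) I)) * ε (Ideal.absNorm I)) ∧
    ∀ (β : Type) [Fintype β] (B : β → Ideal (𝓞 K)), Ro c m B →
      V (2 * π * pc J 1 (m ^ 2) c (tg (dp m ψ)) (fun I => ξ I * b I) ν B) ^ 2 =
        √(V ((discr L).natAbs * Ideal.absNorm f : ℕ)) * Ef V m F a * V z

/-- the Eisenstein series of weight four -/
def eis (m : ℕ) (ψ : ℤ → ℂ) (τ : ℍ) : ℂ := m ^ 3 * 3 / (2 * π) ^ 4 * ∑' x : ℤ × ℤ,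
  ψ x.1 * (∑ d ∈ Finset.range m, conj (ψ d) * ee (-(d * x.2 / m))) / (x.1 * m * τ + x.2) ^ 4

/-- law and expansion -/
def EI1 : Prop := ∀ (m : ℕ) (ψ : ℤ → ℂ), 1 < m → Cr m ψ → ψ (-1) = 1 →
  IsMF (Gamma0 (m ^ 2)) 4 (eis m ψ) ∧
    QE (eis m ψ) fun i => ∑ x ∈ i.divisorsAntidiagonal, ψ x.1 * conj (ψ x.2) * x.2 ^ 3

/-- **the period of the Eisenstein series is the value of a Hecke series of `K`** -/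
def EI2 : Prop := ∀ V, V2 V → ∀ (K : Type) [Field K] [NumberField K] (J : K →+* ℂ) (D : ℕ)
  (θ : 𝓞 K), Kd J D θ → ∀ (f m c : ℕ) (n n' : Ideal (𝓞 K)) (ψ : ℤ → ℂ) (ξ b : Ideal (𝓞 K) → ℂ)
  (ν : 𝓞 K), Odd f → f ∣ m → 2 ∣ m → Cr f ψ → Cp f ψ → ψ (-1) = 1 → Sp m n n' → Squarefree c →
  c.Coprime (m * D) → D.Coprime m → (∃ s ∈ n', V (J s) = 1) → Rg c ξ → HC J 4 (⊤ : Ideal (𝓞 K)) b →
  ν ∈ n' ^ 2 → ν - 1 ∈ n ^ 2 → ∀ (F : Ideal (𝓞 K)) (a : Ideal (𝓞 K) → ℂ),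
  F = n' * Ideal.span {((f * c : ℕ) : 𝓞 K)} →
  a = Dp F (fun I => ψ (Ideal.absNorm I) * (ξ I * b I)) → HC J 4 F a ∧ AC a (∑' I, a I) ∧
    ∀ (β : Type) [Fintype β] (B : β → Ideal (𝓞 K)), Ro c m B →
      V ((2 * π) ^ 4 * pc J 4 (m ^ 2) c (eis m fun d => if IsCoprime d (m : ℤ) then ψ d else 0)
        (fun I => ξ I * b I) ν B) = 1 / 2 * Ef V m F a * V (∑' I, a I)

/-! ### change of the weight -/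

/-- the two cases at `v` -/
def Cs {K : Type} [Field K] [NumberField K] (ι : ℂ →+* ℂ_[2]) (J : K →+* ℂ) {M : Type} [Field M]
    [NumberField M] [Algebra K M] (n k₁ k : ℕ) (d : ℝ) (F : Ideal (𝓞 M))
    (a : Ideal (𝓞 M) → ℂ) : Prop :=
  (n ≤ 2 ∧ (k₁ = 1 ∨ 3 ≤ k₁ ∧
      ∀ u : (𝓞 M)ˣ, (u : 𝓞 M) - 1 ∈ F → Algebra.norm K ((u : 𝓞 M) : M) = 1) ∧ Pv ι J F ∧
    ∃ b : Basis (Fin n) K M, Vb ι J b ∧ dv ι J b = d) ∨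
  (n = 2 ∧ k₁ = 1 ∧ d = 1 / 4 ∧ finrank K M = 2 ∧ ∃ P F' : Ideal (𝓞 M), F = F' * P ∧ Pv ι J F' ∧
    (∀ Q, Av ι J Q ↔ Q = P) ∧ Ideal.absNorm P = 4 ∧ ∃ x : 𝓞 M, x - 1 ∈ F' ∧ x ∉ P ∧
      a (Ideal.span {x}) ≠ (J (Algebra.norm K (x : M)))⁻¹ ^ k)

/-- **from weight `k` to weight `k₁`, with the factors at the primes of `m`** -/
def FIN : Prop := ∀ (K : Type) [Field K] [NumberField K] (ι : ℂ →+* ℂ_[2]) (J : K →+* ℂ) (Ω : ℝ)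
  (V : AbsoluteValue ℂ ℝ), Base ι J Ω → (∀ z, V z = ‖ι z‖) →
  ∀ (M : Type) [Field M] [NumberField M] [Algebra K M] (n k₁ k m t l : ℕ) (d δ ρ : ℝ)
  (F tS s : Ideal (𝓞 M)) (a₁ a : Ideal (𝓞 M) → ℂ) (z : ℂ), Cs ι J n k₁ k d F (Dp F a) → 3 ≤ k →
  0 < m → 2 ∣ m → 0 < t → Sm s l → F ⊔ Ideal.span {(l : 𝓞 M)} = ⊤ →
  (∃ w : Ideal (𝓞 M), w.IsMaximal ∧ F ≤ w ∧ 2 ∉ w ∧ TF w) → HC J k₁ F a₁ → HC J k F (Dp F a) →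
  (∀ I I', a (I * I') = a I * a I') → AC a₁ z →
  (∀ I, (Ideal.absNorm I).Coprime t → I ⊔ F = ⊤ → V (a₁ I - a I) ≤ δ) → 1 / 2 ≤ δ → δ < ρ →
  V (1 - l * a s) = 1 → (∀ w : Ideal (𝓞 M), w.IsMaximal → F ≤ w → a w = 0 ∨ tS ≤ w) →
  (∀ w : Ideal (𝓞 M), w.IsMaximal → w ⊔ F = ⊤ →
    ((m : 𝓞 M) ∈ w ↔ Av ι J w ∨ tS ≤ w) ∧ (tS ≤ w → 2 ∉ w ∧ δ < V (1 - a w))) →
  ρ ≤ sc Ω d n k * V (∑' I, Dp tS a I) →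
  sc Ω d n k₁ * Ef V m F a₁ * V z = sc Ω d n k * V (∑' I, Dp tS a I)

/-! ### the exports -/

/-- the primes over `S` which are not over `v` -/
def tS {e : Crv} (b : Fld e) : Ideal (𝓞 b.K) := b.Q 2 * Ideal.span {((e.S.prod / 2 : ℕ) : 𝓞 b.K)}

/-- one layer, one character -/
structure Lay {e : Crv} (b : Fld e) (n c : ℕ) (χ : GQ → ℕ) (ζ : ℂ) (ξ : Ideal (𝓞 b.K) → ℂ) :
    Prop where
  ad : b.Ad n c χ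
  sq : Squarefree c
  out : ∀ q : ℕ, q.Prime → q ∣ c → q ∉ e.S ∧ ¬ q ∣ b.δ'
  rt : ζ ^ 2 ^ n = 1
  xi : Xi b.j c χ ζ ξ
  ram : ∀ q : ℕ, q.Prime → q ∣ c → ∃ P, Ov q P ∧ ∃ g ∈ b.Γ, Inert P g ∧ ζ ^ χ g ≠ 1

/-- a primitive cubic character of a quadratic field, trivial on rational ideals -/
structure Dh {L : Type} [Field L] [NumberField L] (f : Ideal (𝓞 L)) (ψ : Ideal (𝓞 L) → ℂ) :
    Prop where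
  two : finrank ℚ L = 2
  rc : RC (fun _ => 1) f ψ
  pm : Pm (fun _ => 1) f ψ
  cub : ∀ I, ψ I = 0 ∨ ψ I ^ 3 = 1
  rat : ∀ p : ℕ, ψ (Ideal.span {(p : 𝓞 L)}) = 0 ∨ ψ (Ideal.span {(p : 𝓞 L)}) = 1
  at2 : At2 f

/-- **the analytic side, image `S₃`** -/
def ANA3 : Prop := ∀ (L : Type) [Field L] [NumberField L] (f : Ideal (𝓞 L)) ψ, Dh f ψ →
  ∃ l₀ : ℕ, l₀.Prime ∧ ∀ e : Crv, l₀ ∈ e.S →
  (∀ p : ℕ, p.Prime → p ∣ (discr L).natAbs * Ideal.absNorm f → p ∈ e.S) →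
  (∀ p : ℕ, p.Prime → p ∉ e.S → ∃ k : ℤ, co ψ p = e.a p + 2 * k) → ∀ ι V, Pl ι V (e.P 2) →
  ∃ T : ℕ, ∀ b : Fld e, T ≤ b.δ' → ∀ Ω, Base ι (Jc b.j) Ω →
  ∀ (M : Type) [Field M] [NumberField M] [Algebra b.K M] [Algebra L M], finrank b.K M = 2 →
  (∀ x : L, ∀ y : b.K, algebraMap L M x = algebraMap b.K M y → ∃ q : ℚ, x = q) →
  (∀ t, 0 < t → ∃ (s : Ideal (𝓞 M)) (l : ℕ), Sm s l ∧ l.Coprime t ∧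
    ψ (Ideal.relNorm (𝓞 L) s) ≠ 1) →
  ∃ δ : ℝ, δ < 1 ∧ ∀ n c χ ζ ξ, Lay b n c χ ζ ξ →
  (∃ w w' : Ideal (𝓞 b.K), Sp c w w') → ∀ (h k : ℕ) lam, La (Jc b.j) h k lam → 3 ≤ 2 * h * k →
  ∀ a : Ideal (𝓞 M) → ℂ, (∀ I, a I = ψ (Ideal.relNorm (𝓞 L) I) *
    (ξ (Ideal.relNorm (𝓞 b.K) I) * lam (Ideal.relNorm (𝓞 b.K) I))) → ∀ (ρ : ℝ) (l : ℕ), δ < ρ →
  ρ ≤ sc Ω (V ((discr L).natAbs * Ideal.absNorm f : ℕ)) 2 (2 * h * k) *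
    V (∑' I, Dp ((tS b).map (algebraMap (𝓞 b.K) (𝓞 M))) a I) →
  (∀ w : Ideal (𝓞 M), w.IsMaximal → ((e.S.prod / 2 : ℕ) : 𝓞 M) ∈ w → δ < V (1 - a w)) →
  V (ζ - 1) ^ (2 * l + 2) < ρ → b.An e.S c χ l

/-- **the analytic side, image `C₃`** -/
def ANAC : Prop := ∀ (f : ℕ) (ψ : ℤ → ℂ), 1 < f → Odd f → Cr f ψ → Cp f ψ →
  (∀ d, ψ d = 0 ∨ ψ d ^ 3 = 1) → ∀ e : Crv, (∀ p : ℕ, p.Prime → p ∣ f → p ∈ e.S) →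
  (∀ p : ℕ, p.Prime → p ∉ e.S → ∃ k : ℤ, ψ p + conj (ψ p) = e.a p + 2 * k) →
  ∀ ι V, Pl ι V (e.P 2) → ∃ T : ℕ, ∀ b : Fld e, T ≤ b.δ' → ∀ Ω, Base ι (Jc b.j) Ω →
  ∃ δ : ℝ, δ < 1 ∧ ∀ n c χ ζ ξ, Lay b n c χ ζ ξ →
  ∀ (h k : ℕ) lam, La (Jc b.j) h k lam → 3 ≤ 2 * h * k →
  ∀ a a' : Ideal (𝓞 b.K) → ℂ, (∀ I, a I = ψ (Ideal.absNorm I) * (ξ I * lam I)) →
  (∀ I, a' I = conj (ψ (Ideal.absNorm I)) * (ξ I * lam I)) → ∀ (ρ : ℝ) (l : ℕ), δ < ρ → ρ ≤ 1 →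
  ρ ≤ sc Ω 1 1 (2 * h * k) * V (∑' I, Dp (tS b) a I) *
    (sc Ω 1 1 (2 * h * k) * V (∑' I, Dp (tS b) a' I)) →
  (∀ w : Ideal (𝓞 b.K), w.IsMaximal → ((e.S.prod / 2 : ℕ) : 𝓞 b.K) ∈ w →
    δ < V (1 - a w) ∧ δ < V (1 - a' w)) →
  V (ζ - 1) ^ (2 * l + 2) < ρ → b.An e.S c χ l

end Vale.Agent.P004C.Ln
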