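import Vale.Agent.P004C.Ln.St

/-!
# P004 C, block LN: the part which is common to the two exports
-/

open NumberField Module UpperHalfPlane CongruenceSubgroup
open scoped Classical MatrixGroups Real ComplexConjugate

noncomputable section

namespace Vale.Agent.P004C.Ln

open Vale.Agent.P022 (Qb GQ GK below)
open Vale.Agent.P022.H218.L3
open P004K (Cn Cop)
open P004F (Crv Fld)
open P004F.Qx (Cq IM)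
open Wa (MW QE Kd Sp)

/-- the level ideal -/
structure Lv {e : Crv} (b : Fld e) (m : ℕ) (n n' : Ideal (𝓞 b.K)) (ν : 𝓞 b.K) : Prop where
  sp : Sp m n n'
  v : n ≤ below b.j (e.P 2)
  v' : ∃ s ∈ n', s ∉ below b.j (e.P 2)
  cn : Cn (e.N * e.S.prod ^ 2) (IM b.j b.I e.S e.P)
  im : n ^ 2 ≤ IM b.j b.I e.S e.P
  q2 : n' ≤ b.Q 2
  two : ∀ w : Ideal (𝓞 b.K), w.IsPrime → 2 ∈ w → w = below b.j (e.P 2) ∨ w = b.Q 2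
  ts : ∀ w : Ideal (𝓞 b.K), w.IsPrime → n' ≤ w → tS b ≤ w
  cop : b.δ'.Coprime m
  nu : ν ∈ n' ^ 2
  nu1 : ν - 1 ∈ n ^ 2

/-- it exists -/
def LVX : Prop := ∀ (e : Crv) (b : Fld e), Kd (Jc b.j) b.δ' b.θ ∧ Odd (e.S.prod / 2) ∧
  2 * (e.S.prod / 2) = e.S.prod ∧ (∀ p : ℕ, p.Prime → (p ∣ e.S.prod ↔ p ∈ e.S)) ∧
  (∀ p : ℕ, p.Prime → p ∣ e.N → p ∈ e.S) ∧
  ∀ m : ℕ, 0 < m → e.N * e.S.prod ∣ m → (∀ p : ℕ, p.Prime → p ∣ m → p ∈ e.S) →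
    ∃ n n' ν, Lv b m n n' ν

/-- **if the anchor fails then the period is small** -/
def SML : Prop := ∀ (e : Crv) ι V, Pl ι V (e.P 2) → ∀ (m k r : ℕ) (ε : ℤ → ℂ) (G : ℍ → ℂ)
  (A : ℕ → ℂ) (ρ : ℝ), 0 < m → e.N * e.S.prod ∣ m → (∀ p : ℕ, p.Prime → p ∣ m → p ∈ e.S) →
  Cr m ε → (∀ d, ε d = 0 ∨ ε d ^ 2 ^ r = 1) → ((k = 1 ∧ MW (m ^ 2) ε G) ∨
    (k = 4 ∧ IsMF (Gamma0 (m ^ 2)) 4 G ∧ ∀ d, ε d = 0 ∨ ε d = 1)) → QE G A → ρ < 1 →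
  (∀ s, Cq 2 (P004F.Qx.dp e.S.prod e.a) s → ∀ i : ℕ, V (s.coeff i - A i) ≤ ρ) →
  ∃ T : ℕ, ∀ b : Fld e, T ≤ b.δ' → ∀ Ω, Base ι (Jc b.j) Ω → ∀ n n' ν, Lv b m n n' ν →
  ∀ (β : Ideal (𝓞 b.K) → ℂ) (δ₁ : ℝ), δ₁ < 1 → (∀ I, Cop m I → V (β I - 1) ≤ δ₁) →
  ∃ δ : ℝ, δ < 1 ∧ 1 / 2 ≤ δ ∧ δ₁ ≤ δ ∧ ∀ n₀ c χ ζ ξ l, Lay b n₀ c χ ζ ξ → ¬ b.An e.S c χ l →
    ∃ (κ : Type) (_ : Fintype κ) (B : κ → Ideal (𝓞 b.K)), Ro c m B ∧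
      V ((2 * π) ^ k * pc (Jc b.j) k (m ^ 2) c G (fun I => ξ I * β I) ν B) ≤
        Ω ^ k * max δ (V (ζ - 1) ^ (l + 1))

end Vale.Agent.P004C.Ln
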