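import Vale.Agent.P004C.Wa.Per0
import Vale.Agent.P004C.Wa.Cj
import Vale.Agent.P004K.Defs

/-! # P004 C, block LN: Gauss sums, residues, lattices of conductor `c` -/

set_option autoImplicit false
set_option linter.all false

open NumberField Module UpperHalfPlane CongruenceSubgroup
open scoped Classical MatrixGroups Real ComplexConjugate

noncomputable section

namespace Vale.Agent.P004C.Ln.Tw

open Wa Wa.Pe Wa.Cj
open P004K (st Oc Cop)

/-! ### places -/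

section

variable {V : AbsoluteValue ℂ ℝ}

theorem v_root {z : ℂ} {k : ℕ} (hk : k ≠ 0) (h : z ^ k = 1) : V z = 1 :=
  (pow_eq_one_iff_of_nonneg (V.nonneg z) hk).1 (by rw [← map_pow, h, map_one])

theorem v_sum (hV : IsNonarchimedean V) {ι : Type} (s : Finset ι) {f : ι → ℂ}
    (h : ∀ i, V (f i) ≤ 1) : V (∑ i ∈ s, f i) ≤ 1 :=
  Finset.sum_induction f (fun z => V z ≤ 1) (fun a b p q => (hV a b).trans (max_le p q))
    (by simp) fun i _ => h i

theorem v_nat (hV : IsNonarchimedean V) (k : ℕ) : V k ≤ 1 := by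
  simpa using v_sum hV (Finset.range k) (f := fun _ => 1) fun _ => by simp

theorem v_int (hV : IsNonarchimedean V) (k : ℤ) : V k ≤ 1 := by
  obtain ⟨n, rfl | rfl⟩ := k.eq_nat_or_neg <;> simpa using v_nat hV n

theorem v_odd (hV : IsNonarchimedean V) (h2 : V 2 = 1 / 2) {c : ℕ} (h : Odd c) : V c = 1 := by
  refine (v_nat hV c).antisymm ?_
  obtain ⟨k, rfl⟩ := h
  have a := hV ((2 * k + 1 : ℕ) : ℂ) (-(2 * k))
  have b := v_nat hV k
  rw [show ((2 * k + 1 : ℕ) : ℂ) + -(2 * k) = 1 by push_cast; ring, map_one, V.map_neg, map_mul,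
    h2] at a
  rcases le_max_iff.1 a with a | a
  · exact a
  · linarith

theorem v_two {x y : ℂ} (hx : V x ≤ 1) (hy : V y ≤ 1) (h : V (x * y) = 1) : V x = 1 := by
  rw [map_mul] at h
  nlinarith [V.nonneg x, V.nonneg y]

end

/-! ### characters -/

section

variable {c : ℕ} {χ : ℤ → ℂ}

theorem ch_pow (h1 : χ 1 = 1) (hm : ∀ a b, χ (a * b) = χ a * χ b) (a : ℤ) (k : ℕ) :
    χ (a ^ k) = χ a ^ k := by
  induction k with
  | zero => simpa using h1
  | succ k ih => rw [pow_succ, hm, ih, pow_succ]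

theorem ch_root (hc : 0 < c) (h1 : χ 1 = 1) (hm : ∀ a b, χ (a * b) = χ a * χ b)
    (hp : ∀ a b, (c : ℤ) ∣ a - b → χ a = χ b) {a : ℤ} (ha : IsCoprime a (c : ℤ)) :
    χ a ^ c.totient = 1 := by
  rw [← ch_pow h1 hm, ← h1]
  refine hp _ _ ?_
  have : NeZero c := ⟨hc.ne'⟩
  rw [← ZMod.intCast_zmod_eq_zero_iff_dvd]
  push_cast
  obtain ⟨u, e⟩ := (ZMod.coe_int_isUnit_iff_isCoprime a c).2 ha.symm
  rw [← e, ← Units.val_pow_eq_pow_val, ZMod.pow_totient, Units.val_one, sub_self]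

theorem cj_mul {z : ℂ} {k : ℕ} (hk : k ≠ 0) (h : z ^ k = 1) : conj z * z = 1 := by
  rw [Complex.conj_mul', Complex.norm_eq_one_of_pow_eq_one h hk]
  simp

/-- the character on `ℤ / c` -/
def cz (c : ℕ) (χ : ℤ → ℂ) (a : ZMod c) : ℂ := χ (a.cast : ℤ)

theorem cz_int (hp : ∀ a b, (c : ℤ) ∣ a - b → χ a = χ b) (k : ℤ) : cz c χ k = χ k :=
  hp _ _ ((ZMod.intCast_zmod_eq_zero_iff_dvd _ _).1 (by simp))

theorem cz_mul (hm : ∀ a b, χ (a * b) = χ a * χ b) (hp : ∀ a b, (c : ℤ) ∣ a - b → χ a = χ b)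
    (a b : ZMod c) : cz c χ (a * b) = cz c χ a * cz c χ b := by
  obtain ⟨a, rfl⟩ := ZMod.intCast_surjective a
  obtain ⟨b, rfl⟩ := ZMod.intCast_surjective b
  rw [← Int.cast_mul, cz_int hp, cz_int hp, cz_int hp, hm]

theorem cz_ne (hp : ∀ a b, (c : ℤ) ∣ a - b → χ a = χ b)
    (hz : ∀ a, χ a = 0 ↔ ¬ IsCoprime a (c : ℤ)) (a : ZMod c) : cz c χ a ≠ 0 ↔ IsUnit a := by
  obtain ⟨a, rfl⟩ := ZMod.intCast_surjective a
  rw [cz_int hp, Ne, hz, not_not, ZMod.coe_int_isUnit_iff_isCoprime, isCoprime_comm]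

/-- Gauss sums of primitive characters -/
theorem gauss [NeZero c] (h1 : χ 1 = 1) (hm : ∀ a b, χ (a * b) = χ a * χ b)
    (hp : ∀ a b, (c : ℤ) ∣ a - b → χ a = χ b) (hz : ∀ a, χ a = 0 ↔ ¬ IsCoprime a (c : ℤ))
    (pr : ∀ q : ℕ, q.Prime → q ∣ c → ∃ k : ℤ, ((c / q : ℕ) : ℤ) ∣ k - 1 ∧ χ k ≠ 0 ∧ χ k ≠ 1) :
    ∃ t : ℂ, t ≠ 0 ∧ (∀ V : AbsoluteValue ℂ ℝ, IsNonarchimedean V → V c = 1 → V t = 1) ∧
      ∀ i : ℤ, ∑ a : ZMod c, cz c χ a * ZMod.stdAddChar (a * (i : ZMod c)) = conj (χ i) * t := by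
  have hc : 0 < c := NeZero.pos c
  have t0 : c.totient ≠ 0 := (Nat.totient_pos.2 hc).ne'
  have sh : ∀ (k : ℤ) (i : ZMod c), χ k ≠ 0 → ∑ a : ZMod c, cz c χ a * ZMod.stdAddChar (a * i) =
      χ k * ∑ a : ZMod c, cz c χ a * ZMod.stdAddChar (a * ((k : ZMod c) * i)) := fun k i hk => by
    obtain ⟨u, e⟩ := (cz_ne hp hz k).1 (by rwa [cz_int hp])
    rw [Finset.mul_sum, ← Equiv.sum_comp u.mulLeft]
    refine Finset.sum_congr rfl fun a _ => ?_
    simp only [Units.mulLeft_apply]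
    rw [e, cz_mul hm hp, cz_int hp, mul_assoc, mul_comm (k : ZMod c) a, mul_assoc a]
  have key : ∀ i : ℤ, ∑ a : ZMod c, cz c χ a * ZMod.stdAddChar (a * (i : ZMod c)) =
      conj (χ i) * ∑ a : ZMod c, cz c χ a * ZMod.stdAddChar (a * 1) := fun i => by
    by_cases hi : IsCoprime i (c : ℤ)
    · rw [sh i 1 (mt (hz i).1 (not_not.2 hi)), ← mul_assoc, cj_mul t0 (ch_root hc h1 hm hp hi),
        one_mul, mul_one]
    · obtain ⟨q, hq, d⟩ := Nat.exists_prime_and_dvd (mt Int.isCoprime_iff_gcd_eq_one.2 hi)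
      have d1 : (q : ℤ) ∣ i := (Int.natCast_dvd_natCast.2 d).trans (Int.gcd_dvd_left ..)
      have d2 : q ∣ c := Int.natCast_dvd_natCast.1
        ((Int.natCast_dvd_natCast.2 d).trans (Int.gcd_dvd_right ..))
      obtain ⟨k, k1, k2, k3⟩ := pr q hq d2
      have e : (k : ZMod c) * i = i := by
        rw [← sub_eq_zero, ← sub_one_mul, ← Int.cast_one, ← Int.cast_sub, ← Int.cast_mul,
          ZMod.intCast_zmod_eq_zero_iff_dvd, ← Nat.div_mul_cancel d2, Nat.cast_mul]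
        exact mul_dvd_mul k1 d1
      have := sh k i k2
      rw [e] at this
      rw [(hz i).2 hi, map_zero, zero_mul]
      exact (mul_eq_zero.1 (show (χ k - 1) * _ = 0 by linear_combination -this)).resolve_left
        (sub_ne_zero.2 k3)
  have le : ∀ V : AbsoluteValue ℂ ℝ, ∀ a, V (cz c χ a) ≤ 1 ∧ V (conj (cz c χ a)) ≤ 1 ∧
      V (ZMod.stdAddChar a) = 1 := fun V a => by
    have r : V (ZMod.stdAddChar a) = 1 := v_root hc.ne' (by
      rw [← AddChar.map_nsmul_eq_pow, nsmul_eq_mul, ZMod.natCast_self, zero_mul,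
        AddChar.map_zero_eq_one])
    by_cases h : IsCoprime (a.cast : ℤ) (c : ℤ)
    · have := ch_root hc h1 hm hp h
      exact ⟨(v_root t0 this).le, (v_root t0 (by rw [← map_pow, cz, this, map_one])).le, r⟩
    · simp [cz, (hz _).2 h, r]
  have pr : (∑ a : ZMod c, cz c χ a * ZMod.stdAddChar (a * 1)) *
      ∑ i : ZMod c, conj (cz c χ i) * ZMod.stdAddChar (-i) = c := by
    have : ∀ i : ZMod c, (∑ a : ZMod c, cz c χ a * ZMod.stdAddChar (a * 1)) *
        (conj (cz c χ i) * ZMod.stdAddChar (-i)) =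
        ∑ a : ZMod c, cz c χ a * ZMod.stdAddChar (i * (a - 1)) := fun i => by
      rw [mul_left_comm, ← mul_assoc, cz, ← key, Finset.sum_mul]
      refine Finset.sum_congr rfl fun a _ => ?_
      rw [mul_assoc, ← AddChar.map_add_eq_mul, ZMod.intCast_cast, ZMod.cast_id]
      congr 2
      ring
    rw [Finset.mul_sum, Finset.sum_congr rfl fun i _ => this i, Finset.sum_comm]
    simp only [← Finset.mul_sum, AddChar.sum_mulShift _ (ZMod.isPrimitive_stdAddChar c),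
      sub_eq_zero, ZMod.card, Nat.cast_ite, Nat.cast_zero, mul_ite, mul_zero, Finset.sum_ite_eq',
      Finset.mem_univ, if_true]
    rw [← Int.cast_one, cz_int hp, h1, one_mul]
  refine ⟨_, left_ne_zero_of_mul (pr ▸ Nat.cast_ne_zero.2 hc.ne'), fun V hV h => ?_, key⟩
  refine v_two (v_sum hV _ fun a => ?_) (v_sum hV _ fun a => ?_) (pr ▸ h)
  · rw [map_mul, (le V _).2.2, mul_one]
    exact (le V a).1
  · rw [map_mul, (le V _).2.2, mul_one]
    exact (le V a).2.1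

/-- the shifted point -/
def sf (c : ℕ) (a : ZMod c) (τ : ℍ) : ℍ := (((a.cast : ℤ) / c : ℝ)) +ᵥ τ

theorem sf_coe (a : ZMod c) (τ : ℍ) : (sf c a τ : ℂ) = (a.cast : ℤ) / c + τ := by
  rw [sf, coe_vadd, Complex.ofReal_div, Complex.ofReal_intCast, Complex.ofReal_natCast]

theorem twist [NeZero c] {g G : ℍ → ℂ} {A : ℕ → ℂ} {t : ℂ} (hg : QE g A)
    (hG : QE G fun i => A i * conj (χ i))
    (h : ∀ i : ℤ, ∑ a : ZMod c, cz c χ a * ZMod.stdAddChar (a * (i : ZMod c)) = conj (χ i) * t)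
    (τ : ℍ) :
    t * G τ = ∑ a : ZMod c, cz c χ a * g (sf c a τ) := by
  refine ((hG τ).mul_left t).unique ?_
  have := hasSum_sum (s := Finset.univ) fun (a : ZMod c) _ => (hg (sf c a τ)).mul_left (cz c χ a)
  refine this.congr_fun fun i => ?_
  have e := h i
  rw [show t * (A i * conj (χ i) * ee (i * τ)) = conj (χ i) * t * (A i * ee (i * τ)) by ring,
    ← e, Finset.sum_mul]
  refine Finset.sum_congr rfl fun a _ => ?_
  have : (a * ((i : ℤ) : ZMod c)) = ((a.cast * i : ℤ) : ZMod c) := by simp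
  rw [this, ZMod.stdAddChar_coe, sf_coe, ee, ee, mul_assoc, mul_left_comm (Complex.exp _),
    ← Complex.exp_add]
  congr 3
  push_cast
  ring

end

end Vale.Agent.P004C.Ln.Tw
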