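import Vale.Agent.P004C.Ln.Twi0

/-! # P004 C, block LN: ideal classes of the order of conductor `c`, for split `c` -/

set_option autoImplicit false
set_option linter.all false

open NumberField Module UpperHalfPlane CongruenceSubgroup
open scoped Classical MatrixGroups Real ComplexConjugate

noncomputable section

namespace Vale.Agent.P004C.Ln.Tw

open Wa Wa.Pe Wa.Cj
open P004K (st Oc Cop)

variable {K : Type} [Field K] [NumberField K] {c : ℕ} {w w' I I' B H : Ideal (𝓞 K)}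
  {φ φ' : 𝓞 K →+* ZMod c} {e p f : 𝓞 K} {r r' : ZMod c}

theorem ex_phi (hs : Sp c w w') : ∃ φ : 𝓞 K →+* ZMod c, ∀ x, φ x = 0 ↔ x ∈ w := by
  choose k hk using hs.cn
  have key : ∀ (x : 𝓞 K) (j : ℤ), x - j ∈ w → (k x : ZMod c) = j := fun x j h =>
    (ZMod.intCast_eq_intCast_iff_dvd_sub _ _ _).2 (int_mem hs (by
      push_cast
      rw [show (j : 𝓞 K) - k x = x - k x - (x - j) by ring]
      exact sub_mem (hk x) h))
  refine ⟨⟨⟨⟨fun x => k x, by simpa using key 1 1 (by simp)⟩, fun x y => ?_⟩,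
    by simpa using key 0 0 (by simp), fun x y => ?_⟩, fun x => ⟨fun h => ?_, fun h => ?_⟩⟩
  · rw [← Int.cast_mul]
    refine key _ _ ?_
    push_cast
    rw [show x * y - k x * k y = x * (y - k y) + (x - k x) * k y by ring]
    exact add_mem (w.mul_mem_left _ (hk y)) (w.mul_mem_right _ (hk x))
  · change (k (x + y) : ZMod c) = k x + k y
    rw [← Int.cast_add]
    refine key _ _ ?_
    push_cast
    rw [show x + y - (k x + k y) = x - k x + (y - k y) by ring]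
    exact add_mem (hk x) (hk y)
  · obtain ⟨j, q⟩ := (ZMod.intCast_zmod_eq_zero_iff_dvd (k x) c).1 h
    have := add_mem (hk x) (w.mul_mem_right (j : 𝓞 K) (M_mem hs).1)
    rw [q] at this
    simpa using this
  · simpa using key x 0 (by simpa using h)

theorem cop_mul (h : Cop c I) (h' : Cop c I') : Cop c (I * I') :=
  ⟨mul_ne_zero h.1 h'.1, by rw [Ideal.mul_sup_eq_of_coprime_left h.2, h'.2]⟩

theorem cop_le (h : Cop c I) (l : I ≤ I') : Cop c I' :=
  ⟨fun q => h.1 (le_bot_iff.1 (q ▸ l)), top_le_iff.1 (h.2.ge.trans (sup_le_sup_right l _))⟩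

theorem ex_s (hc : 0 < c) (h : Cop c I) : ∃ y : 𝓞 K, 1 + c * y ∈ I ∧ 1 + c * y ≠ 0 := by
  obtain ⟨a, ha, b, hb, q⟩ := Submodule.mem_sup.1 (h.2.ge (Submodule.mem_top (x := 1)))
  obtain ⟨y, rfl⟩ := Ideal.mem_span_singleton'.1 hb
  by_cases a0 : a = 0
  · refine ⟨Ideal.absNorm I - y, ?_⟩
    rw [show 1 + c * (Ideal.absNorm I - y) = (c : 𝓞 K) * Ideal.absNorm I by
      linear_combination a0 - q]
    exact ⟨I.mul_mem_left _ (Ideal.absNorm_mem I), mul_ne_zero (Nat.cast_ne_zero.2 hc.ne')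
      (Nat.cast_ne_zero.2 (nm_ne h.1))⟩
  · exact ⟨-y, by rw [show 1 + c * -y = a by linear_combination -q]; exact ⟨ha, a0⟩⟩

theorem cl_of {x y : 𝓞 K} (h : I ≠ ⊥) (h' : I' ≠ ⊥) (hx : x ≠ 0) (hy : y ≠ 0)
    (q : Ideal.span {x} * I = Ideal.span {y} * I') : cl I = cl I' := by
  rw [cl, cl, dif_neg h, dif_neg h', ClassGroup.mk0_eq_mk0_iff]
  exact ⟨x, y, hx, hy, q⟩

theorem quo {x y : 𝓞 K} (hx : x ≠ 0) (q : Ideal.span {x} * I = Ideal.span {y}) :
    ∃ p, Ideal.span {p} = I ∧ y = x * p := by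
  obtain ⟨p, rfl⟩ := Ideal.mem_span_singleton.1
    (Ideal.mul_le_left (q.ge (Ideal.mem_span_singleton_self y)))
  rw [← Ideal.span_singleton_mul_span_singleton] at q
  exact ⟨p, (mul_left_cancel₀ (mt Ideal.span_singleton_eq_bot.1 hx) q).symm, rfl⟩

theorem pow_prin (h : I ≠ ⊥) : ∃ (k : ℕ) (x : 𝓞 K), k ≠ 0 ∧ x ≠ 0 ∧ I ^ k = Ideal.span {x} := by
  have q : ClassGroup.mk0 (⟨I, mem_nonZeroDivisors_of_ne_zero h⟩ ^ Nat.card (ClassGroup (𝓞 K))) =
      1 := by rw [map_pow, pow_card_eq_one']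
  obtain ⟨x, hx⟩ := (ClassGroup.mk0_eq_one_iff _).1 q
  refine ⟨_, x, Nat.card_pos.ne', fun z => pow_ne_zero _ h (hx.trans (by simp [z])), hx⟩

/-- the two residue maps and the idempotent -/
structure Cx (c : ℕ) (w w' : Ideal (𝓞 K)) (φ φ' : 𝓞 K →+* ZMod c) (e : 𝓞 K) : Prop where
  sp : Sp c w w'
  k : ∀ x, φ x = 0 ↔ x ∈ w
  k' : ∀ x, φ' x = 0 ↔ x ∈ w'
  e0 : φ e = 0
  e1 : φ' e = 1
  sq : ∃ g, (1 - e) * e = c ^ 2 * g

/-- a generator of `I w'` with residue `r` -/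
structure Rz (w' : Ideal (𝓞 K)) (φ φ' : 𝓞 K →+* ZMod c) (e : 𝓞 K) (r : ZMod c) (I : Ideal (𝓞 K))
    (p f : 𝓞 K) : Prop where
  gen : Ideal.span {p} = I * w'
  eq : c * f = p * e
  res : r * φ' f = φ p

namespace Cx

variable (h : Cx c w w' φ φ' e)
include h

theorem c0 : (c : 𝓞 K) ≠ 0 := Nat.cast_ne_zero.2 h.sp.pos.ne'

theorem dvd {x : 𝓞 K} (a : φ x = 0) (b : φ' x = 0) : ∃ y, x = c * y :=
  inf_mem h.sp ((h.k x).1 a) ((h.k' x).1 b)

theorem oc {x : 𝓞 K} (a : φ x = φ' x) : ∃ (k : ℤ) (y : 𝓞 K), x = k + c * y := by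
  obtain ⟨k, q⟩ := ZMod.intCast_surjective (φ x)
  obtain ⟨y, z⟩ := h.dvd (x := x - k) (by simp [q]) (by simp [q, a])
  exact ⟨k, y, by rw [← z]; ring⟩

theorem ex_f (a : p ∈ w') : ∃ f, c * f = p * e := by
  obtain ⟨y, z⟩ := h.dvd (x := p * e) (by simp [h.e0]) (by simp [(h.k' p).2 a])
  exact ⟨y, z.symm⟩

theorem cop {z : 𝓞 K} (hI : I ≠ ⊥) (hz : z ∈ I) (a : IsUnit (φ z)) (b : IsUnit (φ' z)) :
    Cop c I := by
  obtain ⟨u, a⟩ := a.exists_right_inv
  obtain ⟨v, b⟩ := b.exists_right_inv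
  obtain ⟨u, rfl⟩ := ZMod.intCast_surjective u
  obtain ⟨v, rfl⟩ := ZMod.intCast_surjective v
  obtain ⟨y, q⟩ := h.dvd (x := 1 - z * (u * (1 - e) + v * e)) (by simp [h.e0, a])
    (by simp [h.e1, b])
  refine ⟨hI, (Ideal.eq_top_iff_one _).2 (Submodule.mem_sup.2 ⟨_, I.mul_mem_right
    (u * (1 - e) + v * e) hz, y * c, Ideal.mem_span_singleton'.2 ⟨y, rfl⟩, ?_⟩)⟩
  linear_combination -q

theorem unit {z : 𝓞 K} (a : Cop c (Ideal.span {z})) : IsUnit (φ z) ∧ IsUnit (φ' z) := by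
  obtain ⟨y, q, -⟩ := ex_s h.sp.pos a
  obtain ⟨u, q⟩ := Ideal.mem_span_singleton.1 q
  exact ⟨IsUnit.of_mul_eq_one (φ u) (by simpa using (congrArg φ q).symm),
    IsUnit.of_mul_eq_one (φ' u) (by simpa using (congrArg φ' q).symm)⟩

theorem units (hI : Cop c I) (R : Rz w' φ φ' e r I p f) :
    p ≠ 0 ∧ IsUnit (φ p) ∧ IsUnit (φ' f) ∧ IsUnit r := by
  obtain ⟨y, q, -⟩ := ex_s h.sp.pos hI
  obtain ⟨u, a⟩ := Ideal.mem_span_singleton.1 (R.gen.ge (Ideal.mul_mem_mul q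
    ((h.k' (1 - e)).1 (by simp [h.e1]))))
  obtain ⟨v, b⟩ := Ideal.mem_span_singleton.1 (R.gen.ge (Ideal.mul_mem_mul q (M_mem h.sp).2))
  have b' : (1 + c * y) * e = f * v := mul_left_cancel₀ h.c0 (by
    linear_combination e * b - v * R.eq)
  have a' : IsUnit (φ p) := IsUnit.of_mul_eq_one (φ u) (by simpa [h.e0] using (congrArg φ a).symm)
  exact ⟨mt Ideal.span_singleton_eq_bot.2 (R.gen ▸ mul_ne_zero hI.1 (sp_ne h.sp).2), a',
    IsUnit.of_mul_eq_one (φ' v) (by simpa [h.e1] using (congrArg φ' b').symm),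
    isUnit_of_mul_isUnit_left (R.res ▸ a')⟩

/-- a generator gives a residue -/
theorem ex (hI : Cop c I) (q : Ideal.span {p} = I * w') : ∃ r f, Rz w' φ φ' e r I p f := by
  obtain ⟨f, a⟩ := h.ex_f (Ideal.mul_le_right (q.le (Ideal.mem_span_singleton_self p)))
  obtain ⟨y, s, -⟩ := ex_s h.sp.pos hI
  obtain ⟨v, b⟩ := Ideal.mem_span_singleton.1 (q.ge (Ideal.mul_mem_mul s (M_mem h.sp).2))
  have b' : (1 + c * y) * e = f * v := mul_left_cancel₀ h.c0 (by linear_combination e * b - v * a)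
  have : φ' f * φ' v = 1 := by simpa [h.e1] using (congrArg φ' b').symm
  exact ⟨φ p * φ' v, f, q, a, by rw [mul_assoc, mul_comm (φ' v), this, mul_one]⟩

/-- comparison of two ideals -/
theorem cmp {p' f' : 𝓞 K} (hI : Cop c I) (hI' : Cop c I') (R : Rz w' φ φ' e r I p f)
    (R' : Rz w' φ φ' e r' I' p' f') : ∃ y t : 𝓞 K, Cop c (Ideal.span {1 + c * y}) ∧
      Cop c (Ideal.span {t}) ∧ Ideal.span {1 + c * y} * I = Ideal.span {t} * I' ∧
      r * φ' t = r' * φ t := by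
  obtain ⟨y, s, s0⟩ := ex_s h.sp.pos hI'
  obtain ⟨p0, u1, u2, -⟩ := h.units hI' R'
  have q : Ideal.span {p'} * I = Ideal.span {p} * I' := by
    rw [R.gen, R'.gen]
    ring
  obtain ⟨t, a⟩ := Ideal.mem_span_singleton.1 (Ideal.mul_le_left (q.ge (Ideal.mul_mem_mul
    (Ideal.mem_span_singleton_self p) s)))
  have b : f * (1 + c * y) = f' * t := mul_left_cancel₀ h.c0 (by
    linear_combination (1 + c * y) * R.eq - t * R'.eq + e * a)
  have q' : Ideal.span {1 + c * y} * I = Ideal.span {t} * I' :=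
    mul_left_cancel₀ (mt Ideal.span_singleton_eq_bot.1 p0) (by
      rw [mul_left_comm, q, ← mul_assoc, ← mul_assoc, Ideal.span_singleton_mul_span_singleton,
        Ideal.span_singleton_mul_span_singleton, mul_comm _ p, a])
  have c1 : Cop c (Ideal.span {1 + c * y}) := h.cop (mt Ideal.span_singleton_eq_bot.1 s0)
    (Ideal.mem_span_singleton_self _) (by simp) (by simp)
  refine ⟨y, t, c1, cop_le (q' ▸ cop_mul c1 hI) Ideal.mul_le_left, q', u2.mul_left_cancel ?_⟩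
  have a' : φ p = φ p' * φ t := by simpa using congrArg φ a
  have b' : φ' f = φ' f' * φ' t := by simpa using congrArg φ' b
  linear_combination R.res + a' - r * b' - φ t * R'.res

/-- every residue occurs -/
theorem sur (hH : Cop c H) (hr : IsUnit r) : ∃ I p f, Cop c I ∧ Rz w' φ φ' e r (I * H) p f := by
  obtain ⟨y, s, s0⟩ := ex_s h.sp.pos hH
  obtain ⟨g, hg⟩ := h.sq
  obtain ⟨k, rfl, k0⟩ : ∃ k : ℤ, (k : ZMod c) = r ∧ c + k * (1 - e) ≠ 0 := by
    obtain ⟨k, rfl⟩ := ZMod.intCast_surjective r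
    by_cases a : c + k * (1 - e) = 0
    · refine ⟨k + c, by simp, fun b => h.c0 ?_⟩
      have : 1 - e = 0 := mul_left_cancel₀ h.c0 (by push_cast at b; linear_combination b - a)
      linear_combination a - k * this
    · exact ⟨k, rfl, a⟩
  have e' : 1 - e ∈ w' := (h.k' _).1 (by simp [h.e1])
  obtain ⟨I, q⟩ : H * w' ∣ Ideal.span {(1 + c * y) * (c + k * (1 - e))} :=
    Ideal.dvd_span_singleton.2 (Ideal.mul_mem_mul s (add_mem (M_mem h.sp).2 (w'.mul_mem_left _ e')))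
  have R : Rz w' φ φ' e k (I * H) ((1 + c * y) * (c + k * (1 - e)))
      ((1 + c * y) * (e + k * c * g)) :=
    ⟨by rw [q]; ring, by linear_combination -(1 + c * y) * k * hg, by simp [h.e0, h.e1]⟩
  refine ⟨I, _, _, ?_, R⟩
  have m1 := R.gen.le (Ideal.mem_span_singleton_self _)
  have m2 := Ideal.mul_mem_mul m1 ((h.k e).1 h.e0)
  rw [← R.eq, mul_assoc (I * H), mul_comm w', h.sp.mul, mul_comm (I * H)] at m2
  obtain ⟨z, hz, m3⟩ := Ideal.mem_span_singleton_mul.1 m2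
  obtain rfl := mul_left_cancel₀ h.c0 m3
  refine cop_le (h.cop (I := I * H) (fun a => mul_ne_zero s0 k0 (Ideal.span_singleton_eq_bot.1
    (by rw [R.gen, a, Ideal.bot_mul]))) (add_mem (Ideal.mul_mem_right (1 - e) _
      (Ideal.mul_le_left m1)) (Ideal.mul_mem_right e _ hz)) ?_ ?_) Ideal.mul_le_left
  · simpa [h.e0] using hr
  · simp [h.e1]

/-- the residue depends on the class -/
theorem trans {k k' : ℤ} {x y : 𝓞 K} (a' : Cop c (Ideal.span {k' + c * y}))
    (q : Ideal.span {k + c * x} * I = Ideal.span {k' + c * y} * I')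
    (R : Rz w' φ φ' e r (I * H) p f) : ∃ p' f', Rz w' φ φ' e r (I' * H) p' f' := by
  obtain ⟨p', g, a⟩ := quo (I := I' * H * w') (y := (k + c * x) * p)
    (mt Ideal.span_singleton_eq_bot.2 a'.1) (by
      rw [← Ideal.span_singleton_mul_span_singleton, R.gen, ← mul_assoc, ← mul_assoc, ← q,
        ← mul_assoc, ← mul_assoc])
  obtain ⟨f', b⟩ := h.ex_f (Ideal.mul_le_right (g.le (Ideal.mem_span_singleton_self p')))
  have b' : (k + c * x) * f = (k' + c * y) * f' := mul_left_cancel₀ h.c0 (by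
    linear_combination (k + c * x) * R.eq - (k' + c * y) * b + e * a)
  have u : IsUnit (k' : ZMod c) := by simpa using (h.unit a').1
  have a1 : k * φ p = k' * φ p' := by simpa using congrArg φ a
  have b1 : k * φ' f = k' * φ' f' := by simpa using congrArg φ' b'
  exact ⟨p', f', g, b, u.mul_left_cancel (by linear_combination k * R.res + a1 - r * b1)⟩

theorem uniq (upm : ∀ u : (𝓞 K)ˣ, u = 1 ∨ u = -1) {p' f' : 𝓞 K} (hI : Cop c I)
    (R : Rz w' φ φ' e r I p f) (R' : Rz w' φ φ' e r' I p' f') : r = r' := by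
  obtain ⟨u, q⟩ := Ideal.span_singleton_eq_span_singleton.1 (R.gen.trans R'.gen.symm)
  have b : f * u = f' := mul_left_cancel₀ h.c0 (by linear_combination u * R.eq - R'.eq + e * q)
  refine (h.units hI R).2.2.1.mul_right_cancel ?_
  have := R'.res
  rw [← q, ← b, map_mul, map_mul] at this
  rcases upm u with rfl | rfl <;> simp at this <;> rw [R.res, this]

end Cx

end Vale.Agent.P004C.Ln.Tw
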