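import Vale.Agent.P004C.Ln.St
import Vale.Agent.P004C.Ln.Twi1

/-! # P004 C, block LN: the lattices of conductor `c` below a lattice of conductor one -/

set_option autoImplicit false
set_option linter.all false

open NumberField Module UpperHalfPlane CongruenceSubgroup
open scoped Classical MatrixGroups Real ComplexConjugate

noncomputable section

namespace Vale.Agent.P004C.Ln.Tw

open Wa Wa.Pe Wa.Cj
open P004K (st Oc Cop)

variable {K : Type} [Field K] [NumberField K] {J : K →+* ℂ} {c : ℕ} {w w' A B H : Ideal (𝓞 K)}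
  {φ φ' : 𝓞 K →+* ZMod c} {e p f θ p₀ q₀ y₀ : 𝓞 K} {r : ZMod c} {s : 𝓞 K ≃+* 𝓞 K} {ω : ℂ}
  {τ : ℍ}

/-- the elements with residue `r` -/
def Lr (w' : Ideal (𝓞 K)) (φ φ' : 𝓞 K →+* ZMod c) (e : 𝓞 K) (r : ZMod c) (H : Ideal (𝓞 K))
    (y : 𝓞 K) : Prop := y ∈ H * w' ∧ ∃ f, c * f = y * e ∧ r * φ' f = φ y

theorem jo (x : 𝓞 K) : Jo J x = J x := rfl

theorem oc_iff (h : Cx c w w' φ φ' e) {x : 𝓞 K} : Jo J x ∈ Oc (Jo J) c ↔ φ x = φ' x := by
  refine ⟨fun ⟨k, y, q⟩ => ?_, fun q => ?_⟩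
  · obtain rfl : x = k + c * y := jinj J (by simpa [jo] using q)
    simp
  · obtain ⟨k, y, rfl⟩ := h.oc q
    exact ⟨k, y, by simp⟩

theorem oc_mul {k : ℤ} {x : 𝓞 K} : ∀ z ∈ Oc (Jo J) c, Jo J (k + c * x) * z ∈ Oc (Jo J) c := by
  rintro _ ⟨l, y, rfl⟩
  exact ⟨k * l, k * y + l * x + c * x * y, by simp; ring⟩

theorem mem_st (h : Cx c w w' φ φ' e) (hB : Cop c B) (hH : Cop c H)
    (R : Rz w' φ φ' e r (B * H) p f) (z : ℂ) : z ∈ st (Jo J) B (Oc (Jo J) c) ↔
      ∃ y, Lr w' φ φ' e r H y ∧ Jo J y = Jo J p * z := by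
  obtain ⟨p0, u, -⟩ := h.units (cop_mul hB hH) R
  have g := R.gen.trans (mul_assoc _ _ _)
  have j0 : ∀ {x : 𝓞 K}, x ≠ 0 → Jo J x ≠ 0 := fun a b => a (jinj J (by simpa [jo] using b))
  refine ⟨fun hz => ?_, fun ⟨y, ⟨hy, f', a, b⟩, q⟩ x hx hx' => ?_⟩
  · obtain ⟨x, hx, x0⟩ := ex_s h.sp.pos hB
    have m := hz _ hx (by simpa using oc_mul (J := J) (c := c) (k := 1) (x := x))
    obtain ⟨l, hl⟩ : ∃ l, Jo J (1 + c * x) * z = Jo J l :=
      m.elim fun k ⟨y, q⟩ => ⟨k + c * y, by rw [q]; simp⟩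
    have iv : ∀ b ∈ B, ∃ y, Jo J b * z = Jo J y := fun b hb => by
      obtain ⟨k, y, q⟩ := hz _ (B.mul_mem_left c hb)
        (by simpa using oc_mul (J := J) (c := c) (k := 0) (x := b))
      refine ⟨b * l - x * (k + c * y), ?_⟩
      simp only [map_add, map_mul, map_sub, map_natCast, map_intCast, map_one] at q hl ⊢
      linear_combination Jo J b * hl - Jo J x * q
    obtain ⟨y, q⟩ := iv p (Ideal.mul_le_left (g.le (Ideal.mem_span_singleton_self p)))
    have hy : y ∈ H * w' := by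
      rw [← Ideal.dvd_span_singleton, ← mul_dvd_mul_iff_left hB.1, ← g, Ideal.dvd_iff_le,
        Ideal.mul_le]
      intro b hb v hv
      obtain ⟨t, rfl⟩ := Ideal.mem_span_singleton'.1 hv
      obtain ⟨b', q'⟩ := iv b hb
      refine Ideal.mem_span_singleton'.2 ⟨t * b', jinj J ?_⟩
      change Jo J _ = Jo J _
      simp only [map_mul]
      rw [← q, ← q']
      ring
    obtain ⟨f', a⟩ := h.ex_f (Ideal.mul_le_right hy)
    have b : (1 + c * x) * y = p * l := jinj J (by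
      change Jo J _ = Jo J _
      rw [map_mul, map_mul, ← q, ← hl]
      ring)
    have b' : (1 + c * x) * f' = f * l := mul_left_cancel₀ h.c0 (by
      linear_combination (1 + c * x) * a - l * R.eq + e * b)
    have b1 : φ y = φ p * φ l := by simpa using congrArg φ b
    have b2 : φ' f' = φ' f * φ' l := by simpa using congrArg φ' b'
    exact ⟨y, ⟨hy, f', a, by rw [b1, b2, ← mul_assoc, R.res, (oc_iff (x := l) h).1 (hl ▸ m)]⟩, q.symm⟩
  · have k : φ x = φ' x := (oc_iff (J := J) h).1 (by simpa using hx' 1 ⟨1, 0, by simp⟩)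
    obtain ⟨l, b1⟩ := Ideal.mem_span_singleton.1 (g.ge (Ideal.mul_mem_mul hx hy))
    have b2 : x * f' = f * l := mul_left_cancel₀ h.c0 (by
      linear_combination x * a - l * R.eq + e * b1)
    have : Jo J x * z = Jo J l := mul_left_cancel₀ (j0 p0) (by
      rw [mul_left_comm, ← q, ← map_mul, b1, map_mul])
    rw [this, oc_iff h]
    have c1 := congrArg φ b1
    have c2 := congrArg φ' b2
    rw [map_mul, map_mul] at c1 c2
    refine u.mul_left_cancel ?_
    linear_combination -c1 + r * c2 - φ' x * b + φ' l * R.res + φ y * k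

theorem mem_lr (h : Cx c w w' φ φ' e) (hs : ∀ x, φ' (s x) = φ x) (ht : IsUnit (φ' θ))
    (hN : IsUnit (Ideal.absNorm A : ZMod c)) (hH : Cop c (A.map s)) (b : Ba J θ s A ω τ p₀ q₀)
    (hp : p₀ = Ideal.absNorm A * (1 - e) + c ^ 2 * y₀) {a : ℤ}
    (ha : a * (Ideal.absNorm A : ZMod c) = r * φ' θ) (y : 𝓞 K) : Lr w' φ φ' e r (A.map s) y ↔
      ∃ u v : ℤ, y = u * (c * q₀ + a * p₀) + v * (c * p₀) := by
  obtain ⟨g, hg⟩ := h.sq
  have a1 : φ p₀ = Ideal.absNorm A := by simp [hp, h.e0]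
  have a2 : φ' p₀ = 0 := by simp [hp, h.e1]
  have a3 : φ' q₀ = φ' θ := hN.mul_right_cancel (by simpa [hs, a1, a2] using congrArg φ' b.cov)
  have a4 : p₀ * e = c ^ 2 * (Ideal.absNorm A * g + y₀ * e) := by
    rw [hp]
    linear_combination Ideal.absNorm A * hg
  generalize Ideal.absNorm A * g + y₀ * e = g' at a4
  refine ⟨fun ⟨hy, f, a5, a6⟩ => ?_, fun ⟨u, v, q⟩ => ⟨?_, u * q₀ * e + (u * a + v * c) * c * g',
    by rw [q]; linear_combination -(u * a + v * c) * a4, ?_⟩⟩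
  · obtain ⟨u, v, rfl⟩ := (b.mem y).1 (Ideal.mul_le_left hy)
    obtain ⟨u, rfl⟩ := (ZMod.intCast_zmod_eq_zero_iff_dvd u c).1 (ht.mul_right_cancel (by
      simpa [a2, a3] using (h.k' _).2 (Ideal.mul_le_right hy)))
    obtain rfl : f = u * q₀ * e + v * c * g' := mul_left_cancel₀ h.c0 (by
      push_cast at a5
      linear_combination a5 + v * a4)
    obtain ⟨l, q⟩ := (ZMod.intCast_eq_intCast_iff_dvd_sub (u * a) v c).1 (hN.mul_right_cancel (by
      simp [a1, a3, h.e1] at a6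
      push_cast
      linear_combination a6 + u * ha))
    obtain rfl : v = u * a + c * l := by linear_combination q
    exact ⟨u, l, by push_cast; ring⟩
  · rw [Ideal.mul_eq_inf_of_coprime (top_le_iff.1 (hH.2.ge.trans (sup_le_sup_left
      ((Ideal.span_singleton_le_iff_mem _).2 (M_mem h.sp).2) _)))]
    exact ⟨(b.mem y).2 ⟨u * c, u * a + v * c, by rw [q]; push_cast; ring⟩,
      (h.k' y).1 (by simp [q, a2])⟩
  · simp [q, a1, a3, h.e1]
    linear_combination -u * ha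

/-- the basis of the lattice of conductor `c` -/
theorem bs_st (h : Cx c w w' φ φ' e) (hs : ∀ x, φ' (s x) = φ x) (ht : IsUnit (φ' θ))
    (hN : IsUnit (Ideal.absNorm A : ZMod c)) (hH : Cop c (A.map s)) (b : Ba J θ s A ω τ p₀ q₀)
    (hp : p₀ = Ideal.absNorm A * (1 - e) + c ^ 2 * y₀) {a : ZMod c}
    (ha : a * (Ideal.absNorm A : ZMod c) = r * φ' θ) (hB : Cop c B)
    (R : Rz w' φ φ' e r (B * A.map s) p f) :
    Bs (st (Jo J) B (Oc (Jo J) c)) (c * J p₀ / J p) (sf c a τ) := by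
  have j0 : ∀ {x : 𝓞 K}, x ≠ 0 → J x ≠ 0 := fun a b => a (jinj J (by simpa using b))
  have p0 := j0 (h.units (cop_mul hB hH) R).1
  have c0 : (c : ℂ) ≠ 0 := Nat.cast_ne_zero.2 h.sp.pos.ne'
  refine ⟨div_ne_zero (mul_ne_zero c0 (j0 b.ne)) p0, fun z => (mem_st h hB hH R z).trans ?_⟩
  simp only [mem_lr h hs ht hN hH b hp (a := a.cast) (by simpa using ha), sf_coe]
  generalize (a.cast : ℤ) = k
  have hq := b.hq
  have : ∀ u v : ℤ, Jo J (u * (c * q₀ + k * p₀) + v * (c * p₀)) =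
      J p * (c * J p₀ / J p * (u * (k / c + τ) + v)) := fun u v => by
    simp only [map_add, map_mul, map_natCast, map_intCast, jo, hq]
    field_simp
    ring
  exact ⟨fun ⟨y, ⟨u, v, q⟩, q'⟩ => ⟨u, v, mul_left_cancel₀ p0 (by rw [← this, ← q, q', jo])⟩,
    fun ⟨u, v, q⟩ => ⟨_, ⟨u, v, rfl⟩, by rw [this, q, jo]⟩⟩

end Vale.Agent.P004C.Ln.Tw
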